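import Vale.Agent.P255.Defs

/-!
Local flows depend differentiably on the initial point.
-/

open scoped ContDiff Topology Matrix Manifold
open Set Filter

noncomputable section

namespace Vale.Agent.P255

theorem flow_gron_pos {F : Type} [NormedAddCommGroup F] [NormedSpace ℝ F] {f f' : ℝ → F}
    {ε M η τ : ℝ} (hM : M ≠ 0) (h0 : f 0 = 0) (hf : ∀ s ∈ Ioo (-ε) ε, HasDerivAt f (f' s) s)
    (hb : ∀ s ∈ Ioo (-ε) ε, ‖f' s‖ ≤ M * ‖f s‖ + η) (h1 : 0 ≤ τ) (h2 : τ < ε) :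
    ‖f τ‖ ≤ η * ((Real.exp (M * τ) - 1) / M) := by
  have hs : ∀ s ∈ Icc 0 τ, s ∈ Ioo (-ε) ε := fun s hs => ⟨by linarith [hs.1], hs.2.trans_lt h2⟩
  have h := norm_le_gronwallBound_of_norm_deriv_right_le (δ := 0) (a := 0) (b := τ)
    (fun s h => (hf s (hs s h)).continuousAt.continuousWithinAt)
    (fun s h => (hf s (hs s (Ico_subset_Icc_self h))).hasDerivWithinAt) (by simp [h0])
    (fun s h => hb s (hs s (Ico_subset_Icc_self h))) τ ⟨h1, le_rfl⟩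
  rw [gronwallBound_of_K_ne_0 hM, sub_zero] at h
  exact h.trans_eq (by ring)

theorem flow_gron {F : Type} [NormedAddCommGroup F] [NormedSpace ℝ F] {f f' : ℝ → F}
    {ε M η τ : ℝ} (hM : M ≠ 0) (h0 : f 0 = 0) (hf : ∀ s ∈ Ioo (-ε) ε, HasDerivAt f (f' s) s)
    (hb : ∀ s ∈ Ioo (-ε) ε, ‖f' s‖ ≤ M * ‖f s‖ + η) (hτ : τ ∈ Ioo (-ε) ε) :
    ‖f τ‖ ≤ η * ((Real.exp (M * |τ|) - 1) / M) := by
  rcases le_total 0 τ with h | h
  · rw [abs_of_nonneg h]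
    exact flow_gron_pos hM h0 hf hb h hτ.2
  · have hs : ∀ s ∈ Ioo (-ε) ε, -s ∈ Ioo (-ε) ε := fun s hs =>
      ⟨neg_lt_neg hs.2, neg_lt.1 hs.1⟩
    have h1 := flow_gron_pos (f := fun s => f (-s)) (f' := fun s => (-1 : ℝ) • f' (-s)) (η := η)
      hM (by simpa using h0) (fun s h => (hf _ (hs s h)).scomp s (hasDerivAt_neg s))
      (fun s h => by simpa using hb _ (hs s h)) (neg_nonneg.2 h) (hs τ hτ).2
    rwa [neg_neg, ← abs_of_nonpos h] at h1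

theorem flow_strict {F : Type} [NormedAddCommGroup F] [NormedSpace ℝ F] {W : F → F} {B N : Set F}
    (hB : Convex ℝ B) (hd : ∀ x ∈ B, DifferentiableAt ℝ W x) {K C : NNReal} {M ε : ℝ}
    (hK : LipschitzOnWith K (fderiv ℝ W) B) (hM0 : M ≠ 0) (hM : ∀ x ∈ B, ‖fderiv ℝ W x‖ ≤ M)
    {φ : F → ℝ → F} {L : ℝ → F →L[ℝ] F} {z1 : F} (hN : N ∈ 𝓝 z1)
    (h0 : ∀ z ∈ N, φ z 0 = z) (hL0 : L 0 = ContinuousLinearMap.id ℝ F)
    (hφ : ∀ z ∈ N, ∀ s ∈ Ioo (-ε) ε, φ z s ∈ B ∧ HasDerivAt (φ z) (W (φ z s)) s)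
    (hL : ∀ s ∈ Ioo (-ε) ε, ∀ ζ, HasDerivAt (fun s => L s ζ) (fderiv ℝ W (φ z1 s) (L s ζ)) s)
    (hC : ∀ s ∈ Ioo (-ε) ε, LipschitzOnWith C (φ · s) N) {τ : ℝ} (hτ : τ ∈ Ioo (-ε) ε) :
    HasStrictFDerivAt (fun z => φ z τ) (L τ) z1 := by
  have h1 := mem_of_mem_nhds hN
  have key : ∀ p : F × F, p.1 ∈ N → p.2 ∈ N → ‖φ p.1 τ - φ p.2 τ - L τ (p.1 - p.2)‖ ≤
      K * (C * ‖p - (z1, z1)‖) * (C * ‖p.1 - p.2‖) * ((Real.exp (M * |τ|) - 1) / M) := by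
    intro p hp hp'
    refine flow_gron (f := fun s => φ p.1 s - φ p.2 s - L s (p.1 - p.2)) hM0
      (by simp [h0 _ hp, h0 _ hp', hL0])
      (fun s hs => ((hφ _ hp s hs).2.sub (hφ _ hp' s hs).2).sub (hL s hs _)) (fun s hs => ?_) hτ
    have h2 := Convex.norm_image_sub_le_of_norm_fderiv_le' (𝕜 := ℝ) (f := W)
      (s := B ∩ Metric.closedBall (φ z1 s) (C * ‖p - (z1, z1)‖)) (φ := fderiv ℝ W (φ z1 s))
      (C := K * (C * ‖p - (z1, z1)‖)) (x := φ p.2 s) (y := φ p.1 s) (fun x hx => hd x hx.1)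
      (fun x hx => (hK.norm_sub_le hx.1 (hφ _ h1 s hs).1).trans
        (mul_le_mul_of_nonneg_left (mem_closedBall_iff_norm.1 hx.2) K.2))
      (hB.inter (convex_closedBall _ _))
      ⟨(hφ _ hp' s hs).1, mem_closedBall_iff_norm.2 (((hC s hs).norm_sub_le hp' h1).trans
        (mul_le_mul_of_nonneg_left (norm_snd_le (p - (z1, z1))) C.2))⟩
      ⟨(hφ _ hp s hs).1, mem_closedBall_iff_norm.2 (((hC s hs).norm_sub_le hp h1).trans
        (mul_le_mul_of_nonneg_left (norm_fst_le (p - (z1, z1))) C.2))⟩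
    have h3 : W (φ p.1 s) - W (φ p.2 s) - fderiv ℝ W (φ z1 s) (L s (p.1 - p.2)) =
        fderiv ℝ W (φ z1 s) (φ p.1 s - φ p.2 s - L s (p.1 - p.2)) +
          (W (φ p.1 s) - W (φ p.2 s) - fderiv ℝ W (φ z1 s) (φ p.1 s - φ p.2 s)) := by
      rw [map_sub _ (φ p.1 s - φ p.2 s)]
      abel
    rw [h3]
    refine (norm_add_le _ _).trans (add_le_add ((ContinuousLinearMap.le_opNorm _ _).trans
      (mul_le_mul_of_nonneg_right (hM _ (hφ _ h1 s hs).1) (norm_nonneg _))) (h2.trans ?_))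
    exact mul_le_mul_of_nonneg_left ((hC s hs).norm_sub_le hp hp') (by positivity)
  rw [hasStrictFDerivAt_iff_isLittleO, Asymptotics.isLittleO_iff]
  intro c hc
  have h2 : Tendsto (fun p : F × F => K * (C * ‖p - (z1, z1)‖) * C *
      ((Real.exp (M * |τ|) - 1) / M)) (𝓝 (z1, z1)) (𝓝 0) :=
    Continuous.tendsto' (by fun_prop) _ _ (by simp)
  filter_upwards [h2.eventually (ge_mem_nhds hc), prod_mem_nhds hN hN] with p h3 h4
  refine (key p h4.1 h4.2).trans (le_trans (le_of_eq (by ring))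
    (mul_le_mul_of_nonneg_right h3 (norm_nonneg _)))

theorem local_flow {F : Type} [NormedAddCommGroup F] [NormedSpace ℝ F] [FiniteDimensional ℝ F]
    {W : F → F} {O : Set F} (hO : IsOpen O) (hW : ContDiffOn ℝ ∞ W O) {z0 : F} (h0 : z0 ∈ O) :
    ∃ ε > 0, ∃ N : Set F, IsOpen N ∧ z0 ∈ N ∧ ∃ (φ : F → ℝ → F) (L : F → ℝ → F →L[ℝ] F),
      ∀ z ∈ N, φ z 0 = z ∧ L z 0 = ContinuousLinearMap.id ℝ F ∧ ∀ τ ∈ Ioo (-ε) ε,
        φ z τ ∈ O ∧ HasDerivAt (φ z) (W (φ z τ)) τ ∧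
        HasStrictFDerivAt (fun z => φ z τ) (L z τ) z ∧
        ∀ ζ, HasDerivAt (fun τ => L z τ ζ) (fderiv ℝ W (φ z τ) (L z τ ζ)) τ := by
  have := FiniteDimensional.complete ℝ F
  have h1 : ContDiffAt ℝ ∞ W z0 := hW.contDiffAt (hO.mem_nhds h0)
  have h2 : ContDiffAt ℝ 1 (fderiv ℝ W) z0 := h1.fderiv_right (by norm_cast)
  have h3 : ContDiffAt ℝ 1 (fun p : F × (F →L[ℝ] F) => (W p.1, (fderiv ℝ W p.1).comp p.2))
      (z0, ContinuousLinearMap.id ℝ F) :=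
    ((h1.of_le (by norm_cast)).comp _ contDiffAt_fst).prodMk
      ((h2.comp _ contDiffAt_fst).clm_comp contDiffAt_snd)
  obtain ⟨K, s, hs, hK⟩ := h2.exists_lipschitzOnWith
  obtain ⟨ρ, hρ, hρs⟩ := Metric.mem_nhds_iff.1 (inter_mem hs (hO.mem_nhds h0))
  obtain ⟨ε, hε, a, r, L0, K0, hr, hpl⟩ := IsPicardLindelof.of_contDiffAt_one h3
  obtain ⟨α, hα, C, hC⟩ := (hpl 0).exists_forall_mem_closedBall_eq_hasDerivWithinAt_lipschitzOnWith
  have hc : ContinuousAt (Function.uncurry α) ((z0, ContinuousLinearMap.id ℝ F), 0) :=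
    (continuousOn_prod_of_continuousOn_lipschitzOnWith _ C
      (fun x hx => HasDerivWithinAt.continuousOn (hα x hx).2) hC).continuousAt
      (prod_mem_nhds (Metric.closedBall_mem_nhds _ hr) (Icc_mem_nhds (by simpa) (by simpa)))
  have hc' : ContinuousAt (fun q : F × ℝ => (α (q.1, ContinuousLinearMap.id ℝ F) q.2).1) (z0, 0) :=
    (ContinuousAt.comp (f := fun q : F × ℝ => ((q.1, ContinuousLinearMap.id ℝ F), q.2))
      (x := (z0, 0)) hc (by fun_prop)).fst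
  obtain ⟨δ, hδ, hδ'⟩ := Metric.continuousAt_iff.1 hc' ρ hρ
  rw [(hα _ (Metric.mem_closedBall_self r.2)).1] at hδ'
  have hN : ∀ z ∈ Metric.ball z0 (min δ r), (z, ContinuousLinearMap.id ℝ F) ∈
      Metric.closedBall (z0, ContinuousLinearMap.id ℝ F) r := fun z hz => by
    rw [Metric.mem_closedBall, Prod.dist_eq, dist_self]
    exact max_le ((Metric.mem_ball.1 hz).trans_le (min_le_right _ _)).le r.coe_nonneg
  have hI : ∀ τ ∈ Ioo (-min δ ε) (min δ ε), τ ∈ Ioo (0 - ε) (0 + ε) ∧ |τ| < δ := fun τ hτ =>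
    ⟨⟨by linarith [hτ.1, min_le_right δ ε], by linarith [hτ.2, min_le_right δ ε]⟩,
      (abs_lt.2 hτ).trans_le (min_le_left _ _)⟩
  have hD := fun z hz τ hτ => ((hα _ (hN z hz)).2 τ (Ioo_subset_Icc_self (hI τ hτ).1)).hasDerivAt
    (Icc_mem_nhds (hI τ hτ).1.1 (hI τ hτ).1.2)
  have hφ : ∀ z ∈ Metric.ball z0 (min δ r), ∀ τ ∈ Ioo (-min δ ε) (min δ ε),
      (α (z, ContinuousLinearMap.id ℝ F) τ).1 ∈ Metric.ball z0 ρ ∧
      HasDerivAt (fun τ => (α (z, ContinuousLinearMap.id ℝ F) τ).1)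
        (W (α (z, ContinuousLinearMap.id ℝ F) τ).1) τ := fun z hz τ hτ =>
    ⟨@hδ' (z, τ) (max_lt ((Metric.mem_ball.1 hz).trans_le (min_le_left _ _))
      (by simpa using (hI τ hτ).2)), by
      have h := (ContinuousLinearMap.fst ℝ _ _).hasFDerivAt.comp_hasDerivAt τ (hD z hz τ hτ)
      exact h⟩
  have hL : ∀ z ∈ Metric.ball z0 (min δ r), ∀ τ ∈ Ioo (-min δ ε) (min δ ε), ∀ ζ,
      HasDerivAt (fun τ => (α (z, ContinuousLinearMap.id ℝ F) τ).2 ζ)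
        (fderiv ℝ W (α (z, ContinuousLinearMap.id ℝ F) τ).1
          ((α (z, ContinuousLinearMap.id ℝ F) τ).2 ζ)) τ := fun z hz τ hτ ζ => by
    have h := ((ContinuousLinearMap.apply ℝ F ζ).comp
      (ContinuousLinearMap.snd ℝ _ _)).hasFDerivAt.comp_hasDerivAt τ (hD z hz τ hτ)
    exact h
  refine ⟨min δ ε, lt_min hδ hε, Metric.ball z0 (min δ r), Metric.isOpen_ball,
    Metric.mem_ball_self (lt_min hδ hr), fun z τ => (α (z, ContinuousLinearMap.id ℝ F) τ).1,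
    fun z τ => (α (z, ContinuousLinearMap.id ℝ F) τ).2, fun z hz =>
    ⟨congrArg Prod.fst (hα _ (hN z hz)).1, congrArg Prod.snd (hα _ (hN z hz)).1, fun τ hτ =>
      ⟨(hρs (hφ z hz τ hτ).1).2, (hφ z hz τ hτ).2, ?_, hL z hz τ hτ⟩⟩⟩
  refine flow_strict (C := C) (M := K * ρ + ‖fderiv ℝ W z0‖ + 1) (convex_ball z0 ρ)
    (fun x hx => (hW.contDiffAt (hO.mem_nhds (hρs hx).2)).differentiableAt (by simp))
    (hK.mono fun x hx => (hρs hx).1) (by positivity) (fun x hx => ?_)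
    (Metric.isOpen_ball.mem_nhds hz) (fun z hz => congrArg Prod.fst (hα _ (hN z hz)).1)
    (congrArg Prod.snd (hα _ (hN z hz)).1) hφ (hL z hz)
    (fun t ht => LipschitzOnWith.of_dist_le_mul fun x hx y hy => ?_) hτ
  · have h4 := hK.norm_sub_le (hρs hx).1 (mem_of_mem_nhds hs)
    have h5 := mul_le_mul_of_nonneg_left (mem_ball_iff_norm.1 hx).le K.coe_nonneg
    linarith [norm_le_norm_sub_add (fderiv ℝ W x) (fderiv ℝ W z0)]
  · have h4 := (hC t (Ioo_subset_Icc_self (hI t ht).1)).dist_le_mul _ (hN x hx) _ (hN y hy)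
    refine (le_max_left _ _).trans (h4.trans_eq ?_)
    simp [Prod.dist_eq]

end Vale.Agent.P255
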