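import Vale.Agent.P255.Defs

/-!
The algebraic obstruction to nonpositive curvature.
-/

open scoped ContDiff Topology Matrix Manifold
open Set Filter

noncomputable section

namespace Vale.Agent.P255

section Metric

variable {X : Type} [TopologicalSpace X] {d : X → X → ℝ}

/-- The isometries of a distance function. -/
def catIso (d : X → X → ℝ) : Subgroup (Equiv.Perm X) where
  carrier := {f | ∀ x y, d (f x) (f y) = d x y}
  mul_mem' hf hg x y := (hf _ _).trans (hg x y)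
  one_mem' _ _ := rfl
  inv_mem' {f} hf x y := by simpa using (hf (f⁻¹ x) (f⁻¹ y)).symm

/-- Points of minimal displacement. -/
def catMin (d : X → X → ℝ) (f : X → X) (y : X) : Prop := ∀ x, d y (f y) ≤ d x (f x)

/-- The linear coefficient. -/
def catLam (d : X → X → ℝ) (f : X → X) (x y : X) : ℝ :=
  d x (f y) ^ 2 - d x y ^ 2 - d x (f x) ^ 2

theorem cat_seq {ψ : ℤ → ℝ} {t : ℝ} (h : ∀ n, ψ (n + 1) + ψ (n - 1) = 2 * ψ n + 2 * t) (n : ℤ) :
    ψ n = t * n ^ 2 + (ψ 1 - ψ 0 - t) * n + ψ 0 := by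
  suffices H : ψ n = t * n ^ 2 + (ψ 1 - ψ 0 - t) * n + ψ 0 ∧
    ψ (n + 1) = t * (n + 1) ^ 2 + (ψ 1 - ψ 0 - t) * (n + 1) + ψ 0 from H.1
  induction n using Int.induction_on with
  | zero => simp
  | succ n ih =>
    have h1 := h (n + 1)
    rw [add_sub_cancel_right] at h1
    push_cast at ih ⊢
    exact ⟨ih.2, by linarith [ih.1, ih.2]⟩
  | pred n ih =>
    have h1 := h (-n)
    rw [sub_add_cancel]
    push_cast at ih ⊢
    exact ⟨by linarith [ih.1, ih.2], by linarith [ih.1]⟩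

theorem cat_lin {a c : ℝ} (h : ∀ n : ℤ, a * n ≤ c) : a = 0 := by
  by_contra ha
  obtain ⟨n, hn⟩ := exists_nat_gt (c / |a|)
  rw [div_lt_iff₀ (abs_pos.2 ha)] at hn
  have h1 := h n
  have h2 := h (-n)
  push_cast at h1 h2
  rcases abs_cases a with h3 | h3 <;> rw [h3.1] at hn <;> linarith

omit [TopologicalSpace X] in
theorem catMin.comm {f g : Equiv.Perm X} (hg : g ∈ catIso d) (c : Commute f g) {y : X}
    (hy : catMin d f y) : catMin d f (g y) := fun x => by
  rw [← Equiv.Perm.mul_apply, c.eq, Equiv.Perm.mul_apply, hg]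
  exact hy x

omit [TopologicalSpace X] in
theorem catLam_comm {f g : Equiv.Perm X} (hg : g ∈ catIso d) (c : Commute f g) (x y : X) :
    catLam d f (g x) (g y) = catLam d f x y := by
  have h : ∀ z, f (g z) = g (f z) := fun z => by
    rw [← Equiv.Perm.mul_apply, c.eq, Equiv.Perm.mul_apply]
  rw [catLam, catLam, h, h, hg, hg, hg]

namespace Had

variable (H : Had d)
include H

theorem cat_cont : Continuous fun q : X × X => d q.1 q.2 := by
  refine continuous_iff_continuousAt.2 fun q => tendsto_iff_dist_tendsto_zero.2 ?_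
  refine squeeze_zero (g := fun r : X × X => d q.1 r.1 + d q.2 r.2) (fun _ => dist_nonneg)
    (fun r => ?_) (Continuous.tendsto' (((H.cont _).comp continuous_fst).add
      ((H.cont _).comp continuous_snd)) _ _ (by simp [H.self]))
  rw [Real.dist_eq, abs_le]
  constructor
  · linarith [H.triangle q.1 r.1 q.2, H.triangle r.1 r.2 q.2, H.symm q.2 r.2]
  · linarith [H.triangle r.1 q.1 r.2, H.triangle q.1 q.2 r.2, H.symm q.1 r.1]

theorem cat_sq (x y z : X) : d x z ^ 2 ≤ 2 * d x y ^ 2 + 2 * d y z ^ 2 := by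
  have h := pow_le_pow_left₀ (H.nonneg x z) (H.triangle x y z) 2
  nlinarith [sq_nonneg (d x y - d y z)]

theorem cat_quad (a b c e : X) :
    d a c ^ 2 + d b e ^ 2 ≤ d a b ^ 2 + d b c ^ 2 + d c e ^ 2 + d e a ^ 2 := by
  obtain ⟨m, hm⟩ := H.mid a c
  have h1 := H.cat_sq b m e
  have h2 := hm b
  have h3 := hm e
  rw [H.symm m e] at h1
  rw [H.symm a b, H.symm c e]
  linarith

theorem cat_mid {f : Equiv.Perm X} (hf : f ∈ catIso d) {y : X} (hy : catMin d f y) (z : X) :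
    d z y ^ 2 ≤ d z (f⁻¹ y) ^ 2 / 2 + d z (f y) ^ 2 / 2 - d y (f y) ^ 2 := by
  have e1 : d (f⁻¹ y) y = d y (f y) := by simpa using (hf (f⁻¹ y) y).symm
  have h1 : 4 * d y (f y) ^ 2 ≤ d (f⁻¹ y) (f y) ^ 2 := by
    obtain ⟨m, hm⟩ := H.mid y (f y)
    have h1 := hm y
    have h2 := hm (f m)
    have h3 := hm (f⁻¹ y)
    have h4 := pow_le_pow_left₀ (H.nonneg _ _) (hy m) 2
    have e2 : d (f⁻¹ y) m = d (f m) y := by simpa [H.symm y] using (hf (f⁻¹ y) m).symm
    rw [H.self] at h1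
    rw [hf, H.symm (f m) m, H.symm m y] at h2
    rw [e1, e2] at h3
    linarith
  obtain ⟨m, hm⟩ := H.mid (f⁻¹ y) (f y)
  have h2 := hm y
  rw [H.symm y (f⁻¹ y), e1] at h2
  obtain rfl : y = m := H.eq_of_zero _ _ (pow_eq_zero_iff two_ne_zero |>.1
    (le_antisymm (by linarith) (sq_nonneg _)))
  linarith [hm z]

theorem cat_psi {f : Equiv.Perm X} (hf : f ∈ catIso d) {x y : X} (hx : catMin d f x)
    (hy : catMin d f y) (n : ℤ) :
    d x ((f ^ n) y) ^ 2 = d x (f x) ^ 2 * n ^ 2 + catLam d f x y * n + d x y ^ 2 := by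
  refine (cat_seq (ψ := fun n => d x ((f ^ n) y) ^ 2) (t := d x (f x) ^ 2) (fun n => ?_) n).trans
    (by simp [catLam])
  have h1 := hy.comm (zpow_mem hf n) ((Commute.refl f).zpow_right n)
  have e1 : (f ^ (n + 1)) y = f ((f ^ n) y) := by rw [add_comm, zpow_one_add]; rfl
  have e2 : (f ^ (n - 1)) y = f⁻¹ ((f ^ n) y) := by
    rw [sub_eq_neg_add, zpow_add, zpow_neg_one]; rfl
  rw [e1, e2]
  generalize (f ^ n) y = w at h1
  have e3 : d w (f w) = d x (f x) := le_antisymm (h1 x) (hx w)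
  have h2 := H.cat_mid hf h1 x
  have h3 := H.cat_quad x (f x) (f w) w
  have e4 : d (f x) w = d x (f⁻¹ w) := by simpa using hf x (f⁻¹ w)
  rw [e4, hf, H.symm (f w) w, e3, H.symm w x] at h3
  rw [e3] at h2
  linarith

theorem catLam_self (f : X → X) (x : X) : catLam d f x x = 0 := by simp [catLam, H.self]

theorem cat_cocycle {f : Equiv.Perm X} (hf : f ∈ catIso d) {x y z : X} (hx : catMin d f x)
    (hy : catMin d f y) (hz : catMin d f z) :
    catLam d f x z = catLam d f x y + catLam d f y z := by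
  have h := cat_lin (a := 2 * (catLam d f x z - catLam d f x y - catLam d f y z))
    (c := 2 * d x y ^ 2 + 2 * d y z ^ 2) fun n => by
      have h1 := H.cat_sq x ((f ^ n) y) ((f ^ (n + n)) z)
      rw [H.cat_psi hf hx hz, H.cat_psi hf hx hy, zpow_add, Equiv.Perm.mul_apply,
        zpow_mem hf n, H.cat_psi hf hy hz, le_antisymm (hy x) (hx y)] at h1
      push_cast at h1
      nlinarith [sq_nonneg (d x z)]
  linarith

theorem cat_add {f g h : Equiv.Perm X} (hf : f ∈ catIso d) (hg : g ∈ catIso d)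
    (hh : h ∈ catIso d) (cg : Commute f g) (ch : Commute f h) {x : X} (hx : catMin d f x) :
    catLam d f x ((g * h) x) = catLam d f x (g x) + catLam d f x (h x) := by
  rw [H.cat_cocycle hf hx (hx.comm hg cg) (hx.comm (mul_mem hg hh) (cg.mul_right ch)),
    Equiv.Perm.mul_apply, catLam_comm hg cg]

theorem cat_pow {f g : Equiv.Perm X} (hf : f ∈ catIso d) (hg : g ∈ catIso d) (cg : Commute f g)
    {x : X} (hx : catMin d f x) (n : ℕ) :
    catLam d f x ((g ^ n) x) = n * catLam d f x (g x) := by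
  induction n with
  | zero => simp [H.catLam_self]
  | succ n ih =>
    rw [pow_succ, H.cat_add hf (pow_mem hg n) hg (cg.pow_right n) cg hx, ih]
    push_cast
    ring

theorem cat_self {f : Equiv.Perm X} (hf : f ∈ catIso d) {x : X} (hx : catMin d f x) :
    catLam d f x (f x) = 2 * d x (f x) ^ 2 := by
  have h := H.cat_psi hf hx hx 2
  rw [H.catLam_self, H.self, zpow_two, Equiv.Perm.mul_apply] at h
  rw [catLam, h]
  push_cast
  ring

theorem cat_close (k : ℕ → Equiv.Perm X) (hk : ∀ n, k n ∈ catIso d) (x y : X) :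
    Tendsto (fun n : ℕ => d x (k n x) / n - d y (k n y) / n) atTop (𝓝 0) := by
  refine squeeze_zero_norm (fun n => ?_) (tendsto_const_div_atTop_nhds_zero_nat (2 * d x y))
  rw [← sub_div, Real.norm_eq_abs, abs_div, Nat.abs_cast]
  refine div_le_div_of_nonneg_right (abs_le.2 ⟨?_, ?_⟩) (Nat.cast_nonneg n)
  · linarith [H.triangle y x (k n y), H.triangle x (k n x) (k n y), hk n x y, H.symm x y]
  · linarith [H.triangle x y (k n x), H.triangle y (k n y) (k n x), hk n y x, H.symm x y]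

theorem cat_lim {f g : Equiv.Perm X} (hf : f ∈ catIso d) (hg : g ∈ catIso d) (c : Commute f g)
    {x y : X} (hx : catMin d f x) (hy : catMin d g y) :
    Tendsto (fun n : ℕ => (d x (((f * g) ^ n) x) / n) ^ 2) atTop
      (𝓝 (d x (f x) ^ 2 + catLam d f x (g x) + d y (g y) ^ 2)) := by
  have h1 : Tendsto (fun n : ℕ => d y ((g ^ n) y) / n) atTop (𝓝 (d y (g y))) := by
    refine tendsto_const_nhds.congr' ((eventually_gt_atTop 0).mono fun n hn => ?_)
    have h := H.cat_psi hg hy hy n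
    rw [H.catLam_self, H.self, zpow_natCast] at h
    rw [eq_div_iff (by positivity), ← sq_eq_sq₀ (mul_nonneg (H.nonneg _ _) (Nat.cast_nonneg n))
      (H.nonneg _ _), h]
    push_cast
    ring
  have h2 := ((H.cat_close _ (pow_mem hg) x y).add h1).pow 2
  simp only [sub_add_cancel, zero_add] at h2
  refine (h2.const_add _).congr' ((eventually_gt_atTop 0).mono fun n hn => ?_)
  have h := H.cat_psi hf hx (hx.comm (pow_mem hg n) (c.pow_right n)) n
  rw [H.cat_pow hf hg c hx, zpow_natCast, ← Equiv.Perm.mul_apply, ← c.mul_pow] at h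
  simp only [div_pow, h]
  push_cast
  field_simp

theorem cat_symm {f g : Equiv.Perm X} (hf : f ∈ catIso d) (hg : g ∈ catIso d) (c : Commute f g)
    {x y : X} (hx : catMin d f x) (hy : catMin d g y) :
    catLam d f x (g x) = catLam d g y (f y) := by
  have h1 := H.cat_lim hf hg c hx hy
  have h2 := H.cat_lim hg hf c.symm hy hx
  rw [← c.eq] at h2
  have h3 := h1.sqrt.sub h2.sqrt
  simp only [Real.sqrt_sq (div_nonneg (H.nonneg _ _) (Nat.cast_nonneg _))] at h3
  have h4 := tendsto_nhds_unique h3 (H.cat_close _ (pow_mem (mul_mem hf hg)) x y)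
  rw [sub_eq_zero, Real.sqrt_inj (ge_of_tendsto' h1 fun _ => sq_nonneg _)
    (ge_of_tendsto' h2 fun _ => sq_nonneg _)] at h4
  linarith

theorem cat_main {f1 f2 a b a' b' : Equiv.Perm X} (d1 : f1 ∈ catIso d) (d2 : f2 ∈ catIso d)
    (da : a ∈ catIso d) (db : b ∈ catIso d) (da' : a' ∈ catIso d) (db' : b' ∈ catIso d)
    (h12 : Commute f1 f2) (ha : Commute f1 a) (hb : Commute f1 b) (ha' : Commute f2 a')
    (hb' : Commute f2 b') (hab : a * b = b * (f2 * a)) (hab' : a' * b' = b' * (f1 * (f2 * a')))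
    {x y : X} (hx : catMin d f1 x) (hy : catMin d f2 y) : f2 y = y := by
  have h1 := H.cat_add d1 da db ha hb hx
  rw [hab, H.cat_add d1 db (mul_mem d2 da) hb (h12.mul_right ha) hx,
    H.cat_add d1 d2 da h12 ha hx] at h1
  have h2 := H.cat_add d2 da' db' ha' hb' hy
  rw [hab', H.cat_add d2 db' (mul_mem d1 (mul_mem d2 da')) hb'
    (h12.symm.mul_right ((Commute.refl f2).mul_right ha')) hy,
    H.cat_add d2 d1 (mul_mem d2 da') h12.symm ((Commute.refl f2).mul_right ha') hy,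
    H.cat_add d2 d2 da' (Commute.refl f2) ha' hy, H.cat_self d2 hy,
    ← H.cat_symm d1 d2 h12 hx hy] at h2
  exact (H.eq_of_zero _ _ (pow_eq_zero_iff two_ne_zero |>.1 (by linarith))).symm

end Had

end Metric

section Top

variable {M : Type} [TopologicalSpace M] {p : E → M} (hp : IsCoveringMap p)
include hp

theorem cat_deck_ex {x y : E} (h : p y = p x) : ∃ f, Deck p f ∧ f x = y := by
  obtain ⟨F, ⟨h1, h2⟩, -⟩ := hp.existsUnique_continuousMap_lifts ⟨p, hp.continuous⟩ x y h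
  exact ⟨F, ⟨F.continuous, congrFun h2⟩, h1⟩

theorem cat_deck_eq {f g : E → E} (hf : Deck p f) (hg : Deck p g) {x : E} (h : f x = g x) :
    f = g :=
  hp.eq_of_comp_eq hf.1 hg.1 (funext fun y => (hf.2 y).trans (hg.2 y).symm) x h

omit [TopologicalSpace M] hp in
theorem Deck.cat_comp {f g : E → E} (hf : Deck p f) (hg : Deck p g) : Deck p (f ∘ g) :=
  ⟨hf.1.comp hg.1, fun x => (hf.2 _).trans (hg.2 x)⟩

theorem cat_deck_perm {f : E → E} (hf : Deck p f) : ∃ F : Equiv.Perm E, ⇑F = f := by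
  obtain ⟨g, hg, h⟩ := cat_deck_ex hp (hf.2 0).symm
  have hid : Deck p id := ⟨continuous_id, fun _ => rfl⟩
  exact ⟨⟨f, g, congrFun (cat_deck_eq hp (hg.cat_comp hf) hid h),
    congrFun (cat_deck_eq hp (hf.cat_comp hg) hid (x := f 0) (congrArg f h))⟩, rfl⟩

theorem cat_cocompact [CompactSpace M] {d : E → E → ℝ} (H : Had d) :
    ∃ R : ℝ, ∀ x, ∃ c, d 0 c ≤ R ∧ p x = p c := by
  have h1 : IsClosed (range p) := by
    refine ⟨isOpen_iff_forall_mem_open.2 fun m hm => ?_⟩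
    obtain ⟨-, U, hm', hU, -, F, -⟩ := hp m
    refine ⟨U, ?_, hU, hm'⟩
    rintro _ h ⟨x, rfl⟩
    exact hm ⟨_, (F ⟨x, h⟩).2.2⟩
  obtain ⟨n, hn⟩ := h1.isCompact.elim_directed_cover (fun n : ℕ => p '' {x | d 0 x < n})
    (fun n => hp.isOpenMap _ (isOpen_lt (H.cont 0) continuous_const))
    (by
      rintro _ ⟨x, rfl⟩
      obtain ⟨n, hn⟩ := exists_nat_gt (d 0 x)
      exact mem_iUnion.2 ⟨n, x, hn, rfl⟩)
    (Monotone.directed_le fun m n h => image_mono fun x hx =>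
      lt_of_lt_of_le (b := (m : ℝ)) hx (Nat.cast_le.2 h))
  refine ⟨n, fun x => ?_⟩
  obtain ⟨c, h2, h3⟩ := hn ⟨x, rfl⟩
  exact ⟨c, le_of_lt h2, h3.symm⟩

theorem cat_min [T2Space M] [CompactSpace M] {d : E → E → ℝ} (H : Had d)
    (hiso : ∀ f, Deck p f → ∀ y z, d (f y) (f z) = d y z) {f : E → E} (hf : Deck p f) :
    ∃ y, catMin d f y := by
  obtain ⟨R, hR⟩ := cat_cocompact hp H
  have h1 : ({z | d 0 z ≤ d 0 (f 0) + 2 * R} ∩ p ⁻¹' {p 0}).Finite :=
    ((H.compact _ _).inter_right (isClosed_singleton.preimage hp.continuous)).finite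
      (IsDiscrete.mono ⟨(hp (p 0)).1⟩ inter_subset_right)
  have h2 : ∀ z, ∃ h, Deck p h ∧ ((∃ h, Deck p h ∧ h z = f (h 0)) → h z = f (h 0)) := fun z => by
    by_cases h : ∃ h, Deck p h ∧ h z = f (h 0)
    · exact h.imp fun h h' => ⟨h'.1, fun _ => h'.2⟩
    · exact ⟨f, hf, fun h' => (h h').elim⟩
  choose g hg hg' using h2
  have h3 := h1.isCompact_biUnion fun z _ => (H.compact 0 R).image (hg z).1
  have h4 : ∀ x, d x (f x) ≤ d 0 (f 0) → ∃ x' ∈ ⋃ z ∈ {z | d 0 z ≤ d 0 (f 0) + 2 * R} ∩ p ⁻¹' {p 0},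
      g z '' {y | d 0 y ≤ R}, d x' (f x') = d x (f x) := by
    intro x hx
    obtain ⟨c, hc, hc'⟩ := hR x
    obtain ⟨h, hh, rfl⟩ := cat_deck_ex hp hc'
    obtain ⟨F, rfl⟩ := cat_deck_perm hp hh
    obtain ⟨z, hz⟩ := F.surjective (f (F 0))
    have e1 : p z = p 0 := by rw [← hh.2 z, hz, hf.2, hh.2]
    obtain ⟨k, hk, rfl⟩ := cat_deck_ex hp e1
    have e2 : ∀ h, Deck p h → h (k 0) = f (h 0) → d (h c) (f (h c)) = d c (k c) := fun h h1 h2 => by
      rw [← hiso h h1 c (k c)]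
      exact congrArg _ (congrFun (cat_deck_eq hp (h1.cat_comp hk) (hf.cat_comp h1) h2) c).symm
    refine ⟨g (k 0) c, mem_biUnion (x := k 0) ⟨?_, e1⟩ ⟨c, hc, rfl⟩,
      (e2 _ (hg _) (hg' _ ⟨F, hh, hz⟩)).trans (e2 _ hh hz).symm⟩
    rw [e2 _ hh hz] at hx
    change d 0 (k 0) ≤ _
    linarith [H.triangle 0 c (k 0), H.triangle c (k c) (k 0), hiso k hk c 0, H.symm c 0]
  obtain ⟨x0, hx0, -⟩ := h4 0 le_rfl
  obtain ⟨y, -, hy⟩ := h3.exists_isMinOn ⟨x0, hx0⟩ (f := fun x => d x (f x))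
    (H.cat_cont.comp (continuous_id.prodMk hf.1)).continuousOn
  have h5 : ∀ x, d x (f x) ≤ d 0 (f 0) → d y (f y) ≤ d x (f x) := fun x hx => by
    obtain ⟨x', h6, h7⟩ := h4 x hx
    exact h7 ▸ hy h6
  exact ⟨y, fun x => (le_total (d x (f x)) (d 0 (f 0))).elim (h5 x) (h5 0 le_rfl).trans⟩

end Top

theorem deck_obstruction {M : Type} [TopologicalSpace M] [T2Space M] [CompactSpace M] {p : E → M}
    (hp : IsCoveringMap p) {d : E → E → ℝ} (H : Had d)
    (hiso : ∀ f, Deck p f → ∀ y z, d (f y) (f z) = d y z) {f1 f2 a b a' b' : E → E}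
    (d1 : Deck p f1) (d2 : Deck p f2) (da : Deck p a) (db : Deck p b) (da' : Deck p a')
    (db' : Deck p b') (h12 : ∀ x, f1 (f2 x) = f2 (f1 x)) (ha : ∀ x, a (f1 x) = f1 (a x))
    (hb : ∀ x, b (f1 x) = f1 (b x)) (ha' : ∀ x, a' (f2 x) = f2 (a' x))
    (hb' : ∀ x, b' (f2 x) = f2 (b' x)) (hab : ∀ x, a (b x) = b (f2 (a x)))
    (hab' : ∀ x, a' (b' x) = b' (f1 (f2 (a' x)))) : ∀ x, f2 x = x := by
  obtain ⟨x, hx⟩ := cat_min hp H hiso d1
  obtain ⟨y, hy⟩ := cat_min hp H hiso d2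
  obtain ⟨f1, rfl⟩ := cat_deck_perm hp d1
  obtain ⟨f2, rfl⟩ := cat_deck_perm hp d2
  obtain ⟨a, rfl⟩ := cat_deck_perm hp da
  obtain ⟨b, rfl⟩ := cat_deck_perm hp db
  obtain ⟨a', rfl⟩ := cat_deck_perm hp da'
  obtain ⟨b', rfl⟩ := cat_deck_perm hp db'
  exact congrFun (cat_deck_eq hp d2 ⟨continuous_id, fun _ => rfl⟩ (H.cat_main (hiso _ d1)
    (hiso _ d2) (hiso _ da) (hiso _ db) (hiso _ da') (hiso _ db') (Equiv.ext h12)
    (Equiv.ext fun z => (ha z).symm) (Equiv.ext fun z => (hb z).symm)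
    (Equiv.ext fun z => (ha' z).symm) (Equiv.ext fun z => (hb' z).symm) (Equiv.ext hab)
    (Equiv.ext hab') hx hy))

end Vale.Agent.P255
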