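import Vale.Agent.P255.Chart1

/-!
The momentum equations in one chart.
-/

open scoped ContDiff Topology Matrix Manifold
open Set Filter

noncomputable section

namespace Vale.Agent.P255

variable {A : Mat} {G : E → Mat} {U : Set E} {y : E}

namespace Good

variable (h : Good G U)
include h

/-- The momentum equation along a geodesic. -/
theorem ham_P {x v : ℝ → E} {t : ℝ} (ht : x t ∈ U)
    (hx : HasDerivAt (fun s => (x s, v s)) (Wf G (x t, v t)) t) (Y : E) :
    HasDerivAt (fun s => ip (G (x s)) (v s) Y) (dG G (x t) Y (v t) (v t) / 2) t := by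
  refine (h.c0_hasDerivAt ht (c1_fst hx) (c1_snd hx) (hasDerivAt_const t Y)).congr_deriv ?_
  simp only [Wf]
  rw [← h.dG_eq ht, ip_neg_left, h.ip_chr ht, ip_zero_right]
  ring

theorem c2_symm (hy : y ∈ U) (a b u w : E) :
    lineDeriv ℝ (fun z => dG G z b u w) y a = lineDeriv ℝ (fun z => dG G z a u w) y b := by
  have hf := (h.ip_smooth u w).contDiffAt (h.isOpen.mem_nhds hy)
  have hA : HasFDerivAt (fderiv ℝ fun z => ip (G z) u w)
      (fderiv ℝ (fderiv ℝ fun z => ip (G z) u w) y) y :=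
    ((hf.fderiv_right (m := 1) c1_two).differentiableAt (by simp)).hasFDerivAt
  have hs := hf.isSymmSndFDerivAt
    (by simp only [minSmoothness_of_isRCLikeNormedField]; exact c1_two)
  have key : ∀ a b, lineDeriv ℝ (fun z => dG G z b u w) y a =
      fderiv ℝ (fderiv ℝ fun z => ip (G z) u w) y a b := fun a b => by
    have h1 : (fun z => dG G z b u w) =ᶠ[𝓝 y] fun z => fderiv ℝ (fun z => ip (G z) u w) z b := by
      filter_upwards [h.isOpen.mem_nhds hy] with z hz
      exact (((h.ip_smooth u w).contDiffAt (h.isOpen.mem_nhds hz)).differentiableAt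
        (by simp)).lineDeriv_eq_fderiv
    rw [h1.lineDeriv_eq]
    simpa using ((hA.clm_apply (hasFDerivAt_const b y)).hasLineDerivAt a).lineDeriv
  rw [key, key, hs a b]

theorem c2_hasDerivAt_dG {x a b : ℝ → E} {x' a' b' : E} {t : ℝ} (ht : x t ∈ U)
    (hx : HasDerivAt x x' t) (ha : HasDerivAt a a' t) (hb : HasDerivAt b b' t) (Y : E) :
    HasDerivAt (fun s => dG G (x s) (a s) (b s) Y)
      (lineDeriv ℝ (fun z => dG G z (a t) (b t) Y) (x t) x' + dG G (x t) a' (b t) Y +
        dG G (x t) (a t) b' Y) t := by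
  refine c1_tri (fun z a b => dG G z a b Y) ?_
    (fun r => by rw [h.dG_add₁ ht, h.dG_smul₁ ht, smul_eq_mul])
    (fun r => by rw [h.dG_add₂ ht, h.dG_smul₂ ht, smul_eq_mul]) hx ha hb
  exact ((h.dG_smooth.contDiffAt (h.c1_nhds ht (a t, b t, Y))).differentiableAt (by simp)).comp
    (f := fun z : E × E × E => (z.1, z.2.1, z.2.2, Y)) (x t, a t, b t) (by fun_prop)

theorem c2_koszul (hy : y ∈ U) (v J Y : E) :
    dG G y J (chr G y v v) Y + ip (G y) (lineDeriv ℝ (fun z => chr G z v v) y J) Y =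
      lineDeriv ℝ (fun z => dG G z v v Y) y J - lineDeriv ℝ (fun z => dG G z Y v v) y J / 2 := by
  have l0 : y + (0 : ℝ) • J ∈ U := by simpa using hy
  have c : ∀ w : E, HasDerivAt (fun _ : ℝ => w) 0 (0 : ℝ) := fun w => hasDerivAt_const _ w
  have z1 : ∀ w, chr G y 0 w = 0 := fun w => by simpa using h.c1_smul_left hy 0 0 w
  have z2 : ∀ w, chr G y w 0 = 0 := fun w => by simpa using h.chr_smul hy 0 w 0
  have z3 : ∀ u w, dG G y 0 u w = 0 := fun u w => by simpa using h.dG_smul₁ hy 0 0 u w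
  have z4 : ∀ u w, dG G y u 0 w = 0 := fun u w => by simpa using h.dG_smul₂ hy 0 u 0 w
  have h1 := h.c0_hasDerivAt l0 (c1_line y J)
    (h.c1_hasDerivAt_chr l0 (c1_line y J) (c v) (c v)) (c Y)
  have h2 := (h.c2_hasDerivAt_dG l0 (c1_line y J) (c v) (c v) Y).fun_sub
    ((h.c2_hasDerivAt_dG l0 (c1_line y J) (c Y) (c v) v).div_const 2)
  have h3 := h1.unique (h2.congr_of_eventuallyEq (by
    filter_upwards [(c1_line y J).continuousAt (h.isOpen.mem_nhds l0)] with r hr
    rw [h.ip_chr hr]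
    ring))
  simpa [z1, z2, z3, z4, ← h.dG_eq hy] using h3

/-- The linearized momentum equation. -/
theorem ham_Pi {x v J K : ℝ → E} {t : ℝ} (ht : x t ∈ U)
    (hx : HasDerivAt (fun s => (x s, v s)) (Wf G (x t, v t)) t)
    (hJ : HasDerivAt (fun s => (J s, K s)) (fderiv ℝ (Wf G) (x t, v t) (J t, K t)) t) (Y : E) :
    HasDerivAt J (K t) t ∧
    HasDerivAt (fun s => ip (G (x s)) (K s) Y + dG G (x s) (J s) (v s) Y)
      (dG G (x t) Y (v t) (K t) +
        lineDeriv ℝ (fun z => dG G z Y (v t) (v t)) (x t) (J t) / 2) t := by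
  rw [h.c1_fderiv_Wf ht] at hJ
  refine ⟨(c1_fst hJ), ((h.c0_hasDerivAt ht (c1_fst hx) (c1_snd hJ) (hasDerivAt_const t Y)).fun_add
    (h.c2_hasDerivAt_dG ht (c1_fst hx) (c1_fst hJ) (c1_snd hx) Y)).congr_deriv ?_⟩
  simp only [Wf]
  have h1 := h.c2_koszul ht (v t) (J t) Y
  rw [← h.dG_eq ht, ip_neg_left, ip_add_left, ip_add_left, h.ip_chr ht, h.ip_chr ht, ip_zero_right,
    h.c2_symm ht (v t) (J t), ← neg_one_smul ℝ (chr _ _ _ _), h.dG_smul₂ ht,
    h.dG_symm ht Y (K t) (v t)]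
  linarith

end Good

end Vale.Agent.P255
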