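import Vale.Agent.P255.Defs

/-!
Riemannian calculus in one chart.
-/

open scoped ContDiff Topology Matrix Manifold
open Set Filter

noncomputable section

namespace Vale.Agent.P255

variable {A : Mat} {G : E → Mat} {U : Set E} {y : E}

theorem ip_add_left (A : Mat) (u u' v : E) : ip A (u + u') v = ip A u v + ip A u' v := by
  simp [ip]

theorem ip_add_right (A : Mat) (u v v' : E) : ip A u (v + v') = ip A u v + ip A u v' := by
  simp [ip, Matrix.mulVec_add]

theorem ip_smul_left (A : Mat) (c : ℝ) (u v : E) : ip A (c • u) v = c * ip A u v := by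
  simp [ip]

theorem ip_smul_right (A : Mat) (c : ℝ) (u v : E) : ip A u (c • v) = c * ip A u v := by
  simp [ip, Matrix.mulVec_smul]

theorem ip_neg_left (A : Mat) (u v : E) : ip A (-u) v = - ip A u v := by simp [ip]

theorem ip_neg_right (A : Mat) (u v : E) : ip A u (-v) = - ip A u v := by
  simp [ip, Matrix.mulVec_neg]

theorem ip_sub_left (A : Mat) (u u' v : E) : ip A (u - u') v = ip A u v - ip A u' v := by
  simp [ip]

theorem ip_sub_right (A : Mat) (u v v' : E) : ip A u (v - v') = ip A u v - ip A u v' := by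
  simp [ip, Matrix.mulVec_sub]

@[simp] theorem ip_zero_left (A : Mat) (v : E) : ip A 0 v = 0 := by simp [ip]

@[simp] theorem ip_zero_right (A : Mat) (u : E) : ip A u 0 = 0 := by simp [ip]

theorem ip_comm (hA : A.PosDef) (u v : E) : ip A u v = ip A v u := by
  have h : Aᵀ = A := by simpa using hA.isHermitian.eq
  rw [ip, ip, Matrix.dotProduct_mulVec, ← Matrix.mulVec_transpose, h, dotProduct_comm]

theorem ip_pos (hA : A.PosDef) {u : E} (hu : u ≠ 0) : 0 < ip A u u := by
  simpa [ip] using hA.dotProduct_mulVec_pos hu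

theorem ip_nonneg (hA : A.PosDef) (u : E) : 0 ≤ ip A u u := by
  rcases eq_or_ne u 0 with rfl | hu
  · simp
  · exact (ip_pos hA hu).le

theorem ip_sq_le (hA : A.PosDef) (u v : E) : ip A u v ^ 2 ≤ ip A u u * ip A v v := by
  rcases eq_or_ne v 0 with rfl | hv
  · simp
  have h1 := ip_pos hA hv
  have h2 := ip_nonneg hA (ip A v v • u - ip A u v • v)
  simp only [ip_sub_left, ip_sub_right, ip_smul_left, ip_smul_right, ip_comm hA v u] at h2
  nlinarith

theorem ip_ext (hA : A.PosDef) {u u' : E} (h : ∀ v, ip A u v = ip A u' v) : u = u' := by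
  by_contra hne
  have h1 := ip_pos hA (sub_ne_zero.2 hne)
  rw [ip_sub_left, h, sub_self] at h1
  exact lt_irrefl _ h1

theorem c0_ip (A : Mat) (u v : E) : ip A u v = ∑ i, ∑ j, u i * A i j * v j := by
  simp only [ip, dotProduct, Matrix.mulVec, Finset.mul_sum, mul_assoc]

/-- The directional derivative of the coefficient matrix. -/
def c0D (G : E → Mat) (y a : E) : Mat := Matrix.of fun i j => fderiv ℝ (fun z => G z i j) y a

namespace Good

variable (h : Good G U)
include h

theorem c0_diff (hy : y ∈ U) (i j : Fin 3) : DifferentiableAt ℝ (fun z => G z i j) y :=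
  ((h.smooth i j).contDiffAt (h.isOpen.mem_nhds hy)).differentiableAt (by simp)

theorem c0_hasDerivAt {x a b : ℝ → E} {x' a' b' : E} {t : ℝ} (ht : x t ∈ U)
    (hx : HasDerivAt x x' t) (ha : HasDerivAt a a' t) (hb : HasDerivAt b b' t) :
    HasDerivAt (fun s => ip (G (x s)) (a s) (b s))
      (ip (c0D G (x t) x') (a t) (b t) + ip (G (x t)) a' (b t) + ip (G (x t)) (a t) b') t := by
  simp only [c0_ip]
  refine (HasDerivAt.fun_sum fun i _ => HasDerivAt.fun_sum fun j _ =>
    (((hasDerivAt_pi.1 ha i).fun_mul ((h.c0_diff ht i j).hasFDerivAt.comp_hasDerivAt t hx)).fun_mul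
      (hasDerivAt_pi.1 hb j))).congr_deriv ?_
  simp only [← Finset.sum_add_distrib, c0D, Matrix.of_apply, Function.comp_apply]
  exact Finset.sum_congr rfl fun i _ => Finset.sum_congr rfl fun j _ => by ring

theorem dG_eq (hy : y ∈ U) (a u v : E) : dG G y a u v = ip (c0D G y a) u v := by
  have h1 : HasDerivAt (fun t : ℝ => y + t • a) a 0 := by
    simpa using ((hasDerivAt_id (0 : ℝ)).smul_const a).const_add y
  have h2 := h.c0_hasDerivAt (by simpa using hy) h1 (hasDerivAt_const _ u) (hasDerivAt_const _ v)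
  rw [dG, lineDeriv, h2.deriv]
  simp

theorem dG_symm (hy : y ∈ U) (a u v : E) : dG G y a u v = dG G y a v u :=
  Filter.EventuallyEq.lineDeriv_eq (by
    filter_upwards [h.isOpen.mem_nhds hy] with z hz using ip_comm (h.pos z hz) u v)

theorem dG_add₁ (hy : y ∈ U) (a a' u v : E) :
    dG G y (a + a') u v = dG G y a u v + dG G y a' u v := by
  simp only [h.dG_eq hy, c0_ip, c0D, Matrix.of_apply, map_add, mul_add, add_mul,
    Finset.sum_add_distrib]

theorem dG_smul₁ (hy : y ∈ U) (c : ℝ) (a u v : E) : dG G y (c • a) u v = c * dG G y a u v := by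
  simp only [h.dG_eq hy, c0_ip, c0D, Matrix.of_apply, map_smul, smul_eq_mul, Finset.mul_sum]
  exact Finset.sum_congr rfl fun i _ => Finset.sum_congr rfl fun j _ => by ring

theorem dG_add₂ (hy : y ∈ U) (a u u' v : E) :
    dG G y a (u + u') v = dG G y a u v + dG G y a u' v := by
  simp only [h.dG_eq hy, ip_add_left]

theorem dG_smul₂ (hy : y ∈ U) (c : ℝ) (a u v : E) : dG G y a (c • u) v = c * dG G y a u v := by
  simp only [h.dG_eq hy, ip_smul_left]

theorem dG_add₃ (hy : y ∈ U) (a u v v' : E) :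
    dG G y a u (v + v') = dG G y a u v + dG G y a u v' := by
  simp only [h.dG_eq hy, ip_add_right]

theorem dG_smul₃ (hy : y ∈ U) (c : ℝ) (a u v : E) : dG G y a u (c • v) = c * dG G y a u v := by
  simp only [h.dG_eq hy, ip_smul_right]

theorem c0_det (hy : y ∈ U) : (G y).det ≠ 0 := (h.pos y hy).det_pos.ne'

theorem c0_inv_smooth (i j : Fin 3) : ContDiffOn ℝ ∞ (fun y => (G y)⁻¹ i j) U := by
  have h1 : ContDiffOn ℝ ∞ (fun y => (G y).det) U := by
    simp only [Matrix.det_fin_three]
    have := h.smooth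
    fun_prop
  have h2 : ContDiffOn ℝ ∞ (fun y => (G y).adjugate i j) U := by
    have := h.smooth
    fin_cases i <;> fin_cases j <;> simp [Matrix.adjugate_fin_three] <;> fun_prop
  simpa [Matrix.inv_def] using (h1.inv fun y hy => h.c0_det hy).mul h2

theorem c0D_smooth (i j : Fin 3) :
    ContDiffOn ℝ ∞ (fun z : E × E => c0D G z.1 z.2 i j) (U ×ˢ univ) :=
  (((h.smooth i j).fderiv_of_isOpen h.isOpen (by simp)).comp contDiffOn_fst
    fun _ hz => hz.1).clm_apply contDiffOn_snd

theorem dG_smooth : ContDiffOn ℝ ∞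
    (fun z : E × E × E × E => dG G z.1 z.2.1 z.2.2.1 z.2.2.2) (U ×ˢ univ) := by
  refine ContDiffOn.congr (f := fun z => ip (c0D G z.1 z.2.1) z.2.2.1 z.2.2.2) ?_
    fun z hz => h.dG_eq hz.1 _ _ _
  simp only [c0_ip]
  refine ContDiffOn.sum fun i _ => ContDiffOn.sum fun j _ => ContDiffOn.mul (ContDiffOn.mul
    (by fun_prop) ?_) (by fun_prop)
  exact (h.c0D_smooth i j).comp (f := fun z : E × E × E × E => (z.1, z.2.1)) (by fun_prop)
    fun z hz => ⟨hz.1, trivial⟩

theorem ip_smooth (u v : E) : ContDiffOn ℝ ∞ (fun y => ip (G y) u v) U := by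
  simp only [c0_ip]
  have := h.smooth
  fun_prop

theorem ip_chr (hy : y ∈ U) (u v w : E) :
    ip (G y) (chr G y u v) w = (dG G y u v w + dG G y v u w - dG G y w u v) / 2 := by
  rw [ip_comm (h.pos y hy), ip, chr, Matrix.mulVec_mulVec,
    Matrix.mul_nonsing_inv _ (h.c0_det hy).isUnit, Matrix.one_mulVec]
  have hw : w = w 0 • Pi.single 0 1 + w 1 • Pi.single 1 1 + w 2 • Pi.single 2 1 := by
    ext i
    fin_cases i <;> simp
  conv_rhs => rw [hw]
  simp only [h.dG_add₁ hy, h.dG_smul₁ hy, h.dG_add₃ hy, h.dG_smul₃ hy, dotProduct,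
    Fin.sum_univ_three]
  ring

theorem chr_symm (hy : y ∈ U) (u v : E) : chr G y u v = chr G y v u := by
  refine ip_ext (h.pos y hy) fun w => ?_
  rw [h.ip_chr hy, h.ip_chr hy, h.dG_symm hy w u v]
  ring

theorem chr_add (hy : y ∈ U) (u v v' : E) : chr G y u (v + v') = chr G y u v + chr G y u v' := by
  refine ip_ext (h.pos y hy) fun w => ?_
  simp only [ip_add_left, h.ip_chr hy, h.dG_add₁ hy, h.dG_add₂ hy, h.dG_add₃ hy]
  ring

theorem chr_smul (hy : y ∈ U) (c : ℝ) (u v : E) : chr G y u (c • v) = c • chr G y u v := by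
  refine ip_ext (h.pos y hy) fun w => ?_
  simp only [ip_smul_left, h.ip_chr hy, h.dG_smul₁ hy, h.dG_smul₂ hy, h.dG_smul₃ hy]
  ring

theorem chr_smooth :
    ContDiffOn ℝ ∞ (fun z : E × E × E => chr G z.1 z.2.1 z.2.2) (U ×ˢ univ) := by
  refine contDiffOn_pi.2 fun k => ?_
  simp only [chr, Matrix.mulVec, dotProduct]
  refine ContDiffOn.sum fun l _ => ContDiffOn.mul
    ((h.c0_inv_smooth k l).comp contDiffOn_fst fun z hz => hz.1) (ContDiffOn.div_const
      (ContDiffOn.sub (ContDiffOn.add ?_ ?_) ?_) _)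
  · exact h.dG_smooth.comp (f := fun z : E × E × E => (z.1, z.2.1, z.2.2, Pi.single l 1))
      (by fun_prop) fun z hz => ⟨hz.1, trivial⟩
  · exact h.dG_smooth.comp (f := fun z : E × E × E => (z.1, z.2.2, z.2.1, Pi.single l 1))
      (by fun_prop) fun z hz => ⟨hz.1, trivial⟩
  · exact h.dG_smooth.comp (f := fun z : E × E × E => (z.1, Pi.single l 1, z.2.1, z.2.2))
      (by fun_prop) fun z hz => ⟨hz.1, trivial⟩

theorem Wf_smooth : ContDiffOn ℝ ∞ (Wf G) (U ×ˢ univ) := by
  exact contDiffOn_snd.prodMk (h.chr_smooth.comp (f := fun z : E × E => (z.1, z.2, z.2))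
    (by fun_prop) fun z hz => ⟨hz.1, trivial⟩).neg

/-- The connection is metric. -/
theorem hasDerivAt_ip {x a b : ℝ → E} {x' a' b' : E} {t : ℝ} (ht : x t ∈ U)
    (hx : HasDerivAt x x' t) (ha : HasDerivAt a a' t) (hb : HasDerivAt b b' t) :
    HasDerivAt (fun s => ip (G (x s)) (a s) (b s))
      (ip (G (x t)) (a' + chr G (x t) x' (a t)) (b t) +
        ip (G (x t)) (a t) (b' + chr G (x t) x' (b t))) t := by
  refine (h.c0_hasDerivAt ht hx ha hb).congr_deriv ?_
  rw [ip_add_left, ip_add_right, ip_comm (h.pos _ ht) (a t) (chr _ _ _ _), h.ip_chr ht,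
    h.ip_chr ht, ← h.dG_eq ht, h.dG_symm ht x' (b t) (a t)]
  ring

end Good

end Vale.Agent.P255
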