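import Vale.Agent.P255.Defs

/-!
Deck transformations of a simply connected cover of the example.
-/

open scoped ContDiff Topology Matrix Manifold
open Set Filter

noncomputable section

namespace Vale.Agent.P255

section Abs

variable {M : Type} [TopologicalSpace M] {p : E → M}

theorem dk_unique (hp : IsCoveringMap p) {f g : E → E} (hf : Deck p f) (hg : Deck p g) (x : E)
    (hx : f x = g x) (y : E) : f y = g y := by
  have := hp.eq_of_comp_eq hf.1 hg.1 (funext fun z => by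
    simp only [Function.comp_apply, hf.2, hg.2]) x hx
  exact congrFun this y

omit [TopologicalSpace M] in
theorem dk_comp {f g : E → E} (hf : Deck p f) (hg : Deck p g) : Deck p (fun x => f (g x)) :=
  ⟨hf.1.comp hg.1, fun x => by rw [hf.2, hg.2]⟩

theorem dk_exists (hp : IsCoveringMap p) {X : Type} [TopologicalSpace X] {S : Set X}
    (hS : IsPreconnected S) {s0 : X} (hs0 : s0 ∈ S) {A B : X → E} (hA : ContinuousOn A S)
    (hB : ContinuousOn B S) (hAB : ∀ s ∈ S, p (A s) = p (B s)) :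
    ∃ f, Deck p f ∧ ∀ s ∈ S, f (A s) = B s := by
  obtain ⟨F, ⟨hF0, hF⟩, -⟩ := hp.existsUnique_continuousMap_lifts (⟨p, hp.continuous⟩ : C(E, M))
    (A s0) (B s0) (hAB s0 hs0).symm
  have hF' : ∀ x, p (F x) = p x := fun x => congrFun hF x
  refine ⟨F, ⟨F.continuous, hF'⟩, fun s hs => ?_⟩
  refine hp.eqOn_of_comp_eqOn (g₁ := fun s => F (A s)) (g₂ := B) hS
    (F.continuous.comp_continuousOn hA) hB (fun z hz => ?_) hs0 hF0 hs
  simp only [Function.comp_apply, hF', hAB z hz]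

theorem dk_cos {φ : ℝ} (hφ : φ ∈ Icc (-(Real.pi / 4)) (Real.pi / 4)) : 7 / 10 < Real.cos φ := by
  have h1 : Real.cos (Real.pi / 4) ≤ Real.cos φ := by
    rw [← Real.cos_abs φ]
    refine Real.cos_le_cos_of_nonneg_of_le_pi (abs_nonneg _) (by linarith [Real.pi_pos]) ?_
    exact abs_le.2 hφ
  rw [Real.cos_pi_div_four] at h1
  have h2 : (7 / 5 : ℝ) < Real.sqrt 2 := Real.lt_sqrt_of_sq_lt (by norm_num)
  linarith

theorem dk_rad {ρ φ : ℝ} (hρ : 0 < ρ) (hφ : φ ∈ Icc (-(Real.pi / 4)) (Real.pi / 4)) :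
    2 * ρ / Real.cos φ ∈ Ioo ρ (29 / 10 * ρ) := by
  have h1 := dk_cos hφ
  have h2 := Real.cos_le_one φ
  have h0 : 0 < Real.cos φ := by linarith
  constructor
  · rw [lt_div_iff₀ h0]; nlinarith
  · rw [div_lt_iff₀ h0]; nlinarith

theorem dk_side (hp : IsCoveringMap p) {ρ : ℝ} (hρ : 0 < ρ) {Θ : ℝ × ℝ × ℝ → E}
    (hΘ : ContinuousOn Θ (Ioo ρ (29 / 10 * ρ) ×ˢ univ))
    (hrel : ∀ r ∈ Ioo ρ (29 / 10 * ρ), ∀ α α' θ : ℝ, ∀ i j : ℤ,
      r * Real.cos α' - r * Real.cos α = 4 * ρ * i → r * Real.sin α' - r * Real.sin α = 4 * ρ * j →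
      p (Θ (r, α, θ)) = p (Θ (r, α', θ)))
    {g1 g2 : E → E} (hg1 : Deck p g1) (hg2 : Deck p g2)
    (h1 : ∀ r ∈ Ioo ρ (29 / 10 * ρ), ∀ α θ, Θ (r, α, θ + 2 * Real.pi) = g1 (Θ (r, α, θ)))
    (h2 : ∀ r ∈ Ioo ρ (29 / 10 * ρ), ∀ α θ, Θ (r, α + 2 * Real.pi, θ) = g2 (Θ (r, α, θ))) :
    ∃ a b, Deck p a ∧ Deck p b ∧ (∀ x, a (g1 x) = g1 (a x)) ∧ (∀ x, b (g1 x) = g1 (b x)) ∧
      ∀ x, a (b x) = b (g2 (a x)) := by
  set S : Set (ℝ × ℝ) := Icc (-(Real.pi / 4)) (Real.pi / 4) ×ˢ univ with hSdef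
  have hS : IsPreconnected S := isPreconnected_Icc.prod isPreconnected_univ
  have hpi := Real.pi_pos
  have hm : (-(Real.pi / 4)) ∈ Icc (-(Real.pi / 4)) (Real.pi / 4) := ⟨le_rfl, by linarith⟩
  have hq : (Real.pi / 4) ∈ Icc (-(Real.pi / 4)) (Real.pi / 4) := ⟨by linarith, le_rfl⟩
  have hcont : ∀ c e : ℝ,
      ContinuousOn (fun z : ℝ × ℝ => Θ (2 * ρ / Real.cos z.1, c + e * z.1, z.2)) S := by
    intro c e
    refine hΘ.comp (f := fun z : ℝ × ℝ => (2 * ρ / Real.cos z.1, c + e * z.1, z.2)) ?_ ?_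
    · refine ContinuousOn.prodMk ?_ (by fun_prop)
      refine ContinuousOn.div (by fun_prop) (by fun_prop) fun z hz => ?_
      have := dk_cos hz.1
      linarith
    · intro z hz
      exact ⟨dk_rad hρ hz.1, mem_univ _⟩
  obtain ⟨a, ha, ha'⟩ := dk_exists hp hS (s0 := (Real.pi / 4, 0)) ⟨hq, mem_univ _⟩
    (hcont Real.pi (-1)) (hcont 0 1) (by
      intro z hz
      have hc : Real.cos z.1 ≠ 0 := by have := dk_cos hz.1; linarith
      refine hrel _ (dk_rad hρ hz.1) _ _ _ 1 0 ?_ ?_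
      · rw [show Real.pi + -1 * z.1 = Real.pi - z.1 by ring, Real.cos_pi_sub, zero_add, one_mul]
        field_simp
        push_cast
        ring
      · rw [show Real.pi + -1 * z.1 = Real.pi - z.1 by ring, Real.sin_pi_sub, zero_add, one_mul]
        simp)
  obtain ⟨b, hb, hb'⟩ := dk_exists hp hS (s0 := (Real.pi / 4, 0)) ⟨hq, mem_univ _⟩
    (hcont (Real.pi + Real.pi / 2) 1) (hcont (Real.pi / 2) (-1)) (by
      intro z hz
      have hc : Real.cos z.1 ≠ 0 := by have := dk_cos hz.1; linarith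
      refine hrel _ (dk_rad hρ hz.1) _ _ _ 0 1 ?_ ?_
      · rw [show Real.pi / 2 + -1 * z.1 = Real.pi / 2 - z.1 by ring, Real.cos_pi_div_two_sub,
          show Real.pi + Real.pi / 2 + 1 * z.1 = (z.1 + Real.pi / 2) + Real.pi by ring,
          Real.cos_add_pi, Real.cos_add_pi_div_two]
        simp
      · rw [show Real.pi / 2 + -1 * z.1 = Real.pi / 2 - z.1 by ring, Real.sin_pi_div_two_sub,
          show Real.pi + Real.pi / 2 + 1 * z.1 = (z.1 + Real.pi / 2) + Real.pi by ring,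
          Real.sin_add_pi, Real.sin_add_pi_div_two]
        field_simp
        push_cast
        ring)
  have hr0 := dk_rad hρ hq
  refine ⟨a, b, ha, hb, ?_, ?_, ?_⟩
  · refine dk_unique hp (dk_comp ha hg1) (dk_comp hg1 ha)
      (Θ (2 * ρ / Real.cos (Real.pi / 4), Real.pi + -1 * (Real.pi / 4), 0)) ?_
    have e1 := ha' (Real.pi / 4, 0) ⟨hq, mem_univ _⟩
    have e2 := ha' (Real.pi / 4, 0 + 2 * Real.pi) ⟨hq, mem_univ _⟩
    simp only at e1 e2 ⊢
    rw [← h1 _ hr0, e2, e1, h1 _ hr0]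
  · refine dk_unique hp (dk_comp hb hg1) (dk_comp hg1 hb)
      (Θ (2 * ρ / Real.cos (Real.pi / 4), Real.pi + Real.pi / 2 + 1 * (Real.pi / 4), 0)) ?_
    have e1 := hb' (Real.pi / 4, 0) ⟨hq, mem_univ _⟩
    have e2 := hb' (Real.pi / 4, 0 + 2 * Real.pi) ⟨hq, mem_univ _⟩
    simp only at e1 e2 ⊢
    rw [← h1 _ hr0, e2, e1, h1 _ hr0]
  · refine dk_unique hp (dk_comp ha hb) (dk_comp hb (dk_comp hg2 ha))
      (Θ (2 * ρ / Real.cos (Real.pi / 4), 5 * Real.pi / 4, 0)) ?_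
    have a1 := ha' (Real.pi / 4, 0) ⟨hq, mem_univ _⟩
    have a2 := ha' (-(Real.pi / 4), 0) ⟨hm, mem_univ _⟩
    have b1 := hb' (Real.pi / 4, 0) ⟨hq, mem_univ _⟩
    have b2 := hb' (-(Real.pi / 4), 0) ⟨hm, mem_univ _⟩
    simp only [Real.cos_neg] at a1 a2 b1 b2 ⊢
    rw [show Real.pi + -1 * (Real.pi / 4) = 3 * Real.pi / 4 by ring,
      show 0 + 1 * (Real.pi / 4) = Real.pi / 4 by ring] at a1
    rw [show Real.pi + -1 * -(Real.pi / 4) = 5 * Real.pi / 4 by ring,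
      show 0 + 1 * -(Real.pi / 4) = -(Real.pi / 4) by ring] at a2
    rw [show Real.pi + Real.pi / 2 + 1 * (Real.pi / 4) = -(Real.pi / 4) + 2 * Real.pi by ring,
      show Real.pi / 2 + -1 * (Real.pi / 4) = Real.pi / 4 by ring] at b1
    rw [show Real.pi + Real.pi / 2 + 1 * -(Real.pi / 4) = 5 * Real.pi / 4 by ring,
      show Real.pi / 2 + -1 * -(Real.pi / 4) = 3 * Real.pi / 4 by ring] at b2
    rw [b2, a1, a2, ← h2 _ hr0, b1]

end Abs

theorem dk_convex (R1 R2 : ℝ) : Convex ℝ (Wd R1 R2) := by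
  have : Wd R1 R2 = (LinearMap.proj (R := ℝ) (φ := fun _ : Fin 3 => ℝ) 0) ⁻¹'
      Ioo (-(2 + 19 / 10 * (R1 + 2))) (2 + 19 / 10 * (R2 + 2)) := rfl
  rw [this]
  exact (convex_Ioo _ _).linear_preimage _

theorem dk_lift {M : Type} [TopologicalSpace M] {p : E → M} (hp : IsCoveringMap p) {π : E → M}
    {W : Set E} (hW : Convex ℝ W) (h0W : (0 : E) ∈ W) (hπ : ContinuousOn π W) (h0 : p 0 = π 0) :
    ∃ Ψ : E → E, ContinuousOn Ψ W ∧ ∀ y ∈ W, p (Ψ y) = π y := by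
  classical
  have i1 : ContractibleSpace W := hW.contractibleSpace ⟨0, h0W⟩
  have i2 : LocallyPathConnectedSpace W := hW.locallyPathConnectedSpace
  obtain ⟨F, ⟨-, hF⟩, -⟩ := hp.existsUnique_continuousMap_lifts
    (⟨W.domRestrict π, hπ.domRestrict⟩ : C(W, M)) ⟨0, h0W⟩ 0 h0
  refine ⟨fun y => if h : y ∈ W then F ⟨y, h⟩ else 0, ?_, fun y hy => ?_⟩
  · rw [continuousOn_iff_continuous_domRestrict]
    refine F.continuous.congr fun y => ?_
    simp [y.2]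
  · simp only [hy, dif_pos]
    exact congrFun hF ⟨y, hy⟩

theorem Model.decks {P : Prof} {M : Type} [TopologicalSpace M] [ChartedSpace E M]
    {π : E → M} {g : RMetric M} (h : Model P M π g) {p : E → M} (hp : IsCoveringMap p)
    (h0 : p 0 = π 0) : ∃ (Ψ : E → E) (f1 f2 a b a' b' : E → E),
      ContinuousOn Ψ (Wd P.R1 P.R2) ∧ (∀ y ∈ Wd P.R1 P.R2, p (Ψ y) = π y) ∧
      (∀ y ∈ Wd P.R1 P.R2, Ψ (y + ![0, 0, 2 * Real.pi]) = f2 (Ψ y)) ∧
      Deck p f1 ∧ Deck p f2 ∧ Deck p a ∧ Deck p b ∧ Deck p a' ∧ Deck p b' ∧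
      (∀ x, f1 (f2 x) = f2 (f1 x)) ∧ (∀ x, a (f1 x) = f1 (a x)) ∧ (∀ x, b (f1 x) = f1 (b x)) ∧
      (∀ x, a' (f2 x) = f2 (a' x)) ∧ (∀ x, b' (f2 x) = f2 (b' x)) ∧
      (∀ x, a (b x) = b (f2 (a x))) ∧ (∀ x, a' (b' x) = b' (f1 (f2 (a' x)))) := by
  have hR1 := P.R1_pos
  have hR2 := P.R2_pos
  have h0W : (0 : E) ∈ Wd P.R1 P.R2 := by
    constructor <;> simp only [Pi.zero_apply] <;> linarith
  obtain ⟨Ψ, hΨc, hΨ⟩ := dk_lift hp (dk_convex P.R1 P.R2) h0W h.cont h0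
  have hsh : ∀ c d : ℝ, ∀ y ∈ Wd P.R1 P.R2, y + ![0, c, d] ∈ Wd P.R1 P.R2 := by
    intro c d y hy
    have e : (y + ![0, c, d] : E) 0 = y 0 := by
      simp only [Pi.add_apply, Matrix.cons_val_zero, add_zero]
    simp only [Wd, mem_ofPred_eq, e]
    exact hy
  have hshift : ∀ j k : ℤ, ∃ f, Deck p f ∧ ∀ y ∈ Wd P.R1 P.R2,
      f (Ψ y) = Ψ (y + ![0, 2 * Real.pi * j, 2 * Real.pi * k]) := by
    intro j k
    refine dk_exists hp (dk_convex P.R1 P.R2).isPreconnected h0W hΨc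
      (hΨc.comp (f := fun y => y + ![0, 2 * Real.pi * j, 2 * Real.pi * k]) (by fun_prop)
        (fun y hy => hsh _ _ y hy)) fun y hy => ?_
    rw [hΨ y hy, hΨ _ (hsh _ _ y hy), h.rel y hy _ (hsh _ _ y hy)]
    exact Or.inl ⟨j, k, rfl⟩
  obtain ⟨f1, hf1, hf1'⟩ := hshift 1 0
  obtain ⟨f2, hf2, hf2'⟩ := hshift 0 1
  simp only [Int.cast_one, Int.cast_zero, mul_one, mul_zero] at hf1' hf2'
  have hW1 : ∀ r ∈ Ioo (P.R1 + 2) (29 / 10 * (P.R1 + 2)), ∀ α θ : ℝ,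
      (![P.R1 - r, θ, α] : E) ∈ Wd P.R1 P.R2 := by
    intro r hr α θ
    have := hr.1
    have := hr.2
    constructor <;> simp only [Matrix.cons_val_zero] <;> linarith
  have hW2 : ∀ r ∈ Ioo (P.R2 + 2) (29 / 10 * (P.R2 + 2)), ∀ α θ : ℝ,
      (![r - P.R2, α, θ] : E) ∈ Wd P.R1 P.R2 := by
    intro r hr α θ
    have := hr.1
    have := hr.2
    constructor <;> simp only [Matrix.cons_val_zero] <;> linarith
  obtain ⟨a, b, ha, hb, ha1, hb1, hab⟩ := dk_side hp hR1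
    (Θ := fun z => Ψ ![P.R1 - z.1, z.2.2, z.2.1])
    (hΨc.comp (f := fun z : ℝ × ℝ × ℝ => (![P.R1 - z.1, z.2.2, z.2.1] : E)) (by fun_prop)
      (fun z hz => hW1 _ hz.1 _ _))
    (by
      intro r hr α α' θ i j hi hj
      simp only
      rw [hΨ _ (hW1 r hr _ _), hΨ _ (hW1 r hr _ _), h.rel _ (hW1 r hr _ _) _ (hW1 r hr _ _)]
      have := hr.1
      refine Or.inr (Or.inl ⟨by simp only [Matrix.cons_val_zero]; linarith,
        by simp only [Matrix.cons_val_zero]; linarith, i, j, 0, ?_⟩)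
      ext k
      fin_cases k
      · simpa [pol1] using hi
      · simpa [pol1] using hj
      · simp [pol1])
    hf1 hf2
    (by
      intro r hr α θ
      simp only
      rw [hf1' _ (hW1 r hr _ _)]
      congr 1
      ext k
      fin_cases k <;> simp)
    (by
      intro r hr α θ
      simp only
      rw [hf2' _ (hW1 r hr _ _)]
      congr 1
      ext k
      fin_cases k <;> simp)
  obtain ⟨a', b', ha', hb', ha1', hb1', hab'⟩ := dk_side hp hR2
    (Θ := fun z => Ψ ![z.1 - P.R2, z.2.1, z.2.1 + z.2.2])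
    (hΨc.comp (f := fun z : ℝ × ℝ × ℝ => (![z.1 - P.R2, z.2.1, z.2.1 + z.2.2] : E)) (by fun_prop)
      (fun z hz => hW2 _ hz.1 _ _))
    (by
      intro r hr α α' θ i j hi hj
      simp only
      rw [hΨ _ (hW2 r hr _ _), hΨ _ (hW2 r hr _ _), h.rel _ (hW2 r hr _ _) _ (hW2 r hr _ _)]
      have := hr.1
      refine Or.inr (Or.inr ⟨by simp only [Matrix.cons_val_zero]; linarith,
        by simp only [Matrix.cons_val_zero]; linarith, i, j, 0, ?_⟩)
      ext k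
      fin_cases k
      · simpa [pol2] using hi
      · simpa [pol2] using hj
      · simp [pol2])
    hf2 (dk_comp hf1 hf2)
    (by
      intro r hr α θ
      simp only
      rw [hf2' _ (hW2 r hr _ _)]
      congr 1
      ext k
      fin_cases k <;> simp [add_assoc])
    (by
      intro r hr α θ
      simp only
      rw [hf2' _ (hW2 r hr _ _), hf1' _ (hsh _ _ _ (hW2 r hr _ _))]
      congr 1
      ext k
      fin_cases k <;> simp [add_right_comm])
  refine ⟨Ψ, f1, f2, a, b, a', b', hΨc, hΨ, fun y hy => (hf2' y hy).symm, hf1, hf2, ha, hb, ha',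
    hb', ?_, ha1, hb1, ha1', hb1', hab, hab'⟩
  refine dk_unique hp (dk_comp hf1 hf2) (dk_comp hf2 hf1) (Ψ 0) ?_
  rw [hf2' _ h0W, hf1' _ h0W, hf1' _ (hsh _ _ _ h0W), hf2' _ (hsh _ _ _ h0W), add_right_comm]

end Vale.Agent.P255
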