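import Vale.Agent.P255.Stmt

/-!
Auxiliary definitions for the closed three-manifold without conjugate points.
-/

open scoped ContDiff Topology Matrix
open Set Filter

noncomputable section

namespace Vale.Agent.P255

/-- A smooth field of positive definite matrices on an open set. -/
structure Good (G : E → Mat) (U : Set E) : Prop where
  isOpen : IsOpen U
  smooth : ∀ i j, ContDiffOn ℝ ∞ (fun y => G y i j) U
  pos : ∀ y ∈ U, (G y).PosDef

/-- The geodesic vector field in a chart. -/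
def Wf (G : E → Mat) (z : E × E) : E × E := (z.2, - chr G z.1 z.2 z.2)

section Mfd

variable {M : Type} [TopologicalSpace M] [ChartedSpace E M]

theorem RMetric.good (g : RMetric M) {e : OpenPartialHomeomorph M E} (he : e ∈ atlas E M) :
    Good (g.g e) e.target := ⟨e.open_target, g.smooth e he, g.pos e he⟩

/-- Position and velocity of a curve in a chart. -/
def st (e : OpenPartialHomeomorph M E) (γ : ℝ → M) (t : ℝ) : E × E := (e (γ t), deriv (e ∘ γ) t)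

/-- The geodesic equation at one time. -/
def GeodAt (g : RMetric M) (γ : ℝ → M) (t : ℝ) : Prop :=
  ContinuousAt γ t ∧ ∀ e ∈ atlas E M, γ t ∈ e.source → DifferentiableAt ℝ (e ∘ γ) t ∧
    HasDerivAt (deriv (e ∘ γ))
      (- chr (g.g e) (e (γ t)) (deriv (e ∘ γ) t) (deriv (e ∘ γ) t)) t

theorem isGeodesic_iff {g : RMetric M} {γ : ℝ → M} : IsGeodesic g γ ↔ ∀ t, GeodAt g γ t :=
  ⟨fun h t => ⟨h.1.continuousAt, fun e he ht => h.2 e he t ht⟩, fun h =>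
    ⟨continuous_iff_continuousAt.2 fun t => (h t).1, fun e he t ht => (h t).2 e he ht⟩⟩

open Classical in
/-- The geodesic with initial point `x` and initial velocity `v` in the chart `e`. -/
def geo (g : RMetric M) (e : OpenPartialHomeomorph M E) (x : M) (v : E) : ℝ → M :=
  if h : ∃ γ, IsGeodesic g γ ∧ γ 0 = x ∧ deriv (e ∘ γ) 0 = v then h.choose else fun _ => x

/-- The exponential map. -/
def expm (g : RMetric M) (e : OpenPartialHomeomorph M E) (x : M) (v : E) : M := geo g e x v 1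

/-- The variation field of the geodesics from `x`. -/
def jac (g : RMetric M) (e : OpenPartialHomeomorph M E) (x : M) (v w : E)
    (e' : OpenPartialHomeomorph M E) (s : ℝ) : E :=
  fderiv ℝ (fun v => e' (geo g e x v s)) v w

/-- The differential of the exponential map at `x` is injective everywhere. -/
def ExpInj (g : RMetric M) (e : OpenPartialHomeomorph M E) (x : M) : Prop :=
  ∀ v w, ∀ e' ∈ atlas E M, expm g e x v ∈ e'.source → jac g e x v w e' 1 = 0 → w = 0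

end Mfd

/-- A proper distance function with midpoints that satisfy the Bruhat-Tits inequality. -/
structure Had {X : Type} [TopologicalSpace X] (d : X → X → ℝ) : Prop where
  nonneg : ∀ x y, 0 ≤ d x y
  self : ∀ x, d x x = 0
  symm : ∀ x y, d x y = d y x
  triangle : ∀ x y z, d x z ≤ d x y + d y z
  eq_of_zero : ∀ x y, d x y = 0 → x = y
  cont : ∀ x, Continuous (d x)
  compact : ∀ x R, IsCompact {y | d x y ≤ R}
  mid : ∀ x y, ∃ m, ∀ z, d z m ^ 2 ≤ d z x ^ 2 / 2 + d z y ^ 2 / 2 - d x y ^ 2 / 4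

/-- Deck transformations. -/
def Deck {X M : Type} [TopologicalSpace X] (p : X → M) (f : X → X) : Prop :=
  Continuous f ∧ ∀ x, p (f x) = p x

/-- The potential `h_t(p, p)`. -/
def VV (a b σ : ℝ → ℝ) (p q : ℝ) (t : ℝ) : ℝ := a t * (p + σ t * q) ^ 2 + b t * q ^ 2

/-- The first component of `h_t p`. -/
def u1 (a σ : ℝ → ℝ) (p q : ℝ) (t : ℝ) : ℝ := a t * (p + σ t * q)

/-- The second component of `h_t p`. -/
def u2 (a b σ : ℝ → ℝ) (p q : ℝ) (t : ℝ) : ℝ := a t * σ t * (p + σ t * q) + b t * q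

/-- The profile functions of the metric on the neck. -/
structure Prof where
  a : ℝ → ℝ
  b : ℝ → ℝ
  σ : ℝ → ℝ
  R1 : ℝ
  R2 : ℝ
  K : ℝ
  sa : ContDiff ℝ ∞ a
  sb : ContDiff ℝ ∞ b
  sσ : ContDiff ℝ ∞ σ
  a_pos : ∀ t, 0 < a t
  b_pos : ∀ t, 0 < b t
  K_pos : 0 < K
  R1_pos : 0 < R1 + 2
  R2_pos : 0 < R2 + 2
  left : ∀ t ≤ -1, a t = 1 ∧ σ t = 0
  right : ∀ t ≥ 1, b t = K ^ 2 ∧ σ t = 1
  pol1 : ∀ t ≤ -2, b t = 1 / (R1 - t) ^ 2
  pol2 : ∀ t ≥ 2, a t = 1 / (R2 + t) ^ 2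
  P1 : ∀ t ≤ -1, 0 ≤ deriv b t ∧ 2 * b t * deriv (deriv b) t ≤ 3 * deriv b t ^ 2
  P2 : ∀ t ≥ 1, deriv a t ≤ 0 ∧ 2 * a t * deriv (deriv a) t ≤ 3 * deriv a t ^ 2
  top : ∀ p q t0, deriv (VV a b σ p q) t0 = 0 →
    (∀ t, VV a b σ p q t ≤ VV a b σ p q t0) ∧ deriv (deriv (VV a b σ p q)) t0 ≤ 0
  C1 : ∀ p q t, 0 < deriv (VV a b σ p q) t → u2 a b σ p q t ≠ 0 ∧
    2 * u2 a b σ p q t ^ 2 * deriv (deriv (VV a b σ p q)) t -
      4 * u2 a b σ p q t * deriv (u2 a b σ p q) t * deriv (VV a b σ p q) t +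
      (a t * σ t ^ 2 + b t) * deriv (VV a b σ p q) t ^ 2 ≤ 0
  C2 : ∀ p q t, deriv (VV a b σ p q) t < 0 → u1 a σ p q t ≠ 0 ∧
    2 * u1 a σ p q t ^ 2 * deriv (deriv (VV a b σ p q)) t -
      4 * u1 a σ p q t * deriv (u1 a σ p q) t * deriv (VV a b σ p q) t +
      a t * deriv (VV a b σ p q) t ^ 2 ≤ 0

/-- The metric `dt² + dθ₁² / a + (dθ₂ - σ dθ₁)² / b`. -/
def Gm (P : Prof) (y : E) : Mat :=
  !![1, 0, 0;
     0, 1 / P.a (y 0) + P.σ (y 0) ^ 2 / P.b (y 0), - P.σ (y 0) / P.b (y 0);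
     0, - P.σ (y 0) / P.b (y 0), 1 / P.b (y 0)]

/-- The coordinate domain. -/
def Wd (R1 R2 : ℝ) : Set E := {y | -(2 + 19 / 10 * (R1 + 2)) < y 0 ∧ y 0 < 2 + 19 / 10 * (R2 + 2)}

/-- Cylindrical coordinates on the first piece. -/
def pol1 (R1 : ℝ) (y : E) : E := ![(R1 - y 0) * Real.cos (y 2), (R1 - y 0) * Real.sin (y 2), y 1]

/-- Cylindrical coordinates on the second piece. -/
def pol2 (R2 : ℝ) (y : E) : E :=
  ![(R2 + y 0) * Real.cos (y 1), (R2 + y 0) * Real.sin (y 1), y 2 - y 1]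

/-- The lattice of a piece. -/
def Lat (l : ℝ) (c : E) : Prop := ∃ i j k : ℤ, c = ![l * i, l * j, 2 * Real.pi * k]

/-- The gluing relation. -/
def Rel (R1 R2 : ℝ) (y y' : E) : Prop :=
  (∃ j k : ℤ, y' = y + ![0, 2 * Real.pi * j, 2 * Real.pi * k]) ∨
  (y 0 < -2 ∧ y' 0 < -2 ∧ Lat (4 * (R1 + 2)) (pol1 R1 y' - pol1 R1 y)) ∨
  (2 < y 0 ∧ 2 < y' 0 ∧ Lat (4 * (R2 + 2)) (pol2 R2 y' - pol2 R2 y))

/-- The structure of the example. -/
structure Model (P : Prof) (M : Type) [TopologicalSpace M] [ChartedSpace E M] (π : E → M)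
    (g : RMetric M) : Prop where
  cont : ContinuousOn π (Wd P.R1 P.R2)
  rel : ∀ y ∈ Wd P.R1 P.R2, ∀ y' ∈ Wd P.R1 P.R2, π y = π y' ↔ Rel P.R1 P.R2 y y'
  tgt : ∀ e ∈ atlas E M, e.target ⊆ Wd P.R1 P.R2 ∧ (∀ y ∈ e.target, e.symm y = π y) ∧
    g.g e = Gm P
  cover : ∀ y ∈ Wd P.R1 P.R2, ∃ e ∈ atlas E M, y ∈ e.target
  trans : ∀ e ∈ atlas E M, ∀ e' ∈ atlas E M, ∀ x ∈ e.source, x ∈ e'.source →
    (∃ c : E, c 0 = 0 ∧ (e' ∘ e.symm) =ᶠ[𝓝 (e x)] fun y => y + c) ∨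
    (e x 0 < -2 ∧ e' x 0 < -2) ∨ (2 < e x 0 ∧ 2 < e' x 0)

end Vale.Agent.P255
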