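import Vale.Agent.P255.Geod
import Vale.Agent.P255.Flow

/-!
The exponential map and its differential.
-/

open scoped ContDiff Topology Matrix Manifold
open Set Filter

noncomputable section

namespace Vale.Agent.P255

variable {M : Type} [TopologicalSpace M] [ChartedSpace E M] [T2Space M] [CompactSpace M]
  [IsManifold (modelWithCornersSelf ℝ E) ∞ M] {g : RMetric M}
  {e e' : OpenPartialHomeomorph M E} {x : M}

theorem geo_spec (g : RMetric M) (he : e ∈ atlas E M) (hx : x ∈ e.source) (v : E) :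
    IsGeodesic g (geo g e x v) ∧ geo g e x v 0 = x ∧ deriv (e ∘ geo g e x v) 0 = v := by
  have h := geod_exists g he hx v
  unfold geo
  rw [dif_pos h]
  exact h.choose_spec

theorem geo_eq (he : e ∈ atlas E M) {γ : ℝ → M} (hγ : IsGeodesic g γ) (hx : γ 0 ∈ e.source) :
    geo g e (γ 0) (deriv (e ∘ γ) 0) = γ := by
  obtain ⟨h1, h2, h3⟩ := geo_spec g he hx (deriv (e ∘ γ) 0)
  funext s
  exact geod_unique isOpen_univ isPreconnected_univ (fun s _ => isGeodesic_iff.1 h1 s)
    (fun s _ => isGeodesic_iff.1 hγ s) (mem_univ 0) he (by rw [h2]; exact hx) h2 h3 (mem_univ s)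

theorem geo_smul (g : RMetric M) (he : e ∈ atlas E M) (hx : x ∈ e.source) (c : ℝ) (v : E)
    (s : ℝ) : geo g e x (c • v) s = geo g e x v (c * s) := by
  obtain ⟨h1, h2, h3⟩ := geo_spec g he hx v
  obtain ⟨h4, h5⟩ := h1.affine c 0
  have h0 : c * 0 + 0 = 0 := by ring
  have h6 := geo_eq he h4 (by simp only [h0, h2]; exact hx)
  rw [h5 e he 0 (by rw [h0, h2]; exact hx)] at h6
  simp only [h0, h2, h3] at h6
  rw [h6]
  simp only [add_zero]

omit [CompactSpace M] in
/-- A geodesic follows the local flow of the geodesic vector field in a chart. -/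
theorem exp_key (he' : e' ∈ atlas E M) {γ : ℝ → M} (hγ : IsGeodesic g γ) {s ε : ℝ}
    (hs : γ s ∈ e'.source) {z : ℝ → E × E} (hz0 : z 0 = st e' γ s)
    (hz : ∀ τ ∈ Ioo (-ε) ε, z τ ∈ e'.target ×ˢ (univ : Set E) ∧
      HasDerivAt z (Wf (g.g e') (z τ)) τ) {τ : ℝ} (hτ : τ ∈ Ioo (-ε) ε) :
    γ (s + τ) ∈ e'.source ∧ st e' γ (s + τ) = z τ := by
  have h0 : (0 : ℝ) ∈ Ioo (-ε) ε := ⟨by linarith [hτ.1, hτ.2], by linarith [hτ.1, hτ.2]⟩
  have b4 : ∀ r ∈ Ioo (-ε) ε, GeodAt g (fun r => e'.symm (z r).1) r ∧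
      e'.symm (z r).1 ∈ e'.source ∧ st e' (fun r => e'.symm (z r).1) r = z r := fun r hr =>
    geodAt_of_chart he' (eventually_of_mem (isOpen_Ioo.mem_nhds hr) fun q hq =>
      ⟨(hz q hq).1.1, (hz q hq).2⟩) EventuallyEq.rfl
  obtain ⟨h4, h5⟩ := hγ.affine 1 s
  have hz : 1 * 0 + s = s := by ring
  have heq : EqOn (fun r => γ (1 * r + s)) (fun r => e'.symm (z r).1) (Ioo (-ε) ε) := by
    refine geod_unique isOpen_Ioo isPreconnected_Ioo (fun r _ => isGeodesic_iff.1 h4 r)
      (fun r hr => (b4 r hr).1) h0 he' (by simp only [hz]; exact hs) ?_ ?_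
    · simp only [hz, hz0, st, e'.left_inv hs]
    · rw [h5 e' he' 0 (by rw [hz]; exact hs), hz, one_smul]
      have := congrArg Prod.snd (b4 0 h0).2.2
      rw [hz0] at this
      exact this.symm
  have h1 : 1 * τ + s = s + τ := by ring
  have h2 : γ (s + τ) = e'.symm (z τ).1 := by rw [← h1]; exact heq hτ
  have h3 : γ (s + τ) ∈ e'.source := by rw [h2]; exact (b4 τ hτ).2.1
  refine ⟨h3, ?_⟩
  have h6 : (fun r => γ (1 * r + s)) =ᶠ[𝓝 τ] fun r => e'.symm (z r).1 :=
    eventually_of_mem (isOpen_Ioo.mem_nhds hτ) heq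
  have h7 := h5 e' he' τ (by rw [h1]; exact h3)
  rw [(h6.fun_comp e').deriv_eq, h1, one_smul] at h7
  rw [← (b4 τ hτ).2.2, st, st, h7, h2]

omit [T2Space M] [CompactSpace M] in
theorem exp_chart {γ : E → ℝ → M} (hγ : ∀ v, IsGeodesic g (γ v)) {v0 : E} {s : ℝ}
    (hc : ContinuousAt (fun v => γ v s) v0) (he : e ∈ atlas E M) (he' : e' ∈ atlas E M)
    (hs : γ v0 s ∈ e.source) (hs' : γ v0 s ∈ e'.source) {L : E →L[ℝ] E × E}
    (hL : HasStrictFDerivAt (fun v => st e (γ v) s) L v0) :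
    ∃ L' : E →L[ℝ] E × E, HasStrictFDerivAt (fun v => st e' (γ v) s) L' v0 := by
  have hT : ContDiffAt ℝ ∞ (e' ∘ e.symm) (st e (γ v0) s).1 := tr_smooth he he' hs hs'
  have h1 : ContDiffAt ℝ ∞ (fun z : E × E => (e' ∘ e.symm) z.1) (st e (γ v0) s) :=
    hT.comp _ contDiffAt_fst
  have h2 : ContDiffAt ℝ ∞ (fun z : E × E => fderiv ℝ (e' ∘ e.symm) z.1) (st e (γ v0) s) :=
    (hT.fderiv_right (m := ∞) (by simp)).comp _ contDiffAt_fst
  have h3 := (h1.prodMk (h2.clm_apply contDiffAt_snd)).hasStrictFDerivAt (by simp)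
  refine ⟨_, (h3.comp v0 hL).congr_of_eventuallyEq ?_⟩
  filter_upwards [hc.preimage_mem_nhds (e.open_source.mem_nhds hs),
    hc.preimage_mem_nhds (e'.open_source.mem_nhds hs')] with v c1 c2
  have c3 := (st_tr he he' (hγ v).1.continuousAt c1 c2 ((hγ v).2 e he s c1).1).deriv
  simp only [st, c3, tr, Function.comp_apply]
  rw [e.left_inv c1]

theorem geo_deriv (g : RMetric M) (he : e ∈ atlas E M) (hx : x ∈ e.source) (v0 : E) (s : ℝ) :
    ContinuousAt (fun v => geo g e x v s) v0 ∧ ∀ e' ∈ atlas E M, geo g e x v0 s ∈ e'.source →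
      ∃ L : E →L[ℝ] E × E, HasStrictFDerivAt (fun v => st e' (geo g e x v) s) L v0 := by
  have hγ : ∀ v, IsGeodesic g (geo g e x v) := fun v => (geo_spec g he hx v).1
  let P : ℝ → Prop := fun s => ContinuousAt (fun v => geo g e x v s) v0 ∧
    ∀ e' ∈ atlas E M, geo g e x v0 s ∈ e'.source →
      ∃ L : E →L[ℝ] E × E, HasStrictFDerivAt (fun v => st e' (geo g e x v) s) L v0
  have h0 : P 0 := by
    have a0 : (fun v => geo g e x v 0) = fun _ => x := funext fun v => (geo_spec g he hx v).2.1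
    have a1 : ContinuousAt (fun v => geo g e x v 0) v0 := by rw [a0]; exact continuousAt_const
    refine ⟨a1, fun e' he' hs => exp_chart hγ a1 he he'
      (by rw [(geo_spec g he hx v0).2.1]; exact hx) hs (L := ContinuousLinearMap.inr ℝ E E) ?_⟩
    have a2 : (fun v => st e (geo g e x v) 0) = fun v => (e x, v) := funext fun v => by
      rw [st, (geo_spec g he hx v).2.1, (geo_spec g he hx v).2.2]
    rw [a2]
    exact (hasStrictFDerivAt_const (e x) v0).prodMk (hasStrictFDerivAt_id v0)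
  have hloc : ∀ r : ℝ, ∃ V ∈ 𝓝 r, ∀ s1 ∈ V, ∀ s2 ∈ V, P s1 → P s2 := by
    intro r
    set c := chartAt E (geo g e x v0 r)
    have hc : c ∈ atlas E M := chart_mem_atlas E _
    have hr : geo g e x v0 r ∈ c.source := mem_chart_source E _
    obtain ⟨ε, hε, N, hN, hzN, φ, L, hφ⟩ := local_flow (c.open_target.prod isOpen_univ)
      (g.good hc).Wf_smooth (z0 := st c (geo g e x v0) r) ⟨c.map_source hr, trivial⟩
    have a1 := st_ode (t := r) (Eventually.of_forall (isGeodesic_iff.1 (hγ v0))) hc hr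
    have a2 := a1.self_of_nhds.2.continuousAt.preimage_mem_nhds (hN.mem_nhds hzN)
    refine ⟨_, inter_mem (inter_mem a1 a2) (Metric.ball_mem_nhds r (half_pos hε)), ?_⟩
    rintro s1 ⟨⟨⟨b1, -⟩, b2⟩, b3⟩ s2 ⟨-, b4⟩ ⟨p1, p2⟩
    obtain ⟨L0, hL0⟩ := p2 c hc b1
    have hτ : s2 - s1 ∈ Ioo (-ε) ε := by
      rw [Metric.mem_ball, Real.dist_eq, abs_lt] at b3 b4
      constructor <;> linarith [b3.1, b3.2, b4.1, b4.2]
    have hev : ∀ᶠ v in 𝓝 v0, geo g e x v s2 ∈ c.source ∧
        st c (geo g e x v) s2 = φ (st c (geo g e x v) s1) (s2 - s1) := by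
      filter_upwards [p1.preimage_mem_nhds (c.open_source.mem_nhds b1),
        hL0.continuousAt.preimage_mem_nhds (hN.mem_nhds b2)] with v c1 c2
      have := exp_key hc (hγ v) c1 (hφ _ c2).1
        (fun τ hτ => ⟨((hφ _ c2).2.2 τ hτ).1, ((hφ _ c2).2.2 τ hτ).2.1⟩) hτ
      rwa [add_sub_cancel] at this
    have hL2 : HasStrictFDerivAt (fun v => st c (geo g e x v) s2) _ v0 :=
      (HasStrictFDerivAt.comp (f := fun v => st c (geo g e x v) s1) v0
        ((hφ _ b2).2.2 _ hτ).2.2.1 hL0).congr_of_eventuallyEq (hev.mono fun v hv => hv.2.symm)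
    have hcont : ContinuousAt (fun v => geo g e x v s2) v0 := by
      have d1 : ContinuousAt (fun v => c.symm (st c (geo g e x v) s2).1) v0 :=
        (c.continuousAt_symm (c.map_source hev.self_of_nhds.1)).comp_of_eq
          (f := fun v => (st c (geo g e x v) s2).1) hL2.continuousAt.fst rfl
      exact d1.congr (hev.mono fun v hv => c.left_inv hv.1)
    exact ⟨hcont, fun e' he' hs => exp_chart hγ hcont hc he' hev.self_of_nhds.1 hs hL2⟩
  refine PreconnectedSpace.induction₂' (fun a b : ℝ => P a → P b) (fun r => ?_)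
    ⟨fun a b c h1 h2 h3 => h2 (h1 h3)⟩ 0 s h0
  obtain ⟨V, hV, h⟩ := hloc r
  filter_upwards [hV] with q hq
  exact ⟨h r (mem_of_mem_nhds hV) q hq, h q hq r (mem_of_mem_nhds hV)⟩

theorem geo_lin (g : RMetric M) (he : e ∈ atlas E M) (hx : x ∈ e.source) (v0 : E) (s : ℝ)
    (he' : e' ∈ atlas E M) (hs : geo g e x v0 s ∈ e'.source) (w : E) :
    HasDerivAt (fun r => fderiv ℝ (fun v => st e' (geo g e x v) r) v0 w)
      (fderiv ℝ (Wf (g.g e')) (st e' (geo g e x v0) s)
        (fderiv ℝ (fun v => st e' (geo g e x v) s) v0 w)) s := by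
  have hγ : ∀ v, IsGeodesic g (geo g e x v) := fun v => (geo_spec g he hx v).1
  obtain ⟨ε, hε, N, hN, hzN, φ, L, hφ⟩ := local_flow (e'.open_target.prod isOpen_univ)
    (g.good he').Wf_smooth (z0 := st e' (geo g e x v0) s) ⟨e'.map_source hs, trivial⟩
  obtain ⟨p1, p2⟩ := geo_deriv g he hx v0 s
  obtain ⟨L0, hL0⟩ := p2 e' he' hs
  have h0 : (0 : ℝ) ∈ Ioo (-ε) ε := ⟨by linarith, hε⟩
  have h1 := ((hφ _ hzN).2.2 0 h0).2.2.2 (L0 w)
  rw [(hφ _ hzN).1, (hφ _ hzN).2.1, ← sub_self s] at h1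
  rw [hL0.hasFDerivAt.fderiv]
  refine (h1.comp_sub_const s s).congr_of_eventuallyEq ?_
  filter_upwards [Metric.ball_mem_nhds s hε] with r hr
  have hτ : r - s ∈ Ioo (-ε) ε := by
    rw [Metric.mem_ball, Real.dist_eq, abs_lt] at hr
    exact hr
  have hev : ∀ᶠ v in 𝓝 v0, φ (st e' (geo g e x v) s) (r - s) = st e' (geo g e x v) r := by
    filter_upwards [p1.preimage_mem_nhds (e'.open_source.mem_nhds hs),
      hL0.continuousAt.preimage_mem_nhds (hN.mem_nhds hzN)] with v c1 c2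
    have := (exp_key he' (hγ v) c1 (hφ _ c2).1
      (fun τ hτ => ⟨((hφ _ c2).2.2 τ hτ).1, ((hφ _ c2).2.2 τ hτ).2.1⟩) hτ).2
    rw [add_sub_cancel] at this
    exact this.symm
  have hL2 : HasStrictFDerivAt (fun v => st e' (geo g e x v) r) _ v0 :=
    (HasStrictFDerivAt.comp (f := fun v => st e' (geo g e x v) s) v0
      ((hφ _ hzN).2.2 _ hτ).2.2.1 hL0).congr_of_eventuallyEq hev
  rw [hL2.hasFDerivAt.fderiv]
  rfl

theorem jac_eq_fst (g : RMetric M) (he : e ∈ atlas E M) (hx : x ∈ e.source) (v w : E) {s : ℝ}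
    (he' : e' ∈ atlas E M) (hs : geo g e x v s ∈ e'.source) :
    jac g e x v w e' s = (fderiv ℝ (fun v => st e' (geo g e x v) s) v w).1 := by
  obtain ⟨L, hL⟩ := (geo_deriv g he hx v s).2 e' he' hs
  have h1 : HasFDerivAt (fun v => e' (geo g e x v s)) _ v := hL.hasFDerivAt.fst
  rw [jac, hL.hasFDerivAt.fderiv, h1.fderiv]
  rfl

theorem jac_chart (g : RMetric M) (he : e ∈ atlas E M) (hx : x ∈ e.source) (v w : E) {s : ℝ}
    (he' : e' ∈ atlas E M) (hs : geo g e x v s ∈ e'.source) :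
    HasDerivAt (jac g e x v w e') (fderiv ℝ (fun v => st e' (geo g e x v) s) v w).2 s ∧
    DifferentiableAt ℝ (cov (g.g e') (e' ∘ geo g e x v) (jac g e x v w e')) s ∧
    cov (g.g e') (e' ∘ geo g e x v) (cov (g.g e') (e' ∘ geo g e x v) (jac g e x v w e')) s +
      riem (g.g e') (e' (geo g e x v s)) (jac g e x v w e' s) (deriv (e' ∘ geo g e x v) s)
        (deriv (e' ∘ geo g e x v) s) = 0 := by
  have h1 := st_ode (t := s) (Eventually.of_forall (isGeodesic_iff.1 (geo_spec g he hx v).1))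
    he' hs
  refine (g.good he').jacobi_of_lin (x := e' ∘ geo g e x v) (v := deriv (e' ∘ geo g e x v))
    (K := fun r => (fderiv ℝ (fun v => st e' (geo g e x v) r) v w).2) (e'.map_source hs)
    (h1.mono fun r hr => hr.2) ?_
  filter_upwards [h1.eventually_nhds] with r hr
  have h2 : (fun r => (jac g e x v w e' r, (fderiv ℝ (fun v => st e' (geo g e x v) r) v w).2))
      =ᶠ[𝓝 r] fun r => fderiv ℝ (fun v => st e' (geo g e x v) r) v w :=
    hr.mono fun q hq => by simp only [jac_eq_fst g he hx v w he' hq.1]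
  have h3 : (jac g e x v w e' r, (fderiv ℝ (fun v => st e' (geo g e x v) r) v w).2) =
      fderiv ℝ (fun v => st e' (geo g e x v) r) v w := h2.self_of_nhds
  rw [h3]
  exact (geo_lin g he hx v r he' hr.self_of_nhds.1 w).congr_of_eventuallyEq h2

theorem jac_isJacobi (g : RMetric M) (he : e ∈ atlas E M) (hx : x ∈ e.source) (v w : E) :
    IsJacobi g (geo g e x v) (jac g e x v w) ∧ VanishesAt (geo g e x v) (jac g e x v w) 0 ∧
      deriv (jac g e x v w e) 0 = w := by
  refine ⟨⟨fun c hc c' hc' t ht ht' => ?_, fun c hc t ht => ?_⟩, fun c hc ht => ?_, ?_⟩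
  · obtain ⟨p1, p2⟩ := geo_deriv g he hx v t
    obtain ⟨L, hL⟩ := p2 c hc ht
    have h1 : HasFDerivAt (fun v => c (geo g e x v t)) _ v := hL.hasFDerivAt.fst
    have h2 : HasFDerivAt (c' ∘ c.symm) (fderiv ℝ (c' ∘ c.symm) (c (geo g e x v t)))
        (c (geo g e x v t)) :=
      ((tr_smooth hc hc' ht ht').differentiableAt (by simp)).hasFDerivAt
    have h3 : HasFDerivAt (fun v => c' (geo g e x v t)) _ v :=
      (HasFDerivAt.comp (f := fun v => c (geo g e x v t)) v h2 h1).congr_of_eventuallyEq (by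
        filter_upwards [p1.preimage_mem_nhds (c.open_source.mem_nhds ht)] with u hu
        simp only [Function.comp_apply]
        rw [c.left_inv hu])
    rw [jac, jac, h3.fderiv, h1.fderiv]
    rfl
  · obtain ⟨h1, h2, h3⟩ := jac_chart g he hx v w hc ht
    exact ⟨h1.differentiableAt, h2, h3⟩
  · have a0 : (fun v => c (geo g e x v 0)) = fun _ => c x :=
      funext fun v => by rw [(geo_spec g he hx v).2.1]
    simp [jac, a0]
  · rw [(jac_chart g he hx v w he (by rw [(geo_spec g he hx v).2.1]; exact hx)).1.deriv]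
    have a2 : (fun v => st e (geo g e x v) 0) = fun v => (e x, v) := funext fun v => by
      rw [st, (geo_spec g he hx v).2.1, (geo_spec g he hx v).2.2]
    have a3 : HasFDerivAt (fun v : E => (e x, v)) (ContinuousLinearMap.inr ℝ E E) v :=
      (hasFDerivAt_const (e x) v).prodMk (hasFDerivAt_id v)
    rw [a2, a3.fderiv]
    rfl

theorem NoConj.expInj (h : NoConj g) (he : e ∈ atlas E M) (hx : x ∈ e.source) :
    ExpInj g e x := by
  intro v w e' he' hv hw
  obtain ⟨h1, h2, h3⟩ := jac_isJacobi g he hx v w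
  obtain ⟨h4, h5, -⟩ := geo_spec g he hx v
  have h6 : VanishesAt (geo g e x v) (jac g e x v w) 1 := fun c hc ht => by
    rw [h1.1 e' he' c hc 1 hv ht, hw]
    simp [tr]
  have h7 := h _ _ h4 h1 0 1 zero_ne_one h2 h6
  have h8 : jac g e x v w e =ᶠ[𝓝 0] fun _ => 0 := by
    filter_upwards [h4.1.continuousAt.preimage_mem_nhds
      (e.open_source.mem_nhds (show geo g e x v 0 ∈ e.source by rw [h5]; exact hx))] with s hs
    exact h7 s e he hs
  rw [← h3, h8.deriv_eq]
  simp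

end Vale.Agent.P255
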