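import Vale.Agent.P255.Exp

/-!
The Gauss lemma and the expansion property of the exponential map.
-/

open scoped ContDiff Topology Matrix Manifold
open Set Filter

noncomputable section

namespace Vale.Agent.P255

theorem gauss_real {F F1 F2 : ℝ → ℝ} (h1 : ∀ s, HasDerivAt F (F1 s) s)
    (h2 : ∀ s, HasDerivAt F1 (F2 s) s) (hF : ∀ s, 0 ≤ F s) (hF2 : ∀ s, 0 ≤ F2 s)
    (hq : ∀ s, F1 s ^ 2 ≤ 2 * F s * F2 s) (h0 : F 0 = 0) : F2 0 ≤ 2 * F 1 := by
  have hconv : ∀ δ > 0, ∀ s ∈ Icc (0 : ℝ) 1,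
      √(F s + δ) ≤ (1 - s) * √δ + s * √(F 1 + δ) := by
    intro δ hδ s hs
    have hp : ∀ r, 0 < F r + δ := fun r => by linarith [hF r]
    have d1 : ∀ r, HasDerivAt (fun r => √(F r + δ)) (F1 r / (2 * √(F r + δ))) r := fun r =>
      ((h1 r).add_const δ).sqrt (hp r).ne'
    have d2 : deriv (fun r => √(F r + δ)) = fun r => F1 r / (2 * √(F r + δ)) :=
      funext fun r => (d1 r).deriv
    have d3 : ∀ r, HasDerivAt (fun r => F1 r / (2 * √(F r + δ)))
        ((F2 r * (2 * √(F r + δ)) - F1 r * (2 * (F1 r / (2 * √(F r + δ))))) /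
          (2 * √(F r + δ)) ^ 2) r := fun r =>
      (h2 r).div ((d1 r).const_mul 2) (by have := Real.sqrt_pos.2 (hp r); positivity)
    have hc : ConvexOn ℝ univ (fun r => √(F r + δ)) := by
      refine convexOn_univ_of_deriv2_nonneg (fun r => (d1 r).differentiableAt)
        (by rw [d2]; exact fun r => (d3 r).differentiableAt) fun r => ?_
      have : deriv^[2] (fun r => √(F r + δ)) r = deriv (deriv fun r => √(F r + δ)) r := rfl
      rw [this, d2, (d3 r).deriv]
      have e1 := Real.sqrt_pos.2 (hp r)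
      have e2 := Real.mul_self_sqrt (hp r).le
      refine div_nonneg ?_ (by positivity)
      have e3 : F2 r * (2 * √(F r + δ)) - F1 r * (2 * (F1 r / (2 * √(F r + δ)))) =
          (2 * (√(F r + δ) * √(F r + δ)) * F2 r - F1 r ^ 2) / √(F r + δ) := by
        field_simp
      rw [e3, e2]
      refine div_nonneg ?_ e1.le
      nlinarith [hq r, mul_nonneg hδ.le (hF2 r)]
    have := hc.2 (mem_univ 0) (mem_univ 1) (sub_nonneg.2 hs.2) hs.1 (by ring)
    simpa [h0] using this
  have hle : ∀ s ∈ Icc (0 : ℝ) 1, F s ≤ s ^ 2 * F 1 := by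
    intro s hs
    have a1 : √(F s + 0) ≤ (1 - s) * √0 + s * √(F 1 + 0) := by
      refine le_of_tendsto_of_tendsto (b := 𝓝[>] (0 : ℝ)) (f := fun δ => √(F s + δ))
        (g := fun δ => (1 - s) * √δ + s * √(F 1 + δ)) ?_ ?_
        (eventually_of_mem self_mem_nhdsWithin fun δ hδ => hconv δ hδ s hs)
      · exact (Continuous.tendsto (by fun_prop) 0).mono_left nhdsWithin_le_nhds
      · exact (Continuous.tendsto (by fun_prop) 0).mono_left nhdsWithin_le_nhds
    simp only [add_zero, Real.sqrt_zero, mul_zero, zero_add] at a1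
    have a2 := mul_self_le_mul_self (Real.sqrt_nonneg _) a1
    rw [Real.mul_self_sqrt (hF s)] at a2
    nlinarith [Real.mul_self_sqrt (hF 1)]
  by_contra hlt
  push Not at hlt
  have hF1 : F1 0 = 0 := by
    have := hq 0
    rw [h0] at this
    nlinarith [sq_nonneg (F1 0)]
  set c := (F2 0 / 2 + F 1) / 2 with hc
  have d1 : ∀ r, HasDerivAt (fun r => F r - c * r ^ 2) (F1 r - c * (2 * r)) r := fun r => by
    simpa using (h1 r).fun_sub ((hasDerivAt_pow 2 r).const_mul c)
  have d2 : deriv (fun r => F r - c * r ^ 2) = fun r => F1 r - c * (2 * r) :=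
    funext fun r => (d1 r).deriv
  have d3 : HasDerivAt (fun r => F1 r - c * (2 * r)) (F2 0 - c * 2) 0 := by
    simpa using (h2 0).fun_sub (((hasDerivAt_id (0 : ℝ)).const_mul 2).const_mul c)
  have hmin : IsLocalMin (fun r => F r - c * r ^ 2) 0 :=
    isLocalMin_of_deriv_deriv_pos (by rw [d2, d3.deriv]; linarith) (by rw [d2]; simp [hF1])
      (d1 0).continuousAt
  obtain ⟨s, hs1, hs2⟩ := ((hmin.filter_mono (nhdsWithin_le_nhds (s := Ioi 0))).and
    (Ioo_mem_nhdsGT (zero_lt_one' ℝ))).exists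
  have a3 := hle s ⟨hs2.1.le, hs2.2.le⟩
  simp only [h0] at hs1
  have a4 : 0 < s ^ 2 := pow_pos hs2.1 2
  nlinarith

variable {M : Type} [TopologicalSpace M] [ChartedSpace E M] [T2Space M] [CompactSpace M]
  [IsManifold (modelWithCornersSelf ℝ E) ∞ M] {g : RMetric M}
  {e e' : OpenPartialHomeomorph M E} {x : M}

theorem gauss_cov (g : RMetric M) (he : e ∈ atlas E M) (hx : x ∈ e.source) (v w : E) {s : ℝ}
    (he' : e' ∈ atlas E M) (hs : geo g e x v s ∈ e'.source) :
    ip (g.g e' (e' (geo g e x v s))) (cov (g.g e') (e' ∘ geo g e x v) (jac g e x v w e') s)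
      (deriv (e' ∘ geo g e x v) s) = ip (g.g e (e x)) w v := by
  obtain ⟨p1, p2⟩ := geo_deriv g he hx v s
  obtain ⟨L, hL⟩ := p2 e' he' hs
  have hy := e'.map_source hs
  have hl : HasDerivAt (fun r : ℝ => v + r • w) w 0 := by
    simpa using ((hasDerivAt_id (0 : ℝ)).smul_const w).const_add v
  have hv0 : v + (0 : ℝ) • w = v := by simp
  have h1 : HasDerivAt (fun r : ℝ => st e' (geo g e x (v + r • w)) s) (L w) 0 :=
    HasFDerivAt.comp_hasDerivAt_of_eq (l := fun u => st e' (geo g e x u) s) 0 hL.hasFDerivAt hl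
      hv0.symm
  have h2 : HasDerivAt (fun r : ℝ => (st e' (geo g e x (v + r • w)) s).1) (L w).1 0 :=
    (ContinuousLinearMap.fst ℝ E E).hasFDerivAt.comp_hasDerivAt 0 h1
  have h3 : HasDerivAt (fun r : ℝ => (st e' (geo g e x (v + r • w)) s).2) (L w).2 0 :=
    (ContinuousLinearMap.snd ℝ E E).hasFDerivAt.comp_hasDerivAt 0 h1
  have h4 := (g.good he').hasDerivAt_ip (by simp only [hv0]; exact hy) h2 h3 h3
  have h5 := (g.good he).hasDerivAt_ip (x := fun _ => e x) (e.map_source hx)
    (hasDerivAt_const (0 : ℝ) (e x)) hl hl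
  have h6 := h4.unique (h5.congr_of_eventuallyEq (by
    have hc : ContinuousAt (fun r : ℝ => geo g e x (v + r • w) s) 0 :=
      p1.comp_of_eq (f := fun r : ℝ => v + r • w) hl.continuousAt hv0
    filter_upwards [hc.preimage_mem_nhds (e'.open_source.mem_nhds
      (show geo g e x (v + (0 : ℝ) • w) s ∈ e'.source by rw [hv0]; exact hs))] with r hr
    obtain ⟨q1, q2, q3⟩ := geo_spec g he hx (v + r • w)
    have := geod_energy isOpen_univ isPreconnected_univ (fun s _ => isGeodesic_iff.1 q1 s)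
      (mem_univ s) (mem_univ 0) he' he hr (by rw [q2]; exact hx)
    rw [q2, q3] at this
    exact this))
  have h7 : chr (g.g e) (e x) 0 v = 0 := by
    rw [(g.good he).chr_symm (e.map_source hx), ← zero_smul ℝ (0 : E),
      (g.good he).chr_smul (e.map_source hx), zero_smul, zero_smul]
  simp only [hv0, h7, add_zero, st] at h6
  rw [ip_comm (g.pos e' he' _ hy) (deriv _ s), ip_comm (g.pos e he _ (e.map_source hx)) v] at h6
  rw [cov, (jac_chart g he hx v w he' hs).1.deriv, jac_eq_fst g he hx v w he' hs,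
    hL.hasFDerivAt.fderiv, Function.comp_apply, (g.good he').chr_symm hy]
  linarith

omit [T2Space M] [CompactSpace M] in
theorem gauss_chart {γ : ℝ → M} (hγ : IsGeodesic g γ) {J : OpenPartialHomeomorph M E → ℝ → E}
    (hJ : IsJacobi g γ J) {s : ℝ} (he : e ∈ atlas E M) (he' : e' ∈ atlas E M)
    (hs : γ s ∈ e.source) (hs' : γ s ∈ e'.source) :
    ip (g.g e (e (γ s))) (J e s) (deriv (e ∘ γ) s) =
      ip (g.g e' (e' (γ s))) (J e' s) (deriv (e' ∘ γ) s) ∧
    ip (g.g e (e (γ s))) (J e s) (J e s) = ip (g.g e' (e' (γ s))) (J e' s) (J e' s) := by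
  rw [(st_tr he he' hγ.1.continuousAt hs hs' (hγ.2 e he s hs).1).deriv, hJ.1 e he e' he' s hs hs']
  exact ⟨g.compat e he e' he' _ hs hs' _ _, g.compat e he e' he' _ hs hs' _ _⟩

/-- The Gauss lemma. -/
theorem gauss (g : RMetric M) (he : e ∈ atlas E M) (hx : x ∈ e.source) (v w : E)
    (he' : e' ∈ atlas E M) (hv : expm g e x v ∈ e'.source) :
    ip (g.g e' (e' (expm g e x v))) (jac g e x v w e' 1) (deriv (e' ∘ geo g e x v) 1) =
      ip (g.g e (e x)) w v := by
  obtain ⟨hγ, -, -⟩ := geo_spec g he hx v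
  obtain ⟨hJ, hJ0, -⟩ := jac_isJacobi g he hx v w
  set γ := geo g e x v with hγd
  set J := jac g e x v w with hJd
  set f : ℝ → ℝ := fun r => ip (g.g (chartAt E (γ r)) (chartAt E (γ r) (γ r)))
    (J (chartAt E (γ r)) r) (deriv (chartAt E (γ r) ∘ γ) r) with hf
  have hd : ∀ r, HasDerivAt f (ip (g.g e (e x)) w v) r := by
    intro r
    have b1 : γ r ∈ (chartAt E (γ r)).source := mem_chart_source E _
    have b3 := chart_mem_atlas E (γ r)
    obtain ⟨c1, c2⟩ := hγ.2 _ b3 r b1
    have c3 := (g.good b3).hasDerivAt_ip (x := chartAt E (γ r) ∘ γ)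
      ((chartAt E (γ r)).map_source b1) c1.hasDerivAt (hJ.2 _ b3 r b1).1.hasDerivAt c2
    refine (c3.congr_of_eventuallyEq ?_).congr_deriv ?_
    · filter_upwards [hγ.1.continuousAt.preimage_mem_nhds
        ((chartAt E (γ r)).open_source.mem_nhds b1)] with q d2
      exact (gauss_chart hγ hJ (chart_mem_atlas E _) b3 (mem_chart_source E _) d2).1
    · rw [← gauss_cov g he hx v w b3 b1]
      simp [cov, hγd, hJd]
  have hd2 : ∀ r, HasDerivAt (fun r => f r - r * ip (g.g e (e x)) w v) 0 r := fun r => by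
    simpa using (hd r).fun_sub ((hasDerivAt_id r).mul_const (ip (g.g e (e x)) w v))
  have hc := is_const_of_deriv_eq_zero (fun r => (hd2 r).differentiableAt)
    (fun r => (hd2 r).deriv) 1 0
  have h0 : f 0 = 0 := by
    simp only [hf, hJ0 _ (chart_mem_atlas E _) (mem_chart_source E _), ip_zero_left]
  have h1 := (gauss_chart hγ hJ he' (chart_mem_atlas E (γ 1)) hv (mem_chart_source E _)).1
  rw [h0] at hc
  have h2 : f 1 = ip (g.g e (e x)) w v := by linarith
  exact h1.trans h2

/-- In nonpositive curvature the exponential map is expanding. -/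
theorem Nonpos.expand (h : Nonpos g) (he : e ∈ atlas E M) (hx : x ∈ e.source) (v w : E)
    (he' : e' ∈ atlas E M) (hv : expm g e x v ∈ e'.source) :
    ip (g.g e (e x)) w w ≤
      ip (g.g e' (e' (expm g e x v))) (jac g e x v w e' 1) (jac g e x v w e' 1) := by
  obtain ⟨hγ, hγ0, -⟩ := geo_spec g he hx v
  obtain ⟨hJ, hJ0, hJ1⟩ := jac_isJacobi g he hx v w
  set γ := geo g e x v with hγd
  set J := jac g e x v w with hJd
  set F : ℝ → ℝ := fun r => ip (g.g (chartAt E (γ r)) (chartAt E (γ r) (γ r)))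
    (J (chartAt E (γ r)) r) (J (chartAt E (γ r)) r) with hF
  have hd : ∀ c ∈ atlas E M, ∀ r, γ r ∈ c.source → HasDerivAt F
      (2 * ip (g.g c (c (γ r))) (cov (g.g c) (c ∘ γ) (J c) r) (J c r)) r := by
    intro c hc r b1
    have c3 := (g.good hc).hasDerivAt_ip (x := c ∘ γ) (c.map_source b1)
      (hγ.2 _ hc r b1).1.hasDerivAt (hJ.2 _ hc r b1).1.hasDerivAt (hJ.2 _ hc r b1).1.hasDerivAt
    refine (c3.congr_of_eventuallyEq ?_).congr_deriv ?_
    · filter_upwards [hγ.1.continuousAt.preimage_mem_nhds (c.open_source.mem_nhds b1)] with q d2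
      exact (gauss_chart hγ hJ (chart_mem_atlas E _) hc (mem_chart_source E _) d2).2
    · simp only [cov, Function.comp_apply]
      rw [ip_comm ((g.good hc).pos _ (c.map_source b1)) (J c r)]
      ring
  have hd2 : ∀ c ∈ atlas E M, ∀ r, γ r ∈ c.source → HasDerivAt (deriv F)
      (2 * (ip (g.g c (c (γ r))) (cov (g.g c) (c ∘ γ) (J c) r) (cov (g.g c) (c ∘ γ) (J c) r) -
        ip (g.g c (c (γ r))) (riem (g.g c) (c (γ r)) (J c r) (deriv (c ∘ γ) r)
          (deriv (c ∘ γ) r)) (J c r))) r := by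
    intro c hc r b1
    obtain ⟨c1, c2, c4⟩ := hJ.2 _ hc r b1
    have c3 := ((g.good hc).hasDerivAt_ip (x := c ∘ γ) (c.map_source b1)
      (hγ.2 _ hc r b1).1.hasDerivAt c2.hasDerivAt c1.hasDerivAt).const_mul 2
    refine (c3.congr_of_eventuallyEq ?_).congr_deriv ?_
    · filter_upwards [hγ.1.continuousAt.preimage_mem_nhds (c.open_source.mem_nhds b1)] with q d2
      exact (hd c hc q d2).deriv
    · rw [← neg_eq_of_add_eq_zero_right c4, ip_neg_left]
      simp only [cov, Function.comp_apply]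
      ring
  have hF0 : F 0 = 0 := by
    simp only [hF, hJ0 _ (chart_mem_atlas E _) (mem_chart_source E _), ip_zero_left]
  have key := gauss_real (F := F) (F1 := deriv F) (F2 := deriv (deriv F))
    (fun r => (hd _ (chart_mem_atlas E _) r (mem_chart_source E _)).differentiableAt.hasDerivAt)
    (fun r => (hd2 _ (chart_mem_atlas E _) r (mem_chart_source E _)).differentiableAt.hasDerivAt)
    (fun r => ip_nonneg (g.pos _ (chart_mem_atlas E _) _ (mem_chart_target E _)) _)
    (fun r => by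
      have b3 := chart_mem_atlas E (γ r)
      rw [(hd2 _ b3 r (mem_chart_source E _)).deriv]
      have a1 := h _ b3 _ (mem_chart_target E (γ r)) (J (chartAt E (γ r)) r)
        (deriv (chartAt E (γ r) ∘ γ) r)
      have a2 := ip_nonneg (g.pos _ b3 _ (mem_chart_target E (γ r)))
        (cov (g.g (chartAt E (γ r))) (chartAt E (γ r) ∘ γ) (J (chartAt E (γ r))) r)
      linarith)
    (fun r => by
      have b3 := chart_mem_atlas E (γ r)
      rw [(hd2 _ b3 r (mem_chart_source E _)).deriv, (hd _ b3 r (mem_chart_source E _)).deriv]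
      have a1 := h _ b3 _ (mem_chart_target E (γ r)) (J (chartAt E (γ r)) r)
        (deriv (chartAt E (γ r) ∘ γ) r)
      have a2 := ip_sq_le (g.pos _ b3 _ (mem_chart_target E (γ r)))
        (cov (g.g (chartAt E (γ r))) (chartAt E (γ r) ∘ γ) (J (chartAt E (γ r))) r)
        (J (chartAt E (γ r)) r)
      have a3 := ip_nonneg (g.pos _ b3 _ (mem_chart_target E (γ r))) (J (chartAt E (γ r)) r)
      have a4 := mul_nonneg a3 (neg_nonneg.2 a1)
      simp only [hF]
      nlinarith) hF0
  have hs0 : γ 0 ∈ e.source := by rw [hγ0]; exact hx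
  have h7 : ∀ u, chr (g.g e) (e x) u 0 = 0 := fun u => by
    rw [← zero_smul ℝ (0 : E), (g.good he).chr_smul (e.map_source hx), zero_smul, zero_smul]
  rw [(hd2 e he 0 hs0).deriv, cov, hJ0 e he hs0, hJ1, Function.comp_apply, hγ0, h7] at key
  have h1 := (gauss_chart hγ hJ he' (chart_mem_atlas E (γ 1)) hv (mem_chart_source E _)).2
  simp only [add_zero, ip_zero_right, sub_zero, hF] at key
  change _ ≤ ip (g.g e' (e' (γ 1))) (J e' 1) (J e' 1)
  linarith

end Vale.Agent.P255
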