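import Vale.Agent.P255.Chart
import Vale.Agent.P255.Flow

/-!
Existence and uniqueness of geodesics on a closed manifold.
-/

open scoped ContDiff Topology Matrix Manifold
open Set Filter

noncomputable section

namespace Vale.Agent.P255

variable {M : Type} [TopologicalSpace M] [ChartedSpace E M]
  [IsManifold (modelWithCornersSelf ℝ E) ∞ M] {g : RMetric M}
  {e e' : OpenPartialHomeomorph M E} {γ : ℝ → M} {t : ℝ} {x : M}

theorem tr_smooth (he : e ∈ atlas E M) (he' : e' ∈ atlas E M) (hx : x ∈ e.source)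
    (hx' : x ∈ e'.source) : ContDiffAt ℝ ∞ (e' ∘ e.symm) (e x) := by
  have h1 : ContMDiffAt (modelWithCornersSelf ℝ E) (modelWithCornersSelf ℝ E) ∞ e.symm (e x) :=
    contMDiffAt_symm_of_mem_maximalAtlas (IsManifold.subset_maximalAtlas he) (e.map_source hx)
  have h2 : ContMDiffAt (modelWithCornersSelf ℝ E) (modelWithCornersSelf ℝ E) ∞ e'
      (e.symm (e x)) := by
    rw [e.left_inv hx]
    exact contMDiffAt_of_mem_maximalAtlas (IsManifold.subset_maximalAtlas he') hx'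
  exact contMDiffAt_iff_contDiffAt.1 (h2.comp _ h1)

theorem st_tr (he : e ∈ atlas E M) (he' : e' ∈ atlas E M) (hc : ContinuousAt γ t)
    (ht : γ t ∈ e.source) (ht' : γ t ∈ e'.source) (hd : DifferentiableAt ℝ (e ∘ γ) t) :
    HasDerivAt (e' ∘ γ) (tr e e' (γ t) (deriv (e ∘ γ) t)) t := by
  have h1 : HasFDerivAt (e' ∘ e.symm) (fderiv ℝ (e' ∘ e.symm) (e (γ t))) ((e ∘ γ) t) :=
    ((tr_smooth he he' ht ht').differentiableAt (by simp)).hasFDerivAt
  refine (h1.comp_hasDerivAt t hd.hasDerivAt).congr_of_eventuallyEq ?_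
  filter_upwards [hc.preimage_mem_nhds (e.open_source.mem_nhds ht)] with s hs
  simp only [Function.comp_apply]
  rw [e.left_inv hs]

theorem geod_tr_tr (he : e ∈ atlas E M) (he' : e' ∈ atlas E M) (hx : x ∈ e.source)
    (hx' : x ∈ e'.source) (v : E) : tr e' e x (tr e e' x v) = v := by
  have h1 : HasFDerivAt (e' ∘ e.symm) (fderiv ℝ (e' ∘ e.symm) (e x)) (e x) :=
    ((tr_smooth he he' hx hx').differentiableAt (by simp)).hasFDerivAt
  have h2 : HasFDerivAt (e ∘ e'.symm) (fderiv ℝ (e ∘ e'.symm) (e' x)) ((e' ∘ e.symm) (e x)) := by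
    have : (e' ∘ e.symm) (e x) = e' x := by simp [e.left_inv hx]
    rw [this]
    exact ((tr_smooth he' he hx' hx).differentiableAt (by simp)).hasFDerivAt
  have h3 : HasFDerivAt (fun y : E => y)
      ((fderiv ℝ (e ∘ e'.symm) (e' x)).comp (fderiv ℝ (e' ∘ e.symm) (e x))) (e x) := by
    refine (h2.comp _ h1).congr_of_eventuallyEq ?_
    have hc : ContinuousAt e.symm (e x) := e.continuousAt_symm (e.map_source hx)
    have hm : e'.source ∈ 𝓝 (e.symm (e x)) := by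
      rw [e.left_inv hx]; exact e'.open_source.mem_nhds hx'
    filter_upwards [hc.preimage_mem_nhds hm, e.open_target.mem_nhds (e.map_source hx)] with y hy hy'
    simp only [Function.comp_apply]
    rw [e'.left_inv hy, e.right_inv hy']
  have h4 := h3.unique (hasFDerivAt_id (e x))
  have h5 := congrArg (fun L : E →L[ℝ] E => L v) h4
  simpa [tr] using h5

omit [IsManifold (modelWithCornersSelf ℝ E) ∞ M] in
theorem GeodAt.congr {γ' : ℝ → M} (h : GeodAt g γ t) (hh : γ' =ᶠ[𝓝 t] γ) : GeodAt g γ' t := by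
  have h0 : γ' t = γ t := hh.self_of_nhds
  refine ⟨h.1.congr hh.symm, fun e he ht => ?_⟩
  have h1 : e ∘ γ' =ᶠ[𝓝 t] e ∘ γ := hh.fun_comp e
  obtain ⟨h2, h3⟩ := h.2 e he (h0 ▸ ht)
  refine ⟨h2.congr_of_eventuallyEq h1, ?_⟩
  rw [h0, h1.deriv_eq]
  exact h3.congr_of_eventuallyEq h1.deriv

theorem geod_second {φ : E → E} {x v : ℝ → E} {v' : E} (hφ : ContDiffAt ℝ ∞ φ (x t))
    (hx : HasDerivAt x (v t) t) (hv : HasDerivAt v v' t) :
    HasDerivAt (fun s => fderiv ℝ φ (x s) (v s))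
      (fderiv ℝ (fun y => fderiv ℝ φ y (v t)) (x t) (v t) + fderiv ℝ φ (x t) v') t := by
  have hD : HasFDerivAt (fderiv ℝ φ) (fderiv ℝ (fderiv ℝ φ) (x t)) (x t) :=
    ((hφ.fderiv_right (m := ∞) (by simp)).differentiableAt (by simp)).hasFDerivAt
  have h8 : fderiv ℝ (fun y => fderiv ℝ φ y (v t)) (x t) (v t) =
      fderiv ℝ (fderiv ℝ φ) (x t) (v t) (v t) := by
    rw [(hD.clm_apply (hasFDerivAt_const (v t) (x t))).fderiv]
    simp
  rw [h8]
  exact (hD.comp_hasDerivAt t hx).clm_apply hv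

theorem geodAt_of_chart (he : e ∈ atlas E M) {z : ℝ → E × E}
    (hz : ∀ᶠ s in 𝓝 t, (z s).1 ∈ e.target ∧ HasDerivAt z (Wf (g.g e) (z s)) s)
    (hγ : γ =ᶠ[𝓝 t] fun s => e.symm (z s).1) :
    GeodAt g γ t ∧ γ t ∈ e.source ∧ st e γ t = z t := by
  have hx : ∀ᶠ s in 𝓝 t, HasDerivAt (fun s => (z s).1) (z s).2 s := by
    filter_upwards [hz] with s hs
    exact (ContinuousLinearMap.fst ℝ E E).hasFDerivAt.comp_hasDerivAt s hs.2
  have hv : HasDerivAt (fun s => (z s).2) (- chr (g.g e) (z t).1 (z t).2 (z t).2) t :=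
    (ContinuousLinearMap.snd ℝ E E).hasFDerivAt.comp_hasDerivAt t hz.self_of_nhds.2
  have ht := hz.self_of_nhds.1
  have hγt : γ t = e.symm (z t).1 := hγ.self_of_nhds
  have hc : ContinuousAt γ t :=
    ((e.continuousAt_symm ht).comp (f := fun s => (z s).1)
      hx.self_of_nhds.continuousAt).congr hγ.symm
  have hs : γ t ∈ e.source := hγt ▸ e.map_target ht
  have heγ : e ∘ γ =ᶠ[𝓝 t] fun s => (z s).1 := by
    filter_upwards [hz, hγ] with s h1 h2
    simp only [Function.comp_apply, h2, e.right_inv h1.1]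
  have hezt : e (γ t) = (z t).1 := heγ.self_of_nhds
  refine ⟨⟨hc, fun e' he' ht' => ?_⟩, hs, ?_⟩
  swap
  · simp only [st, hezt, heγ.deriv_eq, hx.self_of_nhds.deriv]
  set φ : E → E := e' ∘ e.symm with hφ
  have hφs : ContDiffAt ℝ ∞ φ (z t).1 := hezt ▸ tr_smooth he he' hs ht'
  have hnear : ∀ᶠ s in 𝓝 t, HasDerivAt (e' ∘ γ) (fderiv ℝ φ (z s).1 (z s).2) s := by
    filter_upwards [hz, hx, hγ.eventuallyEq_nhds,
      hc.preimage_mem_nhds (e'.open_source.mem_nhds ht')] with s h1 h2 h3 h4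
    have h5 : γ s = e.symm (z s).1 := h3.self_of_nhds
    have h6 : ContDiffAt ℝ ∞ φ (z s).1 := by
      have := tr_smooth he he' (h5 ▸ e.map_target h1.1) h4
      rwa [h5, e.right_inv h1.1] at this
    refine ((h6.differentiableAt (by simp)).hasFDerivAt.comp_hasDerivAt s
      h2).congr_of_eventuallyEq ?_
    exact h3.fun_comp e'
  have hd : deriv (e' ∘ γ) =ᶠ[𝓝 t] fun s => fderiv ℝ φ (z s).1 (z s).2 :=
    hnear.mono fun s hs => hs.deriv
  refine ⟨hnear.self_of_nhds.differentiableAt, ?_⟩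
  have h7 := geod_second hφs hx.self_of_nhds hv
  have hφt : φ (z t).1 = e' (γ t) := by rw [hγt]; rfl
  have hiso : ∀ᶠ y in 𝓝 (z t).1, ∀ u v, ip (g.g e y) u v =
      ip (g.g e' (φ y)) (fderiv ℝ φ y u) (fderiv ℝ φ y v) := by
    have hm : e'.source ∈ 𝓝 (e.symm (z t).1) := hγt ▸ e'.open_source.mem_nhds ht'
    filter_upwards [(e.continuousAt_symm ht).preimage_mem_nhds hm,
      e.open_target.mem_nhds ht] with y hy hy' u v
    have := g.compat e he e' he' (e.symm y) (e.map_target hy') hy u v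
    simp only [tr, e.right_inv hy'] at this
    exact this
  have h9 := (g.good he).chr_transform (g.good he') ht (hφt ▸ e'.map_source ht') hφs hiso
    (z t).2 (z t).2
  rw [hd.self_of_nhds]
  refine (h7.congr_of_eventuallyEq hd).congr_deriv ?_
  rw [map_neg, h9, hφt]
  abel

omit [IsManifold (modelWithCornersSelf ℝ E) ∞ M] in
theorem st_ode (hγ : ∀ᶠ s in 𝓝 t, GeodAt g γ s) (he : e ∈ atlas E M) (ht : γ t ∈ e.source) :
    ∀ᶠ s in 𝓝 t, γ s ∈ e.source ∧ HasDerivAt (st e γ) (Wf (g.g e) (st e γ s)) s := by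
  filter_upwards [hγ, hγ.self_of_nhds.1.preimage_mem_nhds (e.open_source.mem_nhds ht)]
    with s h1 h2
  obtain ⟨h3, h4⟩ := h1.2 e he h2
  exact ⟨h2, h3.hasDerivAt.prodMk h4⟩

omit [IsManifold (modelWithCornersSelf ℝ E) ∞ M] in
theorem geod_unique_loc {γ' : ℝ → M} (h1 : ∀ᶠ s in 𝓝 t, GeodAt g γ s)
    (h2 : ∀ᶠ s in 𝓝 t, GeodAt g γ' s) (he : e ∈ atlas E M) (hs : γ t ∈ e.source)
    (hs' : γ' t ∈ e.source) (h0 : st e γ t = st e γ' t) : γ =ᶠ[𝓝 t] γ' := by
  have a1 := st_ode h1 he hs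
  have a2 := st_ode h2 he hs'
  have hW : ContDiffAt ℝ 1 (Wf (g.g e)) (st e γ t) :=
    ((g.good he).Wf_smooth.contDiffAt ((e.open_target.prod isOpen_univ).mem_nhds
      ⟨e.map_source hs, trivial⟩)).of_le (by exact_mod_cast le_top)
  obtain ⟨K, S, hS, hK⟩ := hW.exists_lipschitzOnWith
  have b1 := a1.self_of_nhds.2.continuousAt.preimage_mem_nhds hS
  have b2 := a2.self_of_nhds.2.continuousAt.preimage_mem_nhds (h0 ▸ hS)
  have h3 : st e γ =ᶠ[𝓝 t] st e γ' :=
    ODE_solution_unique_of_eventually (v := fun _ => Wf (g.g e)) (s := fun _ => S) (K := K)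
      (Eventually.of_forall fun _ => hK)
      (by filter_upwards [a1, b1] with s c1 c2 using ⟨c1.2, c2⟩)
      (by filter_upwards [a2, b2] with s c1 c2 using ⟨c1.2, c2⟩) h0
  filter_upwards [h3, a1, a2] with s c1 c2 c3
  exact e.injOn c2.1 c3.1 (congrArg Prod.fst c1)

theorem geod_unique [T2Space M] {S : Set ℝ} (hS : IsOpen S) (hS' : IsPreconnected S)
    {γ' : ℝ → M} (h1 : ∀ s ∈ S, GeodAt g γ s) (h2 : ∀ s ∈ S, GeodAt g γ' s) (ht : t ∈ S)
    (he : e ∈ atlas E M) (hs : γ t ∈ e.source) (h0 : γ t = γ' t)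
    (hv : deriv (e ∘ γ) t = deriv (e ∘ γ') t) : EqOn γ γ' S := by
  have a1 : ∀ s ∈ S, ∀ᶠ r in 𝓝 s, GeodAt g γ r := fun s hs =>
    eventually_of_mem (hS.mem_nhds hs) h1
  have a2 : ∀ s ∈ S, ∀ᶠ r in 𝓝 s, GeodAt g γ' r := fun s hs =>
    eventually_of_mem (hS.mem_nhds hs) h2
  have key : S ⊆ {s | γ =ᶠ[𝓝 s] γ'} := by
    refine hS'.subset_of_closure_inter_subset (isOpen_setOfPred_eventually_nhds) ⟨t, ht, ?_⟩ ?_
    · exact geod_unique_loc (a1 t ht) (a2 t ht) he hs (h0 ▸ hs) (by simp only [st, h0, hv])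
    · rintro s ⟨hc, hsS⟩
      have hf : ∃ᶠ r in 𝓝 s, γ =ᶠ[𝓝 r] γ' := mem_closure_iff_frequently.1 hc
      have b0 : γ s = γ' s := tendsto_nhds_unique_of_frequently_eq (h1 s hsS).1 (h2 s hsS).1
        (hf.mono fun r hr => hr.self_of_nhds)
      have b1 : γ s ∈ (chartAt E (γ s)).source := mem_chart_source E _
      have b2 : γ' s ∈ (chartAt E (γ s)).source := b0 ▸ b1
      have b3 := chart_mem_atlas E (γ s)
      refine geod_unique_loc (a1 s hsS) (a2 s hsS) b3 b1 b2 ?_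
      refine tendsto_nhds_unique_of_frequently_eq
        (st_ode (a1 s hsS) b3 b1).self_of_nhds.2.continuousAt
        (st_ode (a2 s hsS) b3 b2).self_of_nhds.2.continuousAt (hf.mono fun r hr => ?_)
      simp only [st, hr.self_of_nhds, (hr.fun_comp (chartAt E (γ s))).deriv_eq]
  exact fun s hs => (key hs).self_of_nhds

theorem geod_energy_chart (h : GeodAt g γ t) (he : e ∈ atlas E M) (he' : e' ∈ atlas E M)
    (ht : γ t ∈ e.source) (ht' : γ t ∈ e'.source) :
    ip (g.g e (e (γ t))) (deriv (e ∘ γ) t) (deriv (e ∘ γ) t) =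
      ip (g.g e' (e' (γ t))) (deriv (e' ∘ γ) t) (deriv (e' ∘ γ) t) := by
  rw [(st_tr he he' h.1 ht ht' (h.2 e he ht).1).deriv]
  exact g.compat e he e' he' _ ht ht' _ _

theorem geod_energy {S : Set ℝ} (hS : IsOpen S) (hS' : IsPreconnected S)
    (h1 : ∀ s ∈ S, GeodAt g γ s) {s : ℝ} (hs : s ∈ S) (ht : t ∈ S)
    (he : e ∈ atlas E M) (he' : e' ∈ atlas E M) (hse : γ s ∈ e.source) (hte : γ t ∈ e'.source) :
    ip (g.g e (e (γ s))) (deriv (e ∘ γ) s) (deriv (e ∘ γ) s) =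
      ip (g.g e' (e' (γ t))) (deriv (e' ∘ γ) t) (deriv (e' ∘ γ) t) := by
  set en : ℝ → ℝ := fun r => ip (g.g (chartAt E (γ r)) (chartAt E (γ r) (γ r)))
    (deriv (chartAt E (γ r) ∘ γ) r) (deriv (chartAt E (γ r) ∘ γ) r) with hen
  have hd : ∀ r ∈ S, HasDerivAt en 0 r := by
    intro r hr
    have b1 : γ r ∈ (chartAt E (γ r)).source := mem_chart_source E _
    have b3 := chart_mem_atlas E (γ r)
    obtain ⟨c1, c2⟩ := (h1 r hr).2 _ b3 b1
    have c3 := (g.good b3).hasDerivAt_ip (x := chartAt E (γ r) ∘ γ)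
      ((chartAt E (γ r)).map_source b1) c1.hasDerivAt c2 c2
    refine (c3.congr_of_eventuallyEq ?_).congr_deriv ?_
    · filter_upwards [hS.mem_nhds hr, (h1 r hr).1.preimage_mem_nhds
        ((chartAt E (γ r)).open_source.mem_nhds b1)] with q d1 d2
      exact geod_energy_chart (h1 q d1) (chart_mem_atlas E _) b3 (mem_chart_source E _) d2
    · simp
  have hc : en s = en t := hS.is_const_of_deriv_eq_zero hS'
    (fun r hr => (hd r hr).differentiableAt.differentiableWithinAt)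
    (fun r hr => (hd r hr).deriv) hs ht
  rw [geod_energy_chart (h1 s hs) he (chart_mem_atlas E _) hse (mem_chart_source E _),
    geod_energy_chart (h1 t ht) he' (chart_mem_atlas E _) hte (mem_chart_source E _)]
  exact hc

omit [IsManifold (modelWithCornersSelf ℝ E) ∞ M] in
theorem geod_affine {a b s : ℝ} (hγ : ∀ᶠ r in 𝓝 (a * s + b), GeodAt g γ r) :
    GeodAt g (fun s => γ (a * s + b)) s ∧ ∀ e ∈ atlas E M, γ (a * s + b) ∈ e.source →
      deriv (e ∘ fun s => γ (a * s + b)) s = a • deriv (e ∘ γ) (a * s + b) := by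
  have hl : ∀ r : ℝ, HasDerivAt (fun s => a * s + b) a r := fun r => by
    simpa using ((hasDerivAt_id r).const_mul a).add_const b
  have hd : ∀ e ∈ atlas E M, γ (a * s + b) ∈ e.source → ∀ᶠ r in 𝓝 s,
      HasDerivAt (e ∘ fun s => γ (a * s + b)) (a • deriv (e ∘ γ) (a * r + b)) r := by
    intro e he hs
    have h1 := (hl s).continuousAt.eventually (st_ode hγ he hs)
    have h2 := (hl s).continuousAt.eventually hγ
    filter_upwards [h1, h2] with r c1 c2
    exact ((c2.2 e he c1.1).1.hasDerivAt.scomp r (hl r))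
  refine ⟨⟨hγ.self_of_nhds.1.comp (f := fun s => a * s + b) (hl s).continuousAt,
    fun e he hs => ⟨(hd e he hs).self_of_nhds.differentiableAt, ?_⟩⟩,
    fun e he hs => (hd e he hs).self_of_nhds.deriv⟩
  have h3 : deriv (e ∘ fun s => γ (a * s + b)) =ᶠ[𝓝 s]
      fun r => a • deriv (e ∘ γ) (a * r + b) := (hd e he hs).mono fun r hr => hr.deriv
  have h4 := ((hγ.self_of_nhds.2 e he hs).2.scomp s (hl s)).const_smul a
  rw [h3.self_of_nhds]
  refine (h4.congr_of_eventuallyEq h3).congr_deriv ?_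
  have hy := e.map_source hs
  rw [(g.good he).chr_smul hy, (g.good he).chr_symm hy (a • _), (g.good he).chr_smul hy]
  simp

theorem geod_lower {G : E → Mat} {U : Set E} (h : Good G U) {y : E} (hy : y ∈ U) (c : ℝ) :
    ∃ R : ℝ, ∀ᶠ z in 𝓝 y, ∀ v, ip (G z) v v ≤ c → v ∈ Metric.closedBall (0 : E) R := by
  have h1 : ∀ᶠ p : E × ℝ in 𝓝 (y, 0), ∀ u ∈ Metric.sphere (0 : E) 1, p.2 < ip (G p.1) u u := by
    refine (isCompact_sphere (0 : E) 1).eventually_forall_of_forall_eventually fun u hu => ?_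
    have hu0 : u ≠ 0 := by rintro rfl; simp at hu
    have hG : ∀ i j, ContinuousAt (fun q : (E × ℝ) × E => G q.1.1 i j) ((y, 0), u) := fun i j =>
      ((h.smooth i j).continuousOn.continuousAt (h.isOpen.mem_nhds hy)).comp_of_eq
        (f := fun q : (E × ℝ) × E => q.1.1) (by fun_prop) rfl
    have hc : ContinuousAt (fun q : (E × ℝ) × E => ip (G q.1.1) q.2 q.2) ((y, 0), u) := by
      simp only [ip, dotProduct, Matrix.mulVec]
      refine tendsto_finsetSum _ fun i _ => ContinuousAt.mul (by fun_prop) ?_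
      exact tendsto_finsetSum _ fun j _ => ContinuousAt.mul (hG i j) (by fun_prop)
    exact ContinuousAt.eventually_lt (f := fun q : (E × ℝ) × E => q.1.2) (by fun_prop) hc
      (ip_pos (h.pos y hy) hu0)
  rw [nhds_prod_eq] at h1
  obtain ⟨pa, ha, pb, hb, h2⟩ := eventually_prod_iff.1 h1
  obtain ⟨m, hm, hm0⟩ := ((hb.filter_mono (nhdsWithin_le_nhds (s := Ioi 0))).and
    self_mem_nhdsWithin).exists
  have hm0 : 0 < m := hm0
  refine ⟨1 + |c| / m, ha.mono fun z hz v hv => ?_⟩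
  rw [mem_closedBall_zero_iff]
  by_contra hlt
  push Not at hlt
  have hq : 0 ≤ |c| / m := by positivity
  have hn : 0 < ‖v‖ := by linarith
  have h3 := h2 hz hm (‖v‖⁻¹ • v) (by simp [norm_smul, hn.ne'])
  rw [ip_smul_left, ip_smul_right] at h3
  have h4 : m * (‖v‖ * ‖v‖) < ip (G z) v v := by
    have := mul_lt_mul_of_pos_left h3 (mul_pos hn hn)
    field_simp at this
    nlinarith
  have h5 : |c| < m * ‖v‖ := by
    have : |c| / m < ‖v‖ := by linarith
    rw [div_lt_iff₀ hm0] at this; linarith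
  nlinarith [le_abs_self c, abs_nonneg c]

theorem geod_short [CompactSpace M] (g : RMetric M) (c : ℝ) : ∃ ε > 0, ∀ x : M,
    ∀ e ∈ atlas E M, x ∈ e.source → ∀ v, ip (g.g e (e x)) v v ≤ c →
      ∃ γ, (∀ s ∈ Ioo (-ε) ε, GeodAt g γ s) ∧ γ 0 = x ∧ deriv (e ∘ γ) 0 = v := by
  have h1 : ∀ᶠ ε : ℝ in 𝓝 0, ∀ x ∈ (univ : Set M), 0 < ε →
      ∀ e ∈ atlas E M, x ∈ e.source → ∀ v, ip (g.g e (e x)) v v ≤ c →
      ∃ γ, (∀ s ∈ Ioo (-ε) ε, GeodAt g γ s) ∧ γ 0 = x ∧ deriv (e ∘ γ) 0 = v := by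
    refine isCompact_univ.eventually_forall_of_forall_eventually fun x0 _ => ?_
    set e0 := chartAt E x0
    have he0 : e0 ∈ atlas E M := chart_mem_atlas E x0
    have hx0 : x0 ∈ e0.source := mem_chart_source E x0
    obtain ⟨R, hR⟩ := geod_lower (g.good he0) (e0.map_source hx0) c
    have h2 : ∀ᶠ p : ℝ × E in 𝓝 (0, e0 x0), ∀ v ∈ Metric.closedBall (0 : E) R,
        ∃ z : ℝ → E × E, z 0 = (p.2, v) ∧ ∀ τ ∈ Ioo (-p.1) p.1,
          (z τ).1 ∈ e0.target ∧ HasDerivAt z (Wf (g.g e0) (z τ)) τ := by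
      refine (isCompact_closedBall (0 : E) R).eventually_forall_of_forall_eventually
        fun v _ => ?_
      obtain ⟨ε, hε, N, hN, hzN, φ, L, hφ⟩ := local_flow (e0.open_target.prod isOpen_univ)
        (g.good he0).Wf_smooth (z0 := (e0 x0, v)) ⟨e0.map_source hx0, trivial⟩
      have a1 : ∀ᶠ q : (ℝ × E) × E in 𝓝 ((0, e0 x0), v), (q.1.2, q.2) ∈ N :=
        ContinuousAt.preimage_mem_nhds (f := fun q : (ℝ × E) × E => (q.1.2, q.2))
          (by fun_prop) (hN.mem_nhds hzN)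
      have a2 : ∀ᶠ q : (ℝ × E) × E in 𝓝 ((0, e0 x0), v), q.1.1 < ε :=
        ContinuousAt.eventually_lt (f := fun q : (ℝ × E) × E => q.1.1) (by fun_prop)
          continuousAt_const hε
      filter_upwards [a1, a2] with q b1 b2
      refine ⟨φ (q.1.2, q.2), (hφ _ b1).1, fun τ hτ => ?_⟩
      have b3 := (hφ _ b1).2.2 τ ⟨by linarith [hτ.1], by linarith [hτ.2]⟩
      exact ⟨b3.1.1, b3.2.1⟩
    have hc : ContinuousAt e0 x0 := e0.continuousAt hx0
    have hc1 : ContinuousAt (fun q : ℝ × M => e0 q.2) (0, x0) :=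
      hc.comp_of_eq (f := fun q : ℝ × M => q.2) continuousAt_snd rfl
    have hc2 : ContinuousAt (fun q : ℝ × M => (q.1, e0 q.2)) (0, x0) := continuousAt_fst.prodMk hc1
    have hc3 : ∀ᶠ q : ℝ × M in 𝓝 (0, x0), q.2 ∈ e0.source :=
      continuousAt_snd.preimage_mem_nhds (e0.open_source.mem_nhds hx0)
    filter_upwards [hc1.eventually hR, hc2.eventually h2, hc3] with q b1 b2 b3 hq e he hx v hv
    rw [g.compat e he e0 he0 _ hx b3] at hv
    obtain ⟨z, hz0, hz⟩ := b2 _ (b1 _ hv)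
    have b4 : ∀ s ∈ Ioo (-q.1) q.1, GeodAt g (fun s => e0.symm (z s).1) s ∧
        e0.symm (z s).1 ∈ e0.source ∧ st e0 (fun s => e0.symm (z s).1) s = z s := fun s hs =>
      geodAt_of_chart he0 (eventually_of_mem (isOpen_Ioo.mem_nhds hs) hz) EventuallyEq.rfl
    have b5 : (0 : ℝ) ∈ Ioo (-q.1) q.1 := ⟨by linarith, hq⟩
    have b6 : e0.symm (z 0).1 = q.2 := by rw [hz0]; exact e0.left_inv b3
    refine ⟨fun s => e0.symm (z s).1, fun s hs => (b4 s hs).1, b6, ?_⟩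
    obtain ⟨c1, c2, c3⟩ := b4 0 b5
    rw [(st_tr he0 he c1.1 c2 (by rw [b6]; exact hx) (c1.2 e0 he0 c2).1).deriv]
    have c4 : deriv (e0 ∘ fun s => e0.symm (z s).1) 0 = tr e e0 q.2 v := by
      have := congrArg Prod.snd c3
      rw [hz0] at this
      exact this
    rw [c4, b6]
    exact geod_tr_tr he he0 hx b3 v
  obtain ⟨ε, h2, h3⟩ := ((h1.filter_mono (nhdsWithin_le_nhds (s := Ioi 0))).and
    self_mem_nhdsWithin).exists
  exact ⟨ε, h3, fun x => h2 x trivial h3⟩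

theorem geod_exists [T2Space M] [CompactSpace M] (g : RMetric M) (he : e ∈ atlas E M)
    (hx : x ∈ e.source) (v : E) : ∃ γ, IsGeodesic g γ ∧ γ 0 = x ∧ deriv (e ∘ γ) 0 = v := by
  classical
  obtain ⟨ε, hε, hsh⟩ := geod_short g (ip (g.g e (e x)) v v)
  let Adm : (ℝ → M) → Set ℝ → Prop := fun γ S => IsOpen S ∧ IsPreconnected S ∧ 0 ∈ S ∧
    (∀ s ∈ S, GeodAt g γ s) ∧ γ 0 = x ∧ deriv (e ∘ γ) 0 = v
  have huniq : ∀ γ S γ' S', Adm γ S → Adm γ' S' → EqOn γ γ' (S ∩ S') := by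
    rintro γ S γ' S' ⟨a1, a2, a3, a4, a5, a6⟩ ⟨b1, b2, b3, b4, b5, b6⟩
    exact geod_unique (a1.inter b1) (a2.ordConnected.inter b2.ordConnected).isPreconnected
      (fun s hs => a4 s hs.1) (fun s hs => b4 s hs.2) ⟨a3, b3⟩ he (a5 ▸ hx) (a5.trans b5.symm)
      (a6.trans b6.symm)
  have hall : ∀ t : ℝ, ∃ γ S, Adm γ S ∧ t ∈ S := by
    have hA : IsClopen {t : ℝ | ∃ γ S, Adm γ S ∧ t ∈ S} := by
      constructor
      · refine isClosed_of_closure_subset fun t ht => ?_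
        obtain ⟨t1, ⟨γ, S, ⟨a1, a2, a3, a4, a5, a6⟩, h1⟩, h2⟩ := Metric.mem_closure_iff.1 ht ε hε
        have b1 : γ t1 ∈ (chartAt E (γ t1)).source := mem_chart_source E _
        have b3 := chart_mem_atlas E (γ t1)
        obtain ⟨γ1, c1, c2, c3⟩ := hsh (γ t1) _ b3 b1 (deriv (chartAt E (γ t1) ∘ γ) t1) (by
          rw [geod_energy a1 a2 a4 h1 a3 b3 he b1 (a5 ▸ hx), a5, a6])
        have hI : ∀ s ∈ Ioo (t1 - ε) (t1 + ε), ∀ᶠ r in 𝓝 (1 * s + -t1), GeodAt g γ1 r :=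
          fun s hs => eventually_of_mem (isOpen_Ioo.mem_nhds
            (show 1 * s + -t1 ∈ Ioo (-ε) ε from ⟨by linarith [hs.1], by linarith [hs.2]⟩)) c1
        have ht1 : t1 ∈ Ioo (t1 - ε) (t1 + ε) := ⟨by linarith, by linarith⟩
        have hz : 1 * t1 + -t1 = 0 := by ring
        have heq : EqOn γ (fun s => γ1 (1 * s + -t1)) (S ∩ Ioo (t1 - ε) (t1 + ε)) := by
          refine geod_unique (a1.inter isOpen_Ioo)
            (a2.ordConnected.inter ordConnected_Ioo).isPreconnected (fun s hs => a4 s hs.1)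
            (fun s hs => (geod_affine (hI s hs.2)).1) ⟨h1, ht1⟩ b3 b1 (by simp only [hz, c2]) ?_
          rw [(geod_affine (hI t1 ht1)).2 _ b3 (by rw [hz, c2]; exact b1), hz, c3, one_smul]
        have hS : ∀ s ∈ S, S.piecewise γ (fun s => γ1 (1 * s + -t1)) =ᶠ[𝓝 s] γ := fun s hs =>
          eventually_of_mem (a1.mem_nhds hs) fun r hr => piecewise_eq_of_mem _ _ _ hr
        refine ⟨S.piecewise γ (fun s => γ1 (1 * s + -t1)), S ∪ Ioo (t1 - ε) (t1 + ε),
          ⟨a1.union isOpen_Ioo, a2.union t1 h1 ht1 isPreconnected_Ioo, Or.inl a3, ?_, ?_, ?_⟩,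
          Or.inr ?_⟩
        · rintro s (hs | hs)
          · exact (a4 s hs).congr (hS s hs)
          · refine (geod_affine (hI s hs)).1.congr
              (eventually_of_mem (isOpen_Ioo.mem_nhds hs) fun r hr => ?_)
            by_cases hrS : r ∈ S
            · rw [piecewise_eq_of_mem _ _ _ hrS]; exact heq ⟨hrS, hr⟩
            · rw [piecewise_eq_of_notMem _ _ _ hrS]
        · rw [(hS 0 a3).self_of_nhds, a5]
        · rw [((hS 0 a3).fun_comp e).deriv_eq, a6]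
        · rw [Real.dist_eq, abs_lt] at h2
          exact ⟨by linarith [h2.1], by linarith [h2.2]⟩
      · refine isOpen_iff_mem_nhds.2 ?_
        rintro t ⟨γ, S, h1, h2⟩
        exact mem_of_superset (h1.1.mem_nhds h2) fun s hs => ⟨γ, S, h1, hs⟩
    have h0 : (0 : ℝ) ∈ {t : ℝ | ∃ γ S, Adm γ S ∧ t ∈ S} := by
      obtain ⟨γ, c1, c2, c3⟩ := hsh x e he hx v le_rfl
      have : (0 : ℝ) ∈ Ioo (-ε) ε := ⟨by linarith, hε⟩
      exact ⟨γ, Ioo (-ε) ε, ⟨isOpen_Ioo, isPreconnected_Ioo, this, c1, c2, c3⟩, this⟩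
    have := hA.eq_univ ⟨0, h0⟩
    exact fun t => (this ▸ mem_univ t : t ∈ {t : ℝ | ∃ γ S, Adm γ S ∧ t ∈ S})
  choose Γ S hΓ hS using hall
  have hloc : ∀ t, (fun s => Γ s s) =ᶠ[𝓝 t] Γ t := fun t =>
    eventually_of_mem ((hΓ t).1.mem_nhds (hS t)) fun s hs =>
      huniq _ _ _ _ (hΓ s) (hΓ t) ⟨hS s, hs⟩
  refine ⟨fun s => Γ s s, isGeodesic_iff.2 fun t => ((hΓ t).2.2.2.1 t (hS t)).congr (hloc t),
    (hΓ 0).2.2.2.2.1, ?_⟩
  rw [((hloc 0).fun_comp e).deriv_eq]
  exact (hΓ 0).2.2.2.2.2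

omit [IsManifold (modelWithCornersSelf ℝ E) ∞ M] in
theorem IsGeodesic.affine (hγ : IsGeodesic g γ) (a b : ℝ) :
    IsGeodesic g (fun s => γ (a * s + b)) ∧ ∀ e ∈ atlas E M, ∀ s, γ (a * s + b) ∈ e.source →
      deriv (e ∘ fun s => γ (a * s + b)) s = a • deriv (e ∘ γ) (a * s + b) := by
  have h := isGeodesic_iff.1 hγ
  exact ⟨isGeodesic_iff.2 fun s => (geod_affine (Eventually.of_forall h)).1,
    fun e he s hs => (geod_affine (Eventually.of_forall h)).2 e he hs⟩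

omit [IsManifold (modelWithCornersSelf ℝ E) ∞ M] in
/-- A Jacobi field solves the linearized geodesic equation in every chart. -/
theorem jacobi_lin (hγ : IsGeodesic g γ) {J : OpenPartialHomeomorph M E → ℝ → E}
    (hJ : IsJacobi g γ J) (he : e ∈ atlas E M) (ht : γ t ∈ e.source) :
    ∀ᶠ s in 𝓝 t, HasDerivAt (fun s => (J e s, deriv (J e) s))
      (fderiv ℝ (Wf (g.g e)) (st e γ s) (J e s, deriv (J e) s)) s := by
  have h1 := st_ode (Eventually.of_forall (isGeodesic_iff.1 hγ)) he ht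
  exact (g.good he).lin_of_jacobi (x := e ∘ γ) (v := deriv (e ∘ γ)) (e.map_source ht)
    (h1.mono fun s hs => hs.2) (h1.mono fun s hs => hJ.2 e he s hs.1)

omit [IsManifold (modelWithCornersSelf ℝ E) ∞ M] in
theorem jacobi_zero_loc (hγ : IsGeodesic g γ) {J : OpenPartialHomeomorph M E → ℝ → E}
    (hJ : IsJacobi g γ J) (he : e ∈ atlas E M) (ht : γ t ∈ e.source) (h0 : J e t = 0)
    (h1 : deriv (J e) t = 0) : J e =ᶠ[𝓝 t] fun _ => 0 := by
  have a1 := st_ode (Eventually.of_forall (isGeodesic_iff.1 hγ)) he ht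
  have hW : ContDiffAt ℝ 1 (Wf (g.g e)) (st e γ t) :=
    ((g.good he).Wf_smooth.contDiffAt ((e.open_target.prod isOpen_univ).mem_nhds
      ⟨e.map_source ht, trivial⟩)).of_le (by exact_mod_cast le_top)
  have hc : ContinuousAt (fun s => ‖fderiv ℝ (Wf (g.g e)) (st e γ s)‖₊) t :=
    ((hW.continuousAt_fderiv one_ne_zero).comp (f := st e γ)
      a1.self_of_nhds.2.continuousAt).nnnorm
  have h3 : (fun s => (J e s, deriv (J e) s)) =ᶠ[𝓝 t] fun _ => 0 := by
    refine ODE_solution_unique_of_eventually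
      (v := fun s => fderiv ℝ (Wf (g.g e)) (st e γ s)) (s := fun _ => univ)
      (K := ‖fderiv ℝ (Wf (g.g e)) (st e γ t)‖₊ + 1) ?_
      ((jacobi_lin hγ hJ he ht).mono fun s hs => ⟨hs, trivial⟩)
      (Eventually.of_forall fun s => ⟨by simpa using hasDerivAt_const s (0 : E × E), trivial⟩)
      (by simp [h0, h1])
    filter_upwards [hc.eventually_lt continuousAt_const (lt_add_one _)] with s hs
    exact ((fderiv ℝ (Wf (g.g e)) (st e γ s)).lipschitz.weaken hs.le).lipschitzOnWith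
  exact h3.mono fun s hs => congrArg Prod.fst hs

omit [IsManifold (modelWithCornersSelf ℝ E) ∞ M] in
/-- A Jacobi field with vanishing initial data vanishes. -/
theorem jacobi_zero (hγ : IsGeodesic g γ) {J : OpenPartialHomeomorph M E → ℝ → E}
    (hJ : IsJacobi g γ J) (he : e ∈ atlas E M) (ht : γ t ∈ e.source) (h0 : J e t = 0)
    (h1 : deriv (J e) t = 0) (s : ℝ) : VanishesAt γ J s := by
  have hA : IsClopen {s | ∀ᶠ r in 𝓝 s, VanishesAt γ J r} := by
    refine ⟨isClosed_of_closure_subset fun s hs => ?_, isOpen_setOfPred_eventually_nhds⟩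
    have hf : ∃ᶠ r in 𝓝 s, ∀ᶠ q in 𝓝 r, VanishesAt γ J q := mem_closure_iff_frequently.1 hs
    have b1 : γ s ∈ (chartAt E (γ s)).source := mem_chart_source E _
    have b3 := chart_mem_atlas E (γ s)
    have b2 : ∀ᶠ r in 𝓝 s, γ r ∈ (chartAt E (γ s)).source :=
      hγ.1.continuousAt.preimage_mem_nhds ((chartAt E (γ s)).open_source.mem_nhds b1)
    have b4 : (J (chartAt E (γ s)) s, deriv (J (chartAt E (γ s))) s) = 0 := by
      refine tendsto_nhds_unique_of_frequently_eq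
        (jacobi_lin hγ hJ b3 b1).self_of_nhds.continuousAt tendsto_const_nhds
        ((hf.and_eventually b2.eventually_nhds).mono fun r hr => ?_)
      have b5 : J (chartAt E (γ s)) =ᶠ[𝓝 r] fun _ => 0 := by
        filter_upwards [hr.1, hr.2] with q c1 c2 using c1 _ b3 c2
      simp [b5.self_of_nhds, b5.deriv_eq]
    filter_upwards [jacobi_zero_loc hγ hJ b3 b1 (congrArg Prod.fst b4) (congrArg Prod.snd b4),
      b2] with r c1 c2 e' he' hr
    rw [hJ.1 _ b3 e' he' r c2 hr, c1]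
    simp [tr]
  have h2 : t ∈ {s | ∀ᶠ r in 𝓝 s, VanishesAt γ J r} := by
    filter_upwards [jacobi_zero_loc hγ hJ he ht h0 h1,
      hγ.1.continuousAt.preimage_mem_nhds (e.open_source.mem_nhds ht)] with r c1 c2 e' he' hr
    rw [hJ.1 _ he e' he' r c2 hr, c1]
    simp [tr]
  have h3 : s ∈ {s | ∀ᶠ r in 𝓝 s, VanishesAt γ J r} := hA.eq_univ ⟨t, h2⟩ ▸ mem_univ s
  exact Eventually.self_of_nhds h3

end Vale.Agent.P255
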