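import Vale.Agent.P255.Defs

/-!
Explicit formulas for the metric of the example.
-/

open scoped ContDiff Topology Matrix Manifold
open Set Filter

noncomputable section

namespace Vale.Agent.P255

namespace Prof

variable (P : Prof)

/-- Coefficient of the metric. -/
def g11 (t : ℝ) : ℝ := 1 / P.a t + P.σ t ^ 2 / P.b t

/-- Coefficient of the metric. -/
def g12 (t : ℝ) : ℝ := - P.σ t / P.b t

/-- Coefficient of the metric. -/
def g22 (t : ℝ) : ℝ := 1 / P.b t

theorem s11 : ContDiff ℝ ∞ P.g11 :=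
  (contDiff_const.div P.sa fun t => (P.a_pos t).ne').add
    ((P.sσ.pow 2).div P.sb fun t => (P.b_pos t).ne')

theorem s12 : ContDiff ℝ ∞ P.g12 := P.sσ.neg.div P.sb fun t => (P.b_pos t).ne'

theorem s22 : ContDiff ℝ ∞ P.g22 := contDiff_const.div P.sb fun t => (P.b_pos t).ne'

end Prof

theorem sm_deriv {f : ℝ → ℝ} (hf : ContDiff ℝ ∞ f) : ContDiff ℝ ∞ (deriv f) :=
  (contDiff_infty_iff_deriv.1 hf).2

theorem sm_has {f : ℝ → ℝ} (hf : ContDiff ℝ ∞ f) (t : ℝ) : HasDerivAt f (deriv f t) t :=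
  ((contDiff_infty_iff_deriv.1 hf).1 t).hasDerivAt

/-- The quadratic form with coefficients `A, B, C` in the last two variables. -/
def Qf (A B C : ℝ) (u v : E) : ℝ := A * (u 1 * v 1) + B * (u 1 * v 2 + u 2 * v 1) + C * (u 2 * v 2)

theorem ip_gm (P : Prof) (y u v : E) :
    ip (Gm P y) u v = u 0 * v 0 + Qf (P.g11 (y 0)) (P.g12 (y 0)) (P.g22 (y 0)) u v := by
  simp [ip, Gm, Qf, Prof.g11, Prof.g12, Prof.g22, Matrix.mulVec, dotProduct, Fin.sum_univ_three]
  ring

theorem lineDeriv_qf {A B C : ℝ → ℝ} (hA : ContDiff ℝ ∞ A) (hB : ContDiff ℝ ∞ B)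
    (hC : ContDiff ℝ ∞ C) (c k : ℝ) (y a u v : E) :
    lineDeriv ℝ (fun z : E => c + k * Qf (A (z 0)) (B (z 0)) (C (z 0)) u v) y a =
      a 0 * (k * Qf (deriv A (y 0)) (deriv B (y 0)) (deriv C (y 0)) u v) := by
  have h0 : HasDerivAt (fun r : ℝ => y 0 + r * a 0) (a 0) 0 := by
    simpa using ((hasDerivAt_id (0 : ℝ)).mul_const (a 0)).const_add (y 0)
  have h1 : ∀ {f : ℝ → ℝ}, ContDiff ℝ ∞ f →
      HasDerivAt (fun r : ℝ => f (y 0 + r * a 0)) (deriv f (y 0) * a 0) 0 := fun {f} hf => by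
    have := (sm_has hf (y 0 + 0 * a 0)).comp (0 : ℝ) h0
    rw [zero_mul, add_zero] at this
    exact this
  have h2 := (((((h1 hA).mul_const (u 1 * v 1)).add ((h1 hB).mul_const (u 1 * v 2 + u 2 * v 1))).add
    ((h1 hC).mul_const (u 2 * v 2))).const_mul k).const_add c
  have h3 : HasLineDerivAt ℝ (fun z : E => c + k * Qf (A (z 0)) (B (z 0)) (C (z 0)) u v)
      (a 0 * (k * Qf (deriv A (y 0)) (deriv B (y 0)) (deriv C (y 0)) u v)) y a := by
    refine HasDerivAt.congr_deriv (h2.congr_of_eventuallyEq (Eventually.of_forall fun r => ?_)) ?_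
    · simp [Qf]
    · simp only [Qf]; ring
  exact h3.lineDeriv

theorem dG_gm (P : Prof) (y a u v : E) : dG (Gm P) y a u v =
    a 0 * Qf (deriv P.g11 (y 0)) (deriv P.g12 (y 0)) (deriv P.g22 (y 0)) u v := by
  have := lineDeriv_qf P.s11 P.s12 P.s22 (u 0 * v 0) 1 y a u v
  simpa [dG, ip_gm] using this

theorem ddG_gm (P : Prof) (y a Y u v : E) : lineDeriv ℝ (fun z => dG (Gm P) z Y u v) y a =
    a 0 * (Y 0 * Qf (deriv (deriv P.g11) (y 0)) (deriv (deriv P.g12) (y 0))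
      (deriv (deriv P.g22) (y 0)) u v) := by
  have := lineDeriv_qf (sm_deriv P.s11) (sm_deriv P.s12) (sm_deriv P.s22) 0 (Y 0) y a u v
  simpa [dG_gm] using this

namespace Prof

variable (P : Prof) (p q : ℝ)

theorem su1 : ContDiff ℝ ∞ (u1 P.a P.σ p q) :=
  P.sa.mul (contDiff_const.add (P.sσ.mul contDiff_const))

theorem su2 : ContDiff ℝ ∞ (u2 P.a P.b P.σ p q) :=
  ((P.sa.mul P.sσ).mul (contDiff_const.add (P.sσ.mul contDiff_const))).add
    (P.sb.mul contDiff_const)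

theorem inv11 (t : ℝ) : P.a t * P.g11 t + P.a t * P.σ t * P.g12 t = 1 := by
  have := (P.a_pos t).ne'; have := (P.b_pos t).ne'
  simp only [g11, g12]; field_simp; ring

theorem inv12 (t : ℝ) : P.a t * P.g12 t + P.a t * P.σ t * P.g22 t = 0 := by
  simp only [g22, g12]; ring

theorem inv21 (t : ℝ) : P.a t * P.σ t * P.g11 t + (P.a t * P.σ t ^ 2 + P.b t) * P.g12 t = 0 := by
  have := (P.a_pos t).ne'; have := (P.b_pos t).ne'
  simp only [g11, g12]; field_simp; ring

theorem inv22 (t : ℝ) : P.a t * P.σ t * P.g12 t + (P.a t * P.σ t ^ 2 + P.b t) * P.g22 t = 1 := by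
  have := (P.a_pos t).ne'; have := (P.b_pos t).ne'
  simp only [g22, g12]; field_simp; ring

theorem e01 (t : ℝ) : P.g11 t * u1 P.a P.σ p q t + P.g12 t * u2 P.a P.b P.σ p q t = p := by
  have := (P.a_pos t).ne'; have := (P.b_pos t).ne'
  simp only [g11, g12, u1, u2]; field_simp; ring

theorem e02 (t : ℝ) : P.g12 t * u1 P.a P.σ p q t + P.g22 t * u2 P.a P.b P.σ p q t = q := by
  have := (P.a_pos t).ne'; have := (P.b_pos t).ne'
  simp only [g22, g12, u1, u2]; field_simp; ring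

end Prof

theorem deriv_pair {A B u w : ℝ → ℝ} (hA : ContDiff ℝ ∞ A) (hB : ContDiff ℝ ∞ B)
    (hu : ContDiff ℝ ∞ u) (hw : ContDiff ℝ ∞ w) {c : ℝ} (h : ∀ t, A t * u t + B t * w t = c)
    (t : ℝ) : deriv A t * u t + A t * deriv u t + (deriv B t * w t + B t * deriv w t) = 0 ∧
      deriv (deriv A) t * u t + 2 * deriv A t * deriv u t + A t * deriv (deriv u) t +
      (deriv (deriv B) t * w t + 2 * deriv B t * deriv w t + B t * deriv (deriv w) t) = 0 := by
  have h1 : ∀ t, deriv A t * u t + A t * deriv u t + (deriv B t * w t + B t * deriv w t) = 0 := by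
    intro t
    have := ((sm_has hA t).fun_mul (sm_has hu t)).fun_add ((sm_has hB t).fun_mul (sm_has hw t))
    simp only [h] at this
    exact this.unique (hasDerivAt_const t c)
  refine ⟨h1 t, ?_⟩
  have := (((sm_has (sm_deriv hA) t).fun_mul (sm_has hu t)).fun_add
    ((sm_has hA t).fun_mul (sm_has (sm_deriv hu) t))).fun_add
    (((sm_has (sm_deriv hB) t).fun_mul (sm_has hw t)).fun_add
    ((sm_has hB t).fun_mul (sm_has (sm_deriv hw) t)))
  simp only [h1] at this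
  have := this.unique (hasDerivAt_const t (0 : ℝ))
  linarith

theorem deriv_VV (P : Prof) (p q : ℝ) : deriv (VV P.a P.b P.σ p q) =
    fun t => p * deriv (u1 P.a P.σ p q) t + q * deriv (u2 P.a P.b P.σ p q) t := by
  have : VV P.a P.b P.σ p q = fun t => p * u1 P.a P.σ p q t + q * u2 P.a P.b P.σ p q t := by
    funext t; simp only [VV, u1, u2]; ring
  funext t
  rw [this]
  exact (((sm_has (P.su1 p q) t).const_mul p).fun_add ((sm_has (P.su2 p q) t).const_mul q)).deriv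

theorem deriv2_VV (P : Prof) (p q t : ℝ) : deriv (deriv (VV P.a P.b P.σ p q)) t =
    p * deriv (deriv (u1 P.a P.σ p q)) t + q * deriv (deriv (u2 P.a P.b P.σ p q)) t := by
  rw [deriv_VV]
  exact (((sm_has (sm_deriv (P.su1 p q)) t).const_mul p).fun_add
    ((sm_has (sm_deriv (P.su2 p q)) t).const_mul q)).deriv

/-- The Hamiltonian form of the equations. -/
theorem ham_alg (P : Prof) {p q π1 π2 t τ : ℝ} {V K : E}
    (hp : p = P.g11 t * V 1 + P.g12 t * V 2) (hq : q = P.g12 t * V 1 + P.g22 t * V 2)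
    (h1 : π1 = P.g11 t * K 1 + P.g12 t * K 2 + τ * (deriv P.g11 t * V 1 + deriv P.g12 t * V 2))
    (h2 : π2 = P.g12 t * K 1 + P.g22 t * K 2 + τ * (deriv P.g12 t * V 1 + deriv P.g22 t * V 2)) :
    u1 P.a P.σ p q t = V 1 ∧ u2 P.a P.b P.σ p q t = V 2 ∧
    Qf (deriv P.g11 t) (deriv P.g12 t) (deriv P.g22 t) V V / 2 =
      -deriv (VV P.a P.b P.σ p q) t / 2 ∧
    Qf (deriv P.g11 t) (deriv P.g12 t) (deriv P.g22 t) V K +
      τ * Qf (deriv (deriv P.g11) t) (deriv (deriv P.g12) t) (deriv (deriv P.g22) t) V V / 2 =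
      -deriv (deriv (VV P.a P.b P.σ p q)) t / 2 * τ -
        (π1 * deriv (u1 P.a P.σ p q) t + π2 * deriv (u2 P.a P.b P.σ p q) t) ∧
    K 1 = u1 P.a P.σ π1 π2 t + deriv (u1 P.a P.σ p q) t * τ ∧
    K 2 = u2 P.a P.b P.σ π1 π2 t + deriv (u2 P.a P.b P.σ p q) t * τ := by
  have i11 := P.inv11 t
  have i12 := P.inv12 t
  have i21 := P.inv21 t
  have i22 := P.inv22 t
  have a1 : u1 P.a P.σ p q t = V 1 := by
    simp only [u1, hp, hq]; linear_combination V 1 * i11 + V 2 * i12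
  have a2 : u2 P.a P.b P.σ p q t = V 2 := by
    simp only [u2, hp, hq]; linear_combination V 1 * i21 + V 2 * i22
  obtain ⟨b1, c1⟩ := deriv_pair P.s11 P.s12 (P.su1 p q) (P.su2 p q) (P.e01 p q) t
  obtain ⟨b2, c2⟩ := deriv_pair P.s12 P.s22 (P.su1 p q) (P.su2 p q) (P.e02 p q) t
  rw [a1, a2] at b1 b2 c1 c2
  refine ⟨a1, a2, ?_, ?_, ?_, ?_⟩
  · rw [deriv_VV]
    beta_reduce
    generalize deriv (u1 P.a P.σ p q) t = x at *
    generalize deriv (u2 P.a P.b P.σ p q) t = y at *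
    simp only [Qf, hp, hq]
    linear_combination V 1 / 2 * b1 + V 2 / 2 * b2
  · rw [deriv2_VV]
    generalize deriv (deriv (u1 P.a P.σ p q)) t = x' at *
    generalize deriv (deriv (u2 P.a P.b P.σ p q)) t = y' at *
    generalize deriv (u1 P.a P.σ p q) t = x at *
    generalize deriv (u2 P.a P.b P.σ p q) t = y at *
    simp only [Qf, hp, hq, h1, h2]
    linear_combination τ * V 1 / 2 * c1 + τ * V 2 / 2 * c2 + K 1 * b1 + K 2 * b2
  · generalize deriv (u1 P.a P.σ p q) t = x at *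
    generalize deriv (u2 P.a P.b P.σ p q) t = y at *
    simp only [u1, h1, h2]
    linear_combination (-K 1 + τ * x) * i11 + (-K 2 + τ * y) * i12 - τ * P.a t * b1 -
      τ * P.a t * P.σ t * b2
  · generalize deriv (u1 P.a P.σ p q) t = x at *
    generalize deriv (u2 P.a P.b P.σ p q) t = y at *
    simp only [u2, h1, h2]
    linear_combination (-K 1 + τ * x) * i21 + (-K 2 + τ * y) * i22 - τ * P.a t * P.σ t * b1 -
      τ * (P.a t * P.σ t ^ 2 + P.b t) * b2

end Vale.Agent.P255
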