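import Vale.Agent.P255.Chart0

/-!
The metric of the universal cover from a family of expanding exponential maps.
-/

open scoped Topology Matrix
open Set Filter

noncomputable section

namespace Vale.Agent.P255

theorem npc_cont (A : Mat) : Continuous fun w : E => ip A w w := by
  unfold ip
  fun_prop

theorem npc_tri {A : Mat} (hA : A.PosDef) (u v : E) :
    √(ip A (u + v) (u + v)) ≤ √(ip A u u) + √(ip A v v) := by
  have hu := ip_nonneg hA u
  have hv := ip_nonneg hA v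
  have h1 : ip A u v ≤ √(ip A u u) * √(ip A v v) := by
    rw [← Real.sqrt_mul hu]
    exact Real.le_sqrt_of_sq_le (ip_sq_le hA u v)
  refine Real.sqrt_le_iff.2 ⟨by positivity, ?_⟩
  rw [ip_add_left, ip_add_right, ip_add_right, ip_comm hA v u, add_sq, Real.sq_sqrt hu,
    Real.sq_sqrt hv]
  linarith

theorem npc_compact {A : Mat} (hA : A.PosDef) (R : ℝ) : IsCompact {w : E | √(ip A w w) ≤ R} := by
  obtain ⟨w0, hw0, hmin⟩ := (isCompact_sphere (0 : E) 1).exists_isMinOn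
    (NormedSpace.sphere_nonempty.2 zero_le_one) (npc_cont A).continuousOn
  have hc : 0 < ip A w0 w0 := ip_pos hA (ne_zero_of_mem_unit_sphere ⟨w0, hw0⟩)
  refine Metric.isCompact_of_isClosed_isBounded
    (isClosed_le (npc_cont A).sqrt continuous_const)
    ((Metric.isBounded_closedBall (x := (0 : E)) (r := R / √(ip A w0 w0))).subset fun w hw => ?_)
  have hs := Real.sqrt_pos.2 hc
  rw [mem_closedBall_zero_iff, le_div_iff₀ hs]
  refine le_trans ?_ hw
  by_cases h0 : w = 0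
  · simp [h0]
  have hn := norm_pos_iff.2 h0
  have h1 : ip A w0 w0 ≤ ip A (‖w‖⁻¹ • w) (‖w‖⁻¹ • w) :=
    hmin (by rw [mem_sphere_zero_iff_norm, norm_smul, norm_inv, norm_norm, inv_mul_cancel₀ hn.ne'])
  rw [ip_smul_left, ip_smul_right] at h1
  refine Real.le_sqrt_of_sq_le ?_
  rw [mul_pow, Real.sq_sqrt hc.le]
  calc ‖w‖ ^ 2 * ip A w0 w0 ≤ ‖w‖ ^ 2 * (‖w‖⁻¹ * (‖w‖⁻¹ * ip A w w)) := by gcongr
    _ = ip A w w := by field_simp

theorem npc_abstract {M : Type} [TopologicalSpace M] (ex : M → E → M) (A : M → Mat)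
    (hA : ∀ q, (A q).PosDef) (hcov : ∀ q, IsCoveringMap (ex q)) (h0 : ∀ q, ex q 0 = q)
    (key : ∀ q m w (c : ℝ → E), Continuous c → (∀ s : ℝ, ex m (c s) = ex q (s • w)) →
      ip (A m) (c 1 - c 0) (c 1 - c 0) ≤ ip (A q) w w)
    (rev : ∀ q w (τ : ℝ), ∃ w', (∀ r : ℝ, ex (ex q (τ • w)) (r • w') = ex q ((τ + r) • w)) ∧
      ip (A (ex q (τ • w))) w' w' = ip (A q) w w) (x : M) :
    ∃ (p : E → M) (d : E → E → ℝ), IsCoveringMap p ∧
      p 0 = x ∧ Had d ∧ ∀ f, Deck p f → ∀ y z, d (f y) (f z) = d y z := by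
  set p := ex x with hp
  have hpc : IsCoveringMap p := hcov x
  have e1 : ∀ y, ∃ Ψ : C(E, E), Ψ 0 = y ∧ p ∘ Ψ = ex (p y) := fun y =>
    (hpc.existsUnique_continuousMap_lifts ⟨ex (p y), (hcov _).continuous⟩ 0 y (h0 _).symm).exists
  have e2 : ∀ y, ∃ Φ : C(E, E), Φ y = 0 ∧ ex (p y) ∘ Φ = p := fun y =>
    ((hcov (p y)).existsUnique_continuousMap_lifts ⟨p, hpc.continuous⟩ y 0 (h0 _)).exists
  choose Ψ hΨ0 hΨ using e1
  choose Φ hΦ0 hΦ using e2
  have hΨ' : ∀ y w, p (Ψ y w) = ex (p y) w := fun y w => congrFun (hΨ y) w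
  have hΦ' : ∀ y z, ex (p y) (Φ y z) = p z := fun y z => congrFun (hΦ y) z
  have i1 : ∀ y w, Φ y (Ψ y w) = w := fun y => congrFun ((hcov (p y)).eq_of_comp_eq
    (g₁ := fun w => Φ y (Ψ y w)) (g₂ := id) (by fun_prop) continuous_id
    (funext fun w => (hΦ' _ _).trans (hΨ' _ _)) 0 (by simp only [hΨ0, hΦ0, id]))
  have i2 : ∀ y z, Ψ y (Φ y z) = z := fun y => congrFun (hpc.eq_of_comp_eq
    (g₁ := fun z => Ψ y (Φ y z)) (g₂ := id) (by fun_prop) continuous_id
    (funext fun w => (hΨ' _ _).trans (hΦ' _ _)) y (by simp only [hΨ0, hΦ0, id]))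
  have key' : ∀ m y z, ip (A (p m)) (Φ m z - Φ m y) (Φ m z - Φ m y) ≤
      ip (A (p y)) (Φ y z) (Φ y z) := fun m y z => by
    have := key (p y) (p m) (Φ y z) (fun s => Φ m (Ψ y (s • Φ y z))) (by fun_prop)
      fun s => (hΦ' _ _).trans (hΨ' _ _)
    simpa only [one_smul, zero_smul, i2, hΨ0] using this
  have rev' : ∀ y w (τ : ℝ), ∃ w', (∀ r : ℝ, Φ (Ψ y (τ • w)) (Ψ y ((τ + r) • w)) = r • w') ∧
      ip (A (p (Ψ y (τ • w)))) w' w' = ip (A (p y)) w w := fun y w τ => by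
    obtain ⟨w', h1, h2⟩ := rev (p y) w τ
    rw [← hΨ'] at h1 h2
    refine ⟨w', congrFun ((hcov (p (Ψ y (τ • w)))).eq_of_comp_eq
      (g₁ := fun r : ℝ => Φ (Ψ y (τ • w)) (Ψ y ((τ + r) • w))) (g₂ := fun r : ℝ => r • w')
      (by fun_prop) (by fun_prop) (funext fun r => ?_) 0 (by simp only [add_zero, hΦ0, zero_smul])),
      h2⟩
    exact ((hΦ' _ _).trans (hΨ' _ _)).trans (h1 r).symm
  have hsymm : ∀ y z, ip (A (p y)) (Φ y z) (Φ y z) = ip (A (p z)) (Φ z y) (Φ z y) := fun y z => by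
    obtain ⟨w', h1, h2⟩ := rev' y (Φ y z) 1
    have h3 := h1 (-1)
    rw [one_smul, i2] at h2 h3
    rw [add_neg_cancel, zero_smul, hΨ0] at h3
    rw [h3, ← h2, ip_smul_left, ip_smul_right]
    ring
  refine ⟨p, fun y z => √(ip (A (p y)) (Φ y z) (Φ y z)), hpc, h0 x,
    ⟨fun _ _ => Real.sqrt_nonneg _, fun y => by simp [hΦ0], fun y z => by rw [hsymm],
      fun y z t => ?_, fun y z h => ?_, fun y => ((npc_cont _).comp (Φ y).continuous).sqrt,
      fun y R => ?_, fun y z => ?_⟩, fun f hf y z => ?_⟩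
  · have h1 := npc_tri (hA (p y)) (Φ y z) (Φ y t - Φ y z)
    rw [add_sub_cancel] at h1
    exact h1.trans (add_le_add le_rfl (Real.sqrt_le_sqrt (key' y z t)))
  · have h1 : Φ y z = 0 := by
      by_contra h2
      exact (Real.sqrt_pos.2 (ip_pos (hA (p y)) h2)).ne' h
    rw [← i2 y z, h1, hΨ0]
  · refine ((npc_compact (hA (p y)) R).image (Ψ y).continuous).of_isClosed_subset
      (isClosed_le ((npc_cont _).comp (Φ y).continuous).sqrt continuous_const) fun z hz => ?_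
    exact ⟨Φ y z, hz, i2 y z⟩
  · obtain ⟨w', h1, h2⟩ := rev' y (Φ y z) (1 / 2)
    have h3 := h1 (-(1 / 2))
    have h4 := h1 (1 / 2)
    rw [add_neg_cancel, zero_smul, hΨ0] at h3
    rw [add_halves, one_smul, i2] at h4
    refine ⟨Ψ y ((1 / 2 : ℝ) • Φ y z), fun t => ?_⟩
    generalize Ψ y ((1 / 2 : ℝ) • Φ y z) = m at h2 h3 h4
    have h5 := key' m y t
    have h6 := key' m z t
    simp only [Real.sq_sqrt (ip_nonneg (hA _) _)]
    rw [hsymm t m, hsymm t y, hsymm t z, ← h2]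
    rw [h3] at h5
    rw [h4] at h6
    simp only [ip_sub_left, ip_sub_right, ip_smul_left, ip_smul_right] at h5 h6
    linarith
  · have h1 : Φ (f y) (f z) = Φ y z := congrFun ((hcov (p y)).eq_of_comp_eq
      (g₁ := fun z => Φ (f y) (f z)) (g₂ := Φ y) ((Φ _).continuous.comp hf.1) (Φ y).continuous
      (funext fun t => by
        have := hΦ' (f y) (f t)
        rw [hf.2, hf.2] at this
        exact this.trans (hΦ' y t).symm) y (by simp only [hΦ0])) z
    simp only [h1, hf.2]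

end Vale.Agent.P255
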