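import Vale.Agent.P255.Cover
import Vale.Agent.P255.NpcAux

/-!
The universal cover in nonpositive curvature.
-/

open scoped ContDiff Topology Matrix Manifold
open Set Filter

noncomputable section

namespace Vale.Agent.P255

variable {M : Type} [TopologicalSpace M] [ChartedSpace E M] [T2Space M] [CompactSpace M]
  [IsManifold (modelWithCornersSelf ℝ E) ∞ M] {g : RMetric M}
  {e e' : OpenPartialHomeomorph M E} {x : M}

theorem npc_expInj (h : Nonpos g) (he : e ∈ atlas E M) (hx : x ∈ e.source) : ExpInj g e x :=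
  fun v w e' he' hv h0 => by
    have h1 := h.expand he hx v w he' hv
    rw [h0, ip_zero_left] at h1
    by_contra h2
    exact (ip_pos (g.pos e he _ (e.map_source hx)) h2).not_ge h1

theorem npc_ex (g : RMetric M) (he : e ∈ atlas E M) (hx : x ∈ e.source) (w : E) (s : ℝ) :
    expm g e x (s • w) = geo g e x w s := by
  rw [expm, geo_smul g he hx, mul_one]

theorem npc_energy (g : RMetric M) (he : e ∈ atlas E M) (hx : x ∈ e.source) (w : E) (s : ℝ)
    (he' : e' ∈ atlas E M) (hs : geo g e x w s ∈ e'.source) :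
    ip (g.g e' (e' (geo g e x w s))) (deriv (e' ∘ geo g e x w) s) (deriv (e' ∘ geo g e x w) s) =
      ip (g.g e (e x)) w w := by
  obtain ⟨h1, h2, h3⟩ := geo_spec g he hx w
  have h4 := geod_energy isOpen_univ isPreconnected_univ (fun s _ => isGeodesic_iff.1 h1 s)
    (mem_univ s) (mem_univ 0) he' he hs (h2.symm ▸ hx)
  rwa [h2, h3] at h4

theorem npc_key (h : Nonpos g) {m : M} (he : e ∈ atlas E M) (hx : x ∈ e.source)
    (he' : e' ∈ atlas E M) (hm : m ∈ e'.source) (w : E) (c : ℝ → E) (hc : Continuous c)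
    (hl : ∀ s : ℝ, expm g e' m (c s) = expm g e x (s • w)) :
    ip (g.g e' (e' m)) (c 1 - c 0) (c 1 - c 0) ≤ ip (g.g e (e x)) w w := by
  have hA := g.pos e' he' _ (e'.map_source hm)
  simp only [npc_ex g he hx] at hl
  have hd : ∀ s, ∃ u', HasDerivAt c u' s ∧ ip (g.g e' (e' m)) u' u' ≤ ip (g.g e (e x)) w w :=
    fun s => by
      have h1 := chart_mem_atlas E (geo g e x w s)
      have h2 := mem_chart_source E (geo g e x w s)
      have h3 := ((geo_spec g he hx w).1.2 _ h1 s h2).1.hasDerivAt
      have h2' : expm g e' m (c s) ∈ (chartAt E (geo g e x w s)).source := by rwa [hl]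
      obtain ⟨u', h4, h5⟩ := lift_deriv he' hm (npc_expInj h he' hm) hc.continuousAt h1 h2'
        (c' := deriv (chartAt E (geo g e x w s) ∘ geo g e x w) s) (by simp only [hl]; exact h3)
      have h6 := h.expand he' hm (c s) u' h1 h2'
      rw [h5, hl, npc_energy g he hx w s h1 h2] at h6
      exact ⟨u', h4, h6⟩
  choose u' hu hu' using hd
  generalize hδ : c 1 - c 0 = δ
  let L : E →L[ℝ] ℝ := LinearMap.toContinuousLinearMap
    { toFun := fun v => ip (g.g e' (e' m)) v δ
      map_add' := fun a b => ip_add_left _ a b δ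
      map_smul' := fun a b => ip_smul_left _ a b δ }
  have hL : ∀ s, HasDerivAt (fun s => L (c s)) (L (u' s)) s := fun s =>
    L.hasFDerivAt.comp_hasDerivAt s (hu s)
  obtain ⟨s, -, hs⟩ := exists_hasDerivAt_eq_slope (fun s => L (c s)) (fun s => L (u' s)) one_pos
    (L.continuous.comp hc).continuousOn fun s _ => hL s
  rw [← map_sub, hδ, sub_zero, div_one] at hs
  change ip (g.g e' (e' m)) (u' s) δ = ip (g.g e' (e' m)) δ δ at hs
  have h1 := ip_sq_le hA (u' s) δ
  have h2 := ip_nonneg hA δ
  have h3 := ip_nonneg hA (u' s)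
  have h4 := hu' s
  rw [hs] at h1
  nlinarith

theorem npc_rev (g : RMetric M) (he : e ∈ atlas E M) (hx : x ∈ e.source) (w : E) (τ : ℝ)
    (he' : e' ∈ atlas E M) (hm : expm g e x (τ • w) ∈ e'.source) :
    ∃ w', (∀ r : ℝ, expm g e' (expm g e x (τ • w)) (r • w') = expm g e x ((τ + r) • w)) ∧
      ip (g.g e' (e' (expm g e x (τ • w)))) w' w' = ip (g.g e (e x)) w w := by
  refine ⟨deriv (e' ∘ geo g e x w) τ, fun r => ?_, ?_⟩
  · rw [npc_ex g he' hm]
    rw [npc_ex g he hx] at hm
    rw [npc_ex g he hx, npc_ex g he hx]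
    obtain ⟨h1, h2⟩ := (geo_spec g he hx w).1.affine 1 τ
    have h3 : geo g e x w (1 * 0 + τ) ∈ e'.source := by rwa [mul_zero, zero_add]
    have h4 := geo_eq he' h1 h3
    rw [h2 e' he' 0 h3] at h4
    simp only [mul_zero, zero_add, one_smul, one_mul] at h4
    rw [h4, add_comm]
  · rw [npc_ex g he hx] at hm ⊢
    exact npc_energy g he hx w τ he' hm

theorem npc_cover (h : Nonpos g) (x : M) : ∃ (p : E → M) (d : E → E → ℝ), IsCoveringMap p ∧
    p 0 = x ∧ Had d ∧ ∀ f, Deck p f → ∀ y z, d (f y) (f z) = d y z :=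
  npc_abstract (fun q => expm g (chartAt E q) q) (fun q => g.g (chartAt E q) (chartAt E q q))
    (fun q => g.pos _ (chart_mem_atlas E q) _ (mem_chart_target E q))
    (fun q => expm_cover (chart_mem_atlas E q) (mem_chart_source E q)
      (npc_expInj h (chart_mem_atlas E q) (mem_chart_source E q)))
    (fun q => by
      have h1 := npc_ex g (chart_mem_atlas E q) (mem_chart_source E q) 0 0
      rw [smul_zero] at h1
      exact h1.trans (geo_spec g (chart_mem_atlas E q) (mem_chart_source E q) 0).2.1)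
    (fun q m w c hc hl => npc_key h (chart_mem_atlas E q) (mem_chart_source E q)
      (chart_mem_atlas E m) (mem_chart_source E m) w c hc hl)
    (fun q w τ => npc_rev g (chart_mem_atlas E q) (mem_chart_source E q) w τ
      (chart_mem_atlas E _) (mem_chart_source E _)) x

end Vale.Agent.P255
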