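import Vale.Agent.P255.Gmc

/-!
The convex warping functions.
-/

open scoped ContDiff Topology
open Set Filter

noncomputable section

namespace Vale.Agent.P255

/-- The slope of the warping function. -/
def pfE (K x : ℝ) : ℝ := expNegInvGlue x / 2000 * (1 - Real.smoothTransition (2 * x - 5)) +
  Real.smoothTransition (2 * x - 5) * K

/-- The warping function. -/
def pfP (K x : ℝ) : ℝ := 1 + ∫ r in (0 : ℝ)..x, pfE K r

/-- The inverse square of the warping function. -/
def pfW (K x : ℝ) : ℝ := 1 / pfP K x ^ 2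

theorem pf_e_le (x : ℝ) : expNegInvGlue x ≤ 1 := by
  unfold expNegInvGlue
  split_ifs with h
  · norm_num
  · exact Real.exp_le_one_iff.2 (neg_nonpos.2 (inv_nonneg.2 (le_of_not_ge h)))

theorem pf_chi : ContDiff ℝ ∞ fun x : ℝ => Real.smoothTransition (2 * x - 5) :=
  Real.smoothTransition.contDiff.comp ((contDiff_const.mul contDiff_id).sub contDiff_const)

theorem pfE_smooth (K : ℝ) : ContDiff ℝ ∞ (pfE K) :=
  ((expNegInvGlue.contDiff.div_const _).mul (contDiff_const.sub pf_chi)).add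
    (pf_chi.mul contDiff_const)

theorem pfE_low (K : ℝ) {x : ℝ} (hx : x ≤ 5 / 2) : pfE K x = expNegInvGlue x / 2000 := by
  simp [pfE, Real.smoothTransition.zero_of_nonpos (show 2 * x - 5 ≤ 0 by linarith)]

theorem pfE_zero (K : ℝ) {x : ℝ} (hx : x ≤ 0) : pfE K x = 0 := by
  rw [pfE_low K (by linarith), expNegInvGlue.zero_of_nonpos hx, zero_div]

theorem pfE_high (K : ℝ) {x : ℝ} (hx : 3 ≤ x) : pfE K x = K := by
  simp [pfE, Real.smoothTransition.one_of_one_le (show 1 ≤ 2 * x - 5 by linarith)]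

theorem pfE_mono {K : ℝ} (hK : 1 ≤ K) : Monotone (pfE K) := fun x y hxy => by
  have h1 := expNegInvGlue.monotone hxy
  have h2 := Real.smoothTransition.monotone (show 2 * x - 5 ≤ 2 * y - 5 by linarith)
  have h3 := pf_e_le x
  have h4 := Real.smoothTransition.le_one (2 * y - 5)
  have h5 := mul_nonneg (sub_nonneg.2 h1) (sub_nonneg.2 h4)
  have h6 := mul_nonneg (sub_nonneg.2 h2) (show 0 ≤ K - expNegInvGlue x / 2000 by linarith)
  simp only [pfE]
  linarith

theorem pfE_pos {K : ℝ} (hK : 1 ≤ K) {x : ℝ} (hx : 0 < x) : 0 < pfE K x := by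
  have h := pfE_mono hK (min_le_left x 1)
  rw [pfE_low K ((min_le_right x 1).trans (by norm_num))] at h
  have := expNegInvGlue.pos_of_pos (lt_min hx one_pos)
  linarith

theorem pfE_nonneg {K : ℝ} (hK : 1 ≤ K) (x : ℝ) : 0 ≤ pfE K x := by
  rcases le_or_gt x 0 with h | h
  · exact (pfE_zero K h).ge
  · exact (pfE_pos hK h).le

theorem pfE_deriv (K : ℝ) {x : ℝ} (hx : x ≤ 2) : pfE K x / 4 ≤ deriv (pfE K) x := by
  have h1 : pfE K =ᶠ[𝓝 x] fun x => expNegInvGlue x / 2000 :=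
    (eventually_le_nhds (show x < 5 / 2 by linarith)).mono fun y hy => pfE_low K hy
  have h2 := expNegInvGlue.hasDerivAt_polynomial_eval_inv_mul 1 x
  simp only [Polynomial.eval_one, one_mul, Polynomial.derivative_one, sub_zero, mul_one,
    Polynomial.eval_pow, Polynomial.eval_X] at h2
  rw [h1.deriv_eq, (h2.div_const 2000).deriv, h1.eq_of_nhds]
  rcases le_or_gt x 0 with h | h
  · simp [expNegInvGlue.zero_of_nonpos h]
  · have h3 : 1 / 2 ≤ x⁻¹ := by rw [one_div]; exact inv_anti₀ h hx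
    have h4 : 1 / 4 ≤ x⁻¹ ^ 2 := by nlinarith
    have := mul_le_mul_of_nonneg_right h4 (expNegInvGlue.nonneg x)
    linarith

theorem pfP_has (K x : ℝ) : HasDerivAt (pfP K) (pfE K x) x :=
  ((pfE_smooth K).continuous.deriv_integral (pfE K) 0 x ▸
    ((pfE_smooth K).continuous.integral_hasStrictDerivAt 0 x).hasDerivAt.differentiableAt.hasDerivAt
      ).const_add 1

theorem pfP_smooth (K : ℝ) : ContDiff ℝ ∞ (pfP K) := by
  refine contDiff_infty_iff_deriv.2 ⟨fun x => (pfP_has K x).differentiableAt, ?_⟩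
  rw [show deriv (pfP K) = pfE K from funext fun x => (pfP_has K x).deriv]
  exact pfE_smooth K

theorem pfP_one (K : ℝ) {x : ℝ} (hx : x ≤ 0) : pfP K x = 1 := by
  rw [pfP, intervalIntegral.integral_congr (g := fun _ => 0) fun r hr => pfE_zero K ?_]
  · simp
  · rw [uIcc_of_ge hx] at hr; exact hr.2

theorem pfP_ge {K : ℝ} (hK : 1 ≤ K) (x : ℝ) : 1 ≤ pfP K x := by
  rcases le_or_gt x 0 with h | h
  · exact (pfP_one K h).ge
  · have := intervalIntegral.integral_nonneg (μ := MeasureTheory.volume) h.le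
      fun r _ => pfE_nonneg hK r
    simp only [pfP]; linarith

theorem pfP_low (K : ℝ) {x : ℝ} (hx : x ≤ 5 / 2) : pfP K x = pfP 1 x := by
  simp only [pfP]
  rw [intervalIntegral.integral_congr (g := pfE 1) fun r hr => ?_]
  have : r ≤ 5 / 2 := by
    rcases mem_uIcc.1 hr with h | h <;> linarith [h.2]
  rw [pfE_low K this, pfE_low 1 this]

theorem pfP_le (K : ℝ) {x : ℝ} (h0 : 0 ≤ x) (hx : x ≤ 2) : pfP K x ≤ 1 + 1 / 1000 := by
  have := intervalIntegral.integral_mono_on (μ := MeasureTheory.volume) h0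
    ((pfE_smooth K).continuous.intervalIntegrable 0 x)
    (continuous_const (y := (1 / 2000 : ℝ)).intervalIntegrable 0 x) fun r hr => by
      rw [pfE_low K (by linarith [hr.2])]; linarith [pf_e_le r]
  simp only [intervalIntegral.integral_const, smul_eq_mul] at this
  simp only [pfP]; linarith

theorem pfP_high (K : ℝ) {x : ℝ} (hx : 3 ≤ x) : pfP K x = pfP K 3 + K * (x - 3) := by
  have h1 := intervalIntegral.integral_add_adjacent_intervals (μ := MeasureTheory.volume)
    ((pfE_smooth K).continuous.intervalIntegrable 0 3)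
    ((pfE_smooth K).continuous.intervalIntegrable 3 x)
  rw [intervalIntegral.integral_congr (f := pfE K) (a := 3) (g := fun _ => K)
    fun r hr => pfE_high K (by rw [uIcc_of_le hx] at hr; exact hr.1)] at h1
  simp only [intervalIntegral.integral_const, smul_eq_mul] at h1
  simp only [pfP]; linarith

variable {K : ℝ}

theorem pfW_smooth (hK : 1 ≤ K) : ContDiff ℝ ∞ (pfW K) :=
  contDiff_const.div ((pfP_smooth K).pow 2) fun x => by have := pfP_ge hK x; positivity

theorem pfW_pos (hK : 1 ≤ K) (x : ℝ) : 0 < pfW K x := by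
  have := pfP_ge hK x; simp only [pfW]; positivity

theorem pfW_d1 (hK : 1 ≤ K) : deriv (pfW K) = fun x => -2 * pfE K x / pfP K x ^ 3 := by
  funext x
  have h : pfP K x ≠ 0 := by have := pfP_ge hK x; positivity
  have := ((hasDerivAt_const x (1 : ℝ)).fun_div ((pfP_has K x).fun_pow 2) (pow_ne_zero 2 h)).deriv
  rw [show pfW K = fun x => 1 / pfP K x ^ 2 from rfl, this]
  field_simp
  ring

theorem pfW_d2 (hK : 1 ≤ K) (x : ℝ) : deriv (deriv (pfW K)) x =
    -2 * deriv (pfE K) x / pfP K x ^ 3 + 6 * pfE K x ^ 2 / pfP K x ^ 4 := by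
  have h : pfP K x ≠ 0 := by have := pfP_ge hK x; positivity
  rw [pfW_d1 hK, (((sm_has (pfE_smooth K) x).const_mul (-2)).fun_div ((pfP_has K x).fun_pow 3)
    (pow_ne_zero 3 h)).deriv]
  field_simp
  ring

theorem pfW_d1_nonpos (hK : 1 ≤ K) (x : ℝ) : deriv (pfW K) x ≤ 0 := by
  have h1 := pfP_ge hK x
  have h2 := pfE_nonneg hK x
  rw [pfW_d1 hK]
  exact div_nonpos_of_nonpos_of_nonneg (by linarith) (by positivity)

theorem pfW_d1_neg (hK : 1 ≤ K) {x : ℝ} (hx : 0 < x) : deriv (pfW K) x < 0 := by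
  have h1 := pfP_ge hK x
  have h2 := pfE_pos hK hx
  rw [pfW_d1 hK]
  exact div_neg_of_neg_of_pos (by linarith) (by positivity)

theorem pfW_d1_zero (hK : 1 ≤ K) {x : ℝ} (hx : x ≤ 0) : deriv (pfW K) x = 0 := by
  simp [pfW_d1 hK, pfE_zero K hx]

theorem pfW_d2_zero (hK : 1 ≤ K) {x : ℝ} (hx : x < 0) : deriv (deriv (pfW K)) x = 0 := by
  have : deriv (pfW K) =ᶠ[𝓝 x] fun _ => 0 :=
    (eventually_le_nhds hx).mono fun y hy => pfW_d1_zero hK hy
  rw [this.deriv_eq, deriv_const]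

theorem pfW_conv (hK : 1 ≤ K) (x : ℝ) :
    2 * pfW K x * deriv (deriv (pfW K)) x ≤ 3 * deriv (pfW K) x ^ 2 := by
  have h1 := pfP_ge hK x
  have h2 : 0 ≤ deriv (pfE K) x := (pfE_mono hK).deriv_nonneg
  have h3 : 0 ≤ 4 * deriv (pfE K) x / pfP K x ^ 5 := by positivity
  have h4 : 3 * deriv (pfW K) x ^ 2 - 2 * pfW K x * deriv (deriv (pfW K)) x =
      4 * deriv (pfE K) x / pfP K x ^ 5 := by
    rw [pfW_d2 hK, pfW_d1 hK, pfW]
    field_simp
    ring
  linarith

theorem pfW_neck (hK : 1 ≤ K) {x : ℝ} (h0 : 0 ≤ x) (hx : x ≤ 2) : 1 / 2 ≤ pfW K x ∧ pfW K x ≤ 1 ∧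
    -(1 / 1000) ≤ deriv (pfW K) x ∧ deriv (deriv (pfW K)) x ≤ deriv (pfW K) x / 8 := by
  have h1 := pfP_ge hK x
  have h2 := pfP_le K h0 hx
  have h3 := pfE_nonneg hK x
  have h4 : pfE K x ≤ 1 / 2000 := by rw [pfE_low K (by linarith)]; linarith [pf_e_le x]
  have h5 := pfE_deriv K hx
  refine ⟨?_, ?_, ?_, ?_⟩
  · exact one_div_le_one_div_of_le (by positivity) (by nlinarith)
  · exact (div_le_one (by positivity)).2 (by nlinarith)
  · rw [pfW_d1 hK, le_div_iff₀ (by positivity)]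
    linarith [one_le_pow₀ (n := 3) h1]
  · rw [pfW_d2 hK, pfW_d1 hK, ← sub_nonneg]
    have : -2 * pfE K x / pfP K x ^ 3 / 8 - (-2 * deriv (pfE K) x / pfP K x ^ 3 +
        6 * pfE K x ^ 2 / pfP K x ^ 4) = ((2 * deriv (pfE K) x - pfE K x / 4) * pfP K x -
          6 * pfE K x ^ 2) / pfP K x ^ 4 := by
      field_simp
      ring
    rw [this]
    refine div_nonneg ?_ (by positivity)
    nlinarith [mul_le_mul_of_nonneg_left h1 (show 0 ≤ 2 * deriv (pfE K) x - pfE K x / 4 by linarith)]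

theorem pfW_low (hK : 1 ≤ K) {x : ℝ} (hx : x ≤ 2) : deriv (pfW K) x = deriv (pfW 1) x := by
  rw [pfW_d1 hK, pfW_d1 le_rfl]
  simp only [pfP_low K (show x ≤ 5 / 2 by linarith), pfE_low _ (show x ≤ 5 / 2 by linarith)]

end Vale.Agent.P255
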