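import Vale.Agent.P255.Neck
import Vale.Agent.P255.ProfA

/-!
Construction of the profile functions.
-/

open scoped ContDiff Topology Matrix Manifold
open Set Filter

noncomputable section

namespace Vale.Agent.P255

section Der

variable {a b σ : ℝ → ℝ} (ha : ContDiff ℝ ∞ a) (hb : ContDiff ℝ ∞ b) (hσ : ContDiff ℝ ∞ σ)
  (p q : ℝ)
include ha hσ

theorem pf_u1 (t : ℝ) : deriv (u1 a σ p q) t = deriv a t * (p + σ t * q) + a t * (deriv σ t * q) :=
  ((sm_has ha t).fun_mul (((sm_has hσ t).mul_const q).const_add p)).deriv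

include hb

theorem pf_sV : ContDiff ℝ ∞ (VV a b σ p q) :=
  (ha.mul ((contDiff_const.add (hσ.mul contDiff_const)).pow 2)).add (hb.mul contDiff_const)

theorem pf_u2 (t : ℝ) : deriv (u2 a b σ p q) t = deriv a t * σ t * (p + σ t * q) +
    a t * deriv σ t * (p + σ t * q) + a t * σ t * deriv σ t * q + deriv b t * q := by
  have := ((((sm_has ha t).fun_mul (sm_has hσ t)).fun_mul
    (((sm_has hσ t).mul_const q).const_add p)).fun_add ((sm_has hb t).mul_const q)).deriv
  rw [show u2 a b σ p q = fun t => a t * σ t * (p + σ t * q) + b t * q from rfl, this]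
  ring

theorem pf_V1 : deriv (VV a b σ p q) = fun t => deriv a t * (p + σ t * q) ^ 2 +
    2 * a t * (p + σ t * q) * deriv σ t * q + deriv b t * q ^ 2 := by
  funext t
  have := (((sm_has ha t).fun_mul ((((sm_has hσ t).mul_const q).const_add p).fun_pow 2)).fun_add
    ((sm_has hb t).mul_const (q ^ 2))).deriv
  rw [show VV a b σ p q = fun t => a t * (p + σ t * q) ^ 2 + b t * q ^ 2 from rfl, this]
  simp only [Nat.cast_ofNat, Nat.add_one_sub_one]
  ring

theorem pf_V2 (t : ℝ) : deriv (deriv (VV a b σ p q)) t = deriv (deriv a) t * (p + σ t * q) ^ 2 +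
    4 * deriv a t * (p + σ t * q) * deriv σ t * q + 2 * a t * deriv σ t ^ 2 * q ^ 2 +
    2 * a t * (p + σ t * q) * deriv (deriv σ) t * q + deriv (deriv b) t * q ^ 2 := by
  have hZ := ((sm_has hσ t).mul_const q).const_add p
  have := ((((sm_has (sm_deriv ha) t).fun_mul (hZ.fun_pow 2)).fun_add
    ((((((sm_has ha t).const_mul 2).fun_mul hZ).fun_mul (sm_has (sm_deriv hσ) t)).mul_const q))).fun_add
    ((sm_has (sm_deriv hb) t).mul_const (q ^ 2))).deriv
  rw [pf_V1 ha hb hσ, this]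
  simp only [Nat.cast_ofNat, Nat.add_one_sub_one]
  ring

end Der

theorem pf_top {V : ℝ → ℝ} (hV : ContDiff ℝ ∞ V) (hl : ∀ t ≤ -1, 0 ≤ deriv V t)
    (hr : ∀ t ≥ 1, deriv V t ≤ 0) (hn : ∀ t ∈ Icc (-1 : ℝ) 1, deriv (deriv V) t ≤ 0) {t0 : ℝ}
    (h0 : t0 ∈ Icc (-1 : ℝ) 1) (hz : deriv V t0 = 0) (t : ℝ) : V t ≤ V t0 := by
  have d1 := (contDiff_infty_iff_deriv.1 hV).1
  have d2 := (contDiff_infty_iff_deriv.1 (sm_deriv hV)).1
  have hA : AntitoneOn (deriv V) (Icc (-1) 1) := antitoneOn_of_deriv_nonpos (convex_Icc _ _)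
    d2.continuous.continuousOn d2.differentiableOn fun x hx => hn x (interior_subset hx)
  rcases le_total t t0 with h | h
  · refine monotoneOn_of_deriv_nonneg (convex_Iic t0) d1.continuous.continuousOn
      d1.differentiableOn (fun x hx => ?_) h self_mem_Iic h
    have hx : x ≤ t0 := mem_Iic.1 (interior_subset hx)
    rcases le_total x (-1) with h1 | h1
    · exact hl x h1
    · exact hz.symm.trans_le (hA ⟨h1, hx.trans h0.2⟩ h0 hx)
  · refine antitoneOn_of_deriv_nonpos (convex_Ici t0) d1.continuous.continuousOn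
      d1.differentiableOn (fun x hx => ?_) self_mem_Ici h h
    have hx : t0 ≤ x := mem_Ici.1 (interior_subset hx)
    rcases le_total x 1 with h1 | h1
    · exact (hA h0 ⟨h0.1.trans hx, h1⟩ hx).trans_eq hz
    · exact hr x h1

theorem pf_comp {f : ℝ → ℝ} (hf : ContDiff ℝ ∞ f) (k c d : ℝ) :
    deriv (fun t => k * f (c + d * t)) = fun t => k * d * deriv f (c + d * t) := by
  funext t
  have := ((sm_has hf (c + d * t)).comp t (((hasDerivAt_id t).const_mul d).const_add c)).const_mul k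
  rw [show (fun t => k * f (c + d * t)) = fun y => k * (f ∘ fun x => c + d * id x) y from rfl,
    this.deriv]
  ring

theorem pf_bound {f g : ℝ → ℝ} (hf : Continuous f) (hg : Continuous g) {x y : ℝ}
    (h : ∀ t ∈ Icc x y, 0 < g t) : ∃ C, 0 ≤ C ∧ ∀ t ∈ Icc x y, f t ≤ C * g t := by
  obtain ⟨C, hC⟩ := isCompact_Icc.exists_bound_of_continuousOn (f := fun t => f t / g t)
    (hf.continuousOn.div hg.continuousOn fun t ht => (h t ht).ne')
  refine ⟨|C|, abs_nonneg _, fun t ht => ?_⟩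
  rw [← div_le_iff₀ (h t ht)]
  exact (le_abs_self _).trans ((hC t ht).trans (le_abs_self _))

/-- The shear function. -/
def pfS (t : ℝ) : ℝ := Real.smoothTransition (t + 1 / 2)

theorem pfS_smooth : ContDiff ℝ ∞ pfS :=
  Real.smoothTransition.contDiff.comp (contDiff_id.add contDiff_const)

theorem pfS_out {t : ℝ} (ht : t < -(1 / 2) ∨ 1 / 2 < t) :
    deriv pfS t = 0 ∧ deriv (deriv pfS) t = 0 := by
  obtain ⟨c, hc⟩ : ∃ c, pfS =ᶠ[𝓝 t] fun _ => c := by
    rcases ht with ht | ht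
    · exact ⟨0, (eventually_le_nhds ht).mono fun r hr =>
        Real.smoothTransition.zero_of_nonpos (by linarith)⟩
    · exact ⟨1, (eventually_ge_nhds ht).mono fun r hr =>
        Real.smoothTransition.one_of_one_le (by linarith)⟩
  exact ⟨by rw [hc.deriv_eq, deriv_const], by rw [hc.deriv.deriv_eq]; simp⟩

theorem pf_K : ∃ K : ℝ, 1 ≤ K ∧ ∀ t ∈ Icc (-1 : ℝ) 1,
    (deriv pfS t / K) ^ 2 ≤ -deriv (pfW 1) (1 + t) * -deriv (pfW 1) (1 - t) / 10000 ∧
    (deriv (deriv pfS) t / K) ^ 2 ≤ -deriv (pfW 1) (1 + t) * -deriv (pfW 1) (1 - t) / 10000 ∧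
    (pfS t / K) ^ 2 * -deriv (pfW 1) (1 - t) ≤ -deriv (pfW 1) (1 + t) / 10000 := by
  have cW := (sm_deriv (pfW_smooth le_rfl)).continuous
  have cα : Continuous fun t : ℝ => -deriv (pfW 1) (1 + t) := by fun_prop
  have cβ : Continuous fun t : ℝ => -deriv (pfW 1) (1 - t) := by fun_prop
  have pα : ∀ t : ℝ, -(1 / 2) ≤ t → 0 < -deriv (pfW 1) (1 + t) := fun t ht =>
    neg_pos.2 (pfW_d1_neg le_rfl (by linarith))
  have pβ : ∀ t : ℝ, t ≤ 1 / 2 → 0 < -deriv (pfW 1) (1 - t) := fun t ht =>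
    neg_pos.2 (pfW_d1_neg le_rfl (by linarith))
  have nn : ∀ x : ℝ, 0 ≤ -deriv (pfW 1) x := fun x => neg_nonneg.2 (pfW_d1_nonpos le_rfl x)
  obtain ⟨C1, p1, h1⟩ := pf_bound ((sm_deriv pfS_smooth).continuous.pow 2) (cα.mul cβ)
    (x := -(1 / 2)) (y := 1 / 2) fun t ht => mul_pos (pα t ht.1) (pβ t ht.2)
  obtain ⟨C2, p2, h2⟩ := pf_bound ((sm_deriv (sm_deriv pfS_smooth)).continuous.pow 2) (cα.mul cβ)
    (x := -(1 / 2)) (y := 1 / 2) fun t ht => mul_pos (pα t ht.1) (pβ t ht.2)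
  obtain ⟨C3, p3, h3⟩ := pf_bound ((pfS_smooth.continuous.pow 2).mul cβ) cα
    (x := -(1 / 2)) (y := 1) fun t ht => pα t ht.1
  obtain ⟨K, hK⟩ : ∃ K, K = 1 + 10000 * (C1 + C2 + C3) := ⟨_, rfl⟩
  have k1 : 1 ≤ K := by linarith
  have k2 : K ≤ K ^ 2 := by nlinarith
  have key : ∀ x C y : ℝ, 0 ≤ y → 10000 * C ≤ K → x ≤ C * y → x / K ^ 2 ≤ y / 10000 := by
    intro x C y hy hC h
    rw [div_le_div_iff₀ (by positivity) (by norm_num)]
    nlinarith [mul_le_mul_of_nonneg_left (hC.trans k2) hy]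
  refine ⟨K, k1, fun t ht => ?_⟩
  have n1 := mul_nonneg (nn (1 + t)) (nn (1 - t))
  refine ⟨?_, ?_, ?_⟩
  · by_cases h : t < -(1 / 2) ∨ 1 / 2 < t
    · rw [(pfS_out h).1]; simp only [zero_div, zero_pow two_ne_zero]; positivity
    · push Not at h
      rw [div_pow]; exact key _ C1 _ n1 (by linarith) (h1 t h)
  · by_cases h : t < -(1 / 2) ∨ 1 / 2 < t
    · rw [(pfS_out h).2]; simp only [zero_div, zero_pow two_ne_zero]; positivity
    · push Not at h
      rw [div_pow]; exact key _ C2 _ n1 (by linarith) (h2 t h)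
  · rcases le_total t (-(1 / 2)) with h | h
    · rw [pfS, Real.smoothTransition.zero_of_nonpos (by linarith)]
      have := nn (1 + t)
      simp only [zero_div, zero_pow two_ne_zero, zero_mul]; positivity
    · rw [div_pow, div_mul_eq_mul_div]
      exact key _ C3 _ (nn _) (by linarith) (h3 t ⟨h, ht.2⟩)

theorem exists_prof : Nonempty Prof := by
  obtain ⟨K, hK, hk⟩ := pf_K
  have K0 : 0 < K := by linarith
  have sW1 := pfW_smooth (K := 1) le_rfl
  have sW := pfW_smooth hK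
  obtain ⟨a, ha⟩ : ∃ a : ℝ → ℝ, a = fun t => 1 * pfW 1 (1 + 1 * t) := ⟨_, rfl⟩
  obtain ⟨b, hb⟩ : ∃ b : ℝ → ℝ, b = fun t => K ^ 2 * pfW K (1 + -1 * t) := ⟨_, rfl⟩
  have sa : ContDiff ℝ ∞ a := by rw [ha]; fun_prop
  have sb : ContDiff ℝ ∞ b := by rw [hb]; fun_prop
  have a0 : ∀ t, a t = pfW 1 (1 + t) := fun t => by simp [ha]
  have b0 : ∀ t, b t = K ^ 2 * pfW K (1 - t) := fun t => by simp [hb, sub_eq_add_neg]
  have a1 : ∀ t, deriv a t = deriv (pfW 1) (1 + t) := fun t => by rw [ha, pf_comp sW1]; simp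
  have b1 : ∀ t, deriv b t = K ^ 2 * -deriv (pfW K) (1 - t) := fun t => by
    rw [hb, pf_comp sW]; simp [sub_eq_add_neg]
  have a2 : ∀ t, deriv (deriv a) t = deriv (deriv (pfW 1)) (1 + t) := fun t => by
    rw [ha, pf_comp sW1, pf_comp (sm_deriv sW1)]; simp
  have b2 : ∀ t, deriv (deriv b) t = K ^ 2 * deriv (deriv (pfW K)) (1 - t) := fun t => by
    rw [hb, pf_comp sW, pf_comp (sm_deriv sW)]; simp [sub_eq_add_neg]
  have apos : ∀ t, 0 < a t := fun t => by rw [a0]; exact pfW_pos le_rfl _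
  have bpos : ∀ t, 0 < b t := fun t => by rw [b0]; have := pfW_pos hK (1 - t); positivity
  have left : ∀ t ≤ -1, a t = 1 ∧ pfS t = 0 := fun t ht =>
    ⟨by rw [a0, pfW, pfP_one 1 (by linarith)]; norm_num,
      Real.smoothTransition.zero_of_nonpos (by linarith)⟩
  have right : ∀ t ≥ 1, b t = K ^ 2 ∧ pfS t = 1 := fun t ht =>
    ⟨by rw [b0, pfW, pfP_one K (by linarith)]; norm_num,
      Real.smoothTransition.one_of_one_le (by linarith)⟩
  have P1 : ∀ t, 0 ≤ deriv b t ∧ 2 * b t * deriv (deriv b) t ≤ 3 * deriv b t ^ 2 := fun t => by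
    have h1 := pfW_d1_nonpos hK (1 - t)
    have h2 := mul_le_mul_of_nonneg_left (pfW_conv hK (1 - t)) (show 0 ≤ K ^ 4 by positivity)
    rw [b0, b1, b2]
    exact ⟨mul_nonneg (sq_nonneg K) (by linarith), by linarith⟩
  have P2 : ∀ t, deriv a t ≤ 0 ∧ 2 * a t * deriv (deriv a) t ≤ 3 * deriv a t ^ 2 := fun t => by
    rw [a0, a1, a2]
    exact ⟨pfW_d1_nonpos le_rfl _, pfW_conv le_rfl _⟩
  have al : ∀ t ≤ -1, deriv a t = 0 := fun t ht => by rw [a1, pfW_d1_zero le_rfl (by linarith)]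
  have br : ∀ t ≥ 1, deriv b t = 0 := fun t ht => by rw [b1, pfW_d1_zero hK (by linarith)]; simp
  have sl : ∀ t ≤ -1, deriv pfS t = 0 ∧ deriv (deriv pfS) t = 0 := fun t ht =>
    pfS_out (Or.inl (by linarith))
  have sr : ∀ t ≥ 1, deriv pfS t = 0 ∧ deriv (deriv pfS) t = 0 := fun t ht =>
    pfS_out (Or.inr (by linarith))
  have Vl : ∀ p q, ∀ t ≤ -1, deriv (VV a b pfS p q) t = deriv b t * q ^ 2 := fun p q t ht => by
    simp [pf_V1 sa sb pfS_smooth, al t ht, (sl t ht).1]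
  have Vr : ∀ p q, ∀ t ≥ 1, deriv (VV a b pfS p q) t = deriv a t * (p + q) ^ 2 :=
    fun p q t ht => by simp [pf_V1 sa sb pfS_smooth, br t ht, (sr t ht).1, (right t ht).2]
  have Vl2 : ∀ p q, ∀ t < -1, deriv (deriv (VV a b pfS p q)) t = deriv (deriv b) t * q ^ 2 :=
    fun p q t ht => by
      simp [pf_V2 sa sb pfS_smooth, a2, pfW_d2_zero le_rfl (show 1 + t < 0 by linarith),
        (sl t ht.le).1, (sl t ht.le).2]
  have Vr2 : ∀ p q, ∀ t > 1, deriv (deriv (VV a b pfS p q)) t = deriv (deriv a) t * (p + q) ^ 2 :=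
    fun p q t ht => by
      simp [pf_V2 sa sb pfS_smooth, b2, pfW_d2_zero hK (show 1 - t < 0 by linarith),
        (sr t ht.le).1, (sr t ht.le).2, (right t ht.le).2]
  have neck : ∀ p q, ∀ t ∈ Icc (-1 : ℝ) 1, _ := fun p q t ht => by
    obtain ⟨n1, n2, n3, n4⟩ := pfW_neck (K := 1) le_rfl (x := 1 + t) (by linarith [ht.1])
      (by linarith [ht.2])
    obtain ⟨m1, m2, m3, m4⟩ := pfW_neck hK (x := 1 - t) (by linarith [ht.2]) (by linarith [ht.1])
    obtain ⟨k1, k2, k3⟩ := hk t ht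
    rw [← pfW_low hK (show 1 - t ≤ 2 by linarith [ht.1])] at k1 k2 k3
    have s1 : (pfS t / K) ^ 2 ≤ 1 := by
      rw [div_pow, div_le_one (by positivity)]
      exact pow_le_pow_left₀ (Real.smoothTransition.nonneg _)
        ((Real.smoothTransition.le_one _).trans hK) 2
    exact neck_alg (Z := p + pfS t * q) (Y := K * q) (c2 := deriv (deriv (pfW K)) (1 - t)) (V1 := deriv (VV a b pfS p q) t)
      (V2 := deriv (deriv (VV a b pfS p q)) t) (U := u2 a b pfS p q t / K)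
      (U1 := deriv (u2 a b pfS p q) t / K) n1 n2 m1 m2 (pfW_d1_nonpos le_rfl _) n3
      (neg_nonneg.2 (pfW_d1_nonpos hK _)) (by linarith) n4 (by linarith) k1 k2 k3 s1
      (by rw [pf_V1 sa sb pfS_smooth]; simp only [a0, a1, b1]; field_simp)
      (by rw [pf_V2 sa sb pfS_smooth]; simp only [a0, a1, a2, b2]; field_simp)
      (by simp only [u2, a0, b0]; field_simp)
      (by rw [pf_u2 sa sb pfS_smooth]; simp only [a0, a1, b1]; field_simp)
  have top0 : ∀ p q, ∀ t0 ∈ Icc (-1 : ℝ) 1, deriv (VV a b pfS p q) t0 = 0 →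
      ∀ t, VV a b pfS p q t ≤ VV a b pfS p q t0 := fun p q t0 h0 hz =>
    pf_top (pf_sV sa sb pfS_smooth p q)
      (fun t ht => by rw [Vl p q t ht]; exact mul_nonneg (P1 t).1 (sq_nonneg q))
      (fun t ht => by rw [Vr p q t ht]; exact mul_nonpos_of_nonpos_of_nonneg (P2 t).1 (sq_nonneg _))
      (fun t ht => (neck p q t ht).1) h0 hz
  have g1 := pfP_ge hK 3
  have g2 := pfP_ge (K := 1) le_rfl 3
  refine ⟨⟨a, b, pfS, pfP K 3 / K - 2, pfP 1 3 - 2, K, sa, sb, pfS_smooth, apos, bpos, K0,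
    by have : 0 < pfP K 3 / K := by positivity
       linarith, by linarith, left, right, fun t ht => ?_, fun t ht => ?_, fun t _ => P1 t,
    fun t _ => P2 t, fun p q t0 hz => ?_, fun p q t h => ?_, fun p q t h => ?_⟩⟩
  · have := pfP_ge hK (1 - t)
    rw [b0, pfW, show pfP K 3 / K - 2 - t = pfP K (1 - t) / K by
      rw [pfP_high K (show 3 ≤ 1 - t by linarith)]; field_simp; ring]
    field_simp
  · rw [a0, pfW, pfP_high 1 (show 3 ≤ 1 + t by linarith)]
    congr 2; ring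
  · rcases lt_or_ge t0 (-1) with h1 | h1
    · have hb' : 0 < deriv b t0 := by
        rw [b1]; exact mul_pos (by positivity) (neg_pos.2 (pfW_d1_neg hK (by linarith)))
      rw [Vl p q t0 h1.le] at hz
      have hq : q = 0 := pow_eq_zero_iff two_ne_zero |>.1 ((mul_eq_zero.1 hz).resolve_left hb'.ne')
      refine ⟨fun t => (top0 p q (-1) ⟨le_rfl, by norm_num⟩
        (by rw [Vl p q _ le_rfl, hq]; simp) t).trans_eq ?_, by rw [Vl2 p q t0 h1, hq]; simp⟩
      simp [VV, hq, (left _ h1.le).1, (left _ le_rfl).1]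
    rcases le_or_gt t0 1 with h2 | h2
    · exact ⟨top0 p q t0 ⟨h1, h2⟩ hz, (neck p q t0 ⟨h1, h2⟩).1⟩
    · have ha' : deriv a t0 < 0 := by rw [a1]; exact pfW_d1_neg le_rfl (by linarith)
      rw [Vr p q t0 h2.le] at hz
      have hq : p + q = 0 :=
        pow_eq_zero_iff two_ne_zero |>.1 ((mul_eq_zero.1 hz).resolve_left ha'.ne)
      refine ⟨fun t => (top0 p q 1 ⟨by norm_num, le_rfl⟩
        (by rw [Vr p q _ le_rfl, hq]; simp) t).trans_eq ?_, by rw [Vr2 p q t0 h2, hq]; simp⟩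
      simp [VV, hq, right _ h2.le, right _ le_rfl]
  · rcases lt_or_ge t (-1) with h1 | h1
    · rw [Vl p q t h1.le] at h
      have hq : q ≠ 0 := by rintro rfl; simp at h
      have e1 : u2 a b pfS p q t = b t * q := by simp [u2, (left t h1.le).2]
      have e2 : deriv (u2 a b pfS p q) t = deriv b t * q := by
        simp [pf_u2 sa sb pfS_smooth, (left t h1.le).2, (sl t h1.le).1]
      rw [e1, e2, Vl p q t h1.le, Vl2 p q t h1, (left t h1.le).2]
      refine ⟨mul_ne_zero (bpos t).ne' hq, ?_⟩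
      have := mul_le_mul_of_nonneg_left (P1 t).2 (show 0 ≤ b t * q ^ 4 by have := bpos t; positivity)
      linarith
    rcases le_or_gt t 1 with h2 | h2
    · obtain ⟨n1, n2⟩ := (neck p q t ⟨h1, h2⟩).2.1 h
      refine ⟨fun h0 => n1 (by rw [h0, zero_div]), ?_⟩
      have := mul_le_mul_of_nonneg_left n2 (sq_nonneg K)
      rw [a0, b0]
      refine le_of_eq_of_le ?_ (this.trans_eq (mul_zero _))
      field_simp
    · rw [Vr p q t h2.le] at h
      exact absurd h (not_lt.2 (mul_nonpos_of_nonpos_of_nonneg (P2 t).1 (sq_nonneg _)))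
  · rcases lt_or_ge t (-1) with h1 | h1
    · rw [Vl p q t h1.le] at h
      exact absurd h (not_lt.2 (mul_nonneg (P1 t).1 (sq_nonneg _)))
    rcases le_or_gt t 1 with h2 | h2
    · obtain ⟨n1, n2⟩ := (neck p q t ⟨h1, h2⟩).2.2 h
      rw [pf_u1 sa pfS_smooth, u1, a0, a1]
      refine ⟨n1, ?_⟩
      convert n2 using 1
      field_simp
    · rw [Vr p q t h2.le] at h
      have hq : p + q ≠ 0 := by intro h0; simp [h0] at h
      have e1 : u1 a pfS p q t = a t * (p + q) := by simp [u1, (right t h2.le).2]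
      have e2 : deriv (u1 a pfS p q) t = deriv a t * (p + q) := by
        simp [pf_u1 sa pfS_smooth, (right t h2.le).2, (sr t h2.le).1]
      rw [e1, e2, Vr p q t h2.le, Vr2 p q t h2]
      refine ⟨mul_ne_zero (apos t).ne' hq, ?_⟩
      have := mul_le_mul_of_nonneg_left (P2 t).2
        (show 0 ≤ a t * (p + q) ^ 4 by have := apos t; positivity)
      linarith

end Vale.Agent.P255
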