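import Vale.Agent.P255.Ricc
import Vale.Agent.P255.Npc
import Vale.Agent.P255.CAT
import Vale.Agent.P255.Decks
import Vale.Agent.P255.Prof

/-!
The example carries no metric of nonpositive curvature.
-/

open scoped ContDiff Topology Matrix Manifold
open Set Filter

noncomputable section

namespace Vale.Agent.P255

variable {P : Prof} {M : Type} [TopologicalSpace M] [ChartedSpace E M] [T2Space M]
  [CompactSpace M] [IsManifold (modelWithCornersSelf ℝ E) ∞ M] {π : E → M} {g : RMetric M}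

theorem line_mem (P : Prof) (s : ℝ) :
    (![3 / 2, 0, 0] + s • ![0, 0, 2 * Real.pi] : E) ∈ Wd P.R1 P.R2 := by
  have := P.R1_pos
  have := P.R2_pos
  constructor <;> simp <;> linarith

theorem chr_line (P : Prof) {y v : E} (hy : 1 < y 0) (h0 : v 0 = 0) (h1 : v 1 = 0) :
    chr (Gm P) y v v = 0 := by
  have hn : ∀ᶠ r in 𝓝 (y 0), r ≥ 1 := eventually_ge_nhds hy
  have : P.g22 =ᶠ[𝓝 (y 0)] fun _ => 1 / P.K ^ 2 := hn.mono fun r hr => by
    simp [Prof.g22, (P.right r hr).1]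
  have h2 : deriv P.g22 (y 0) = 0 := by rw [this.deriv_eq, deriv_const]
  have h3 : (fun l => (dG (Gm P) y v v (Pi.single l 1) + dG (Gm P) y v v (Pi.single l 1) -
      dG (Gm P) y (Pi.single l 1) v v) / 2) = 0 := by
    funext l
    simp [dG_gm, Qf, h0, h1, h2]
  rw [chr, h3, Matrix.mulVec_zero]

omit [T2Space M] [CompactSpace M] in
theorem Model.line_geod (h : Model P M π g) (t : ℝ) {e : OpenPartialHomeomorph M E}
    (he : e ∈ atlas E M) (ht : ![3 / 2, 0, 0] + t • ![0, 0, 2 * Real.pi] ∈ e.target) :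
    GeodAt g (fun s => π (![3 / 2, 0, 0] + s • ![0, 0, 2 * Real.pi])) t ∧
      π (![3 / 2, 0, 0] + t • ![0, 0, 2 * Real.pi]) ∈ e.source ∧
      st e (fun s => π (![3 / 2, 0, 0] + s • ![0, 0, 2 * Real.pi])) t =
        (![3 / 2, 0, 0] + t • ![0, 0, 2 * Real.pi], ![0, 0, 2 * Real.pi]) := by
  have hd : ∀ s : ℝ, HasDerivAt (fun s : ℝ => (![3 / 2, 0, 0] + s • ![0, 0, 2 * Real.pi] : E))
      ![0, 0, 2 * Real.pi] s := fun s => by
    simpa using ((hasDerivAt_id s).smul_const (![0, 0, 2 * Real.pi] : E)).const_add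
      (![3 / 2, 0, 0] : E)
  have ev := (hd t).continuousAt.eventually (e.open_target.mem_nhds ht)
  refine geodAt_of_chart (z := fun s =>
    (![3 / 2, 0, 0] + s • ![0, 0, 2 * Real.pi], ![0, 0, 2 * Real.pi])) he ?_ ?_
  · filter_upwards [ev] with s hs
    refine ⟨hs, ?_⟩
    rw [(h.tgt e he).2.2, Wf, chr_line P (by simp; norm_num) (by simp) (by simp), neg_zero]
    exact (hd s).prodMk (hasDerivAt_const s _)
  · filter_upwards [ev] with s hs
    exact ((h.tgt e he).2.1 _ hs).symm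

theorem Model.not_nonpos (h : Model P M π g) : ¬ ∃ g' : RMetric M, Nonpos g' := by
  rintro ⟨g', hg'⟩
  obtain ⟨p, d, hp, h0, H, hiso⟩ := npc_cover hg' (π 0)
  obtain ⟨Ψ, f1, f2, a, b, a', b', hΨ, hpΨ, hf2, d1, d2, da, db, da', db', h12, ha, hb, ha', hb',
    hab, hab'⟩ := h.decks hp h0
  have hid := deck_obstruction hp H hiso d1 d2 da db da' db' h12 ha hb ha' hb' hab hab'
  set v : E := ![0, 0, 2 * Real.pi] with hv
  set y0 : E := ![3 / 2, 0, 0] with hy0
  let γ : ℝ → M := fun s => π (y0 + s • v)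
  have hγ : IsGeodesic g γ := isGeodesic_iff.2 fun t => by
    obtain ⟨e, he, ht⟩ := h.cover _ (line_mem P t)
    exact (h.line_geod t he ht).1
  obtain ⟨e, he, ht⟩ := h.cover _ (line_mem P 0)
  obtain ⟨-, hx, hst⟩ := h.line_geod 0 he ht
  have hdv : deriv (e ∘ γ) 0 = v := congrArg Prod.snd hst
  have hgeo : geo g e (γ 0) v = γ := by
    have := geo_eq he hγ hx
    rwa [hdv] at this
  have hq := expm_cover he hx (h.noConj.expInj he hx)
  have hexp : ∀ s : ℝ, expm g e (γ 0) (s • v) = γ s := fun s => by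
    rw [expm, geo_smul g he hx, mul_one, hgeo]
  obtain ⟨Φ, ⟨hΦ0, hΦ⟩, -⟩ := hq.existsUnique_continuousMap_lifts ⟨p, hp.continuous⟩
    (Ψ (y0 + (0 : ℝ) • v)) ((0 : ℝ) • v) (by
      rw [hexp]; exact (hpΨ _ (line_mem P 0)).symm)
  have c1 : Continuous fun s : ℝ => Φ (Ψ (y0 + s • v)) :=
    Φ.continuous.comp (hΨ.comp_continuous (by fun_prop) (line_mem P))
  have c2 : Continuous fun s : ℝ => s • v := by fun_prop
  have heq := hq.eq_of_comp_eq c1 c2 (by
    funext s
    have := congrFun hΦ (Ψ (y0 + s • v))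
    simp only [Function.comp_apply, ContinuousMap.coe_mk] at this ⊢
    rw [this, hexp, hpΨ _ (line_mem P s)]) 0 hΦ0
  have e1 := congrFun heq 1
  have e2 := hf2 _ (line_mem P 0)
  rw [hid] at e2
  simp only [zero_smul, add_zero, one_smul] at e1 e2 hΦ0
  rw [e2, hΦ0] at e1
  have := congrFun e1 2
  simp [hv, Real.pi_ne_zero] at this

theorem main : ∃ (M : Type) (_ : TopologicalSpace M) (_ : T2Space M) (_ : CompactSpace M)
    (_ : ConnectedSpace M) (_ : ChartedSpace E M) (_ : IsManifold (modelWithCornersSelf ℝ E) ∞ M),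
    (∃ g : RMetric M, NoConj g) ∧ ¬ ∃ g : RMetric M, Nonpos g := by
  obtain ⟨P⟩ := exists_prof
  obtain ⟨M, i1, i2, i3, i4, i5, i6, π, g, h⟩ := exists_model P
  exact ⟨M, i1, i2, i3, i4, i5, i6, ⟨g, h.noConj⟩, h.not_nonpos⟩

end Vale.Agent.P255
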