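import Vale.Agent.P255.SpaceA

/-!
Construction of the underlying space.
-/

open scoped ContDiff Topology Matrix Manifold
open Set Filter

noncomputable section

namespace Vale.Agent.P255

theorem sp_isOpen_Wd (R1 R2 : ℝ) : IsOpen (Wd R1 R2) :=
  (isOpen_lt continuous_const (continuous_apply 0)).inter
    (isOpen_lt (continuous_apply 0) continuous_const)

theorem sp_convex_Wd (R1 R2 : ℝ) : Convex ℝ (Wd R1 R2) :=
  (convex_Ioo (-(2 + 19 / 10 * (R1 + 2))) (2 + 19 / 10 * (R2 + 2))).is_linear_preimage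
    (f := fun y : E => y 0) ⟨fun _ _ => rfl, fun _ _ => rfl⟩

theorem sp_closed_mul {X : Type} [TopologicalSpace X] {f : X → ℝ} (hf : Continuous f) {l : ℝ}
    (hl : l ≠ 0) : IsClosed {x | ∃ k : ℤ, f x = l * k} := by
  have : {x | ∃ k : ℤ, f x = l * k} = (fun x => f x / l) ⁻¹' range ((↑) : ℤ → ℝ) := by
    ext x
    simp only [mem_ofPred_eq, mem_preimage, mem_range]
    refine exists_congr fun k => ?_
    rw [eq_div_iff hl, eq_comm, mul_comm]
  rw [this]
  exact Int.isClosedEmbedding_coe_real.isClosed_range.preimage (hf.div_const l)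

theorem sp_closed_lat {l : ℝ} (hl : l ≠ 0) : IsClosed {c : E | Lat l c} := by
  simp only [lat_iff]
  have hp : 2 * Real.pi ≠ 0 := by positivity
  exact (sp_closed_mul (continuous_apply 0) hl).inter ((sp_closed_mul (continuous_apply 1) hl).inter
    (sp_closed_mul (continuous_apply 2) hp))

theorem sp_closed_T : IsClosed {q : E × E | SpT q.1 q.2} := by
  have hp : 2 * Real.pi ≠ 0 := by positivity
  have e : ∀ a b c : ℝ, a = b + c ↔ a - b = c := fun a b c => sub_eq_iff_eq_add'.symm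
  simp only [spT_iff, e]
  exact (isClosed_eq (by fun_prop) (by fun_prop)).inter
    ((sp_closed_mul (f := fun q : E × E => q.2 1 - q.1 1) (by fun_prop) hp).inter
      (sp_closed_mul (f := fun q : E × E => q.2 2 - q.1 2) (by fun_prop) hp))

/-- The closed version of the gluing on one side. -/
def SpC (R : ℝ) (y y' : E) : Prop :=
  y 0 ≤ -2 ∧ y' 0 ≤ -2 ∧ Lat (4 * (R + 2)) (pol1 R y' - pol1 R y)

theorem sp_closed_C {R : ℝ} (h : 0 < R + 2) : IsClosed {q : E × E | SpC R q.1 q.2} := by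
  have hc := (pol1_smooth R).continuous
  exact (isClosed_le (f := fun q : E × E => q.1 0) (by fun_prop) continuous_const).inter
    ((isClosed_le (f := fun q : E × E => q.2 0) (by fun_prop) continuous_const).inter
      ((sp_closed_lat (l := 4 * (R + 2)) (by positivity)).preimage
        (f := fun q : E × E => pol1 R q.2 - pol1 R q.1) (by fun_prop)))

theorem SpC.cases {R : ℝ} (hR : 0 < R + 2) {y y' : E} (h : SpC R y y')
    (hy : -(2 + 19 / 10 * (R + 2)) < y 0) (hy' : -(2 + 19 / 10 * (R + 2)) < y' 0) :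
    SpT y y' ∨ SpG R y y' := by
  obtain ⟨a, b, c⟩ := h
  by_cases h1 : y 0 < -2 ∧ y' 0 < -2
  · exact Or.inr ⟨h1.1, h1.2, c⟩
  · refine Or.inl (spT_of_small (by linarith) (by linarith) ?_ c)
    rcases not_and_or.1 h1 with h1 | h1 <;> linarith [not_lt.1 h1]

theorem sp_rel_closed_iff {R1 R2 : ℝ} (h1 : 0 < R1 + 2) (h2 : 0 < R2 + 2) {y y' : E}
    (hy : y ∈ Wd R1 R2) (hy' : y' ∈ Wd R1 R2) :
    Rel R1 R2 y y' ↔ SpT y y' ∨ SpC R1 y y' ∨ SpC R2 (spS y) (spS y') := by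
  rw [sp_rel_iff]
  constructor
  · exact Or.imp_right (Or.imp (fun h => ⟨h.1.le, h.2.1.le, h.2.2⟩)
      fun h => ⟨h.1.le, h.2.1.le, h.2.2⟩)
  · rintro (h | h | h)
    · exact Or.inl h
    · exact (h.cases h1 hy.1 hy'.1).imp_right Or.inl
    · refine (h.cases h2 ?_ ?_).imp SpT.of_spS Or.inr
      · simpa [spS] using hy.2
      · simpa [spS] using hy'.2

/-- Reduction of the planar point modulo the lattice. -/
theorem sp_reduce {R : ℝ} (hR : 0 < R + 2) {y : E} (hy : -(2 + 19 / 10 * (R + 2)) < y 0)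
    (hy2 : y 0 < -(2 + 37 / 20 * (R + 2))) :
    ∃ y' : E, SpG R y y' ∧ -(2 + 37 / 20 * (R + 2)) ≤ y' 0 := by
  set ρ := R + 2 with hρ
  set c := pol1 R y with hc
  have hl : 0 < 4 * ρ := by positivity
  set i := round (c 0 / (4 * ρ)) with hi
  set j := round (c 1 / (4 * ρ)) with hj
  have key : ∀ x : ℝ, |x - 4 * ρ * round (x / (4 * ρ))| ≤ 2 * ρ := by
    intro x
    have h := abs_sub_round (x / (4 * ρ))
    have e : x - 4 * ρ * round (x / (4 * ρ)) = 4 * ρ * (x / (4 * ρ) - round (x / (4 * ρ))) := by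
      field_simp
    rw [e, abs_mul, abs_of_pos hl]
    nlinarith
  set c' : E := ![c 0 - 4 * ρ * i, c 1 - 4 * ρ * j, c 2] with hc'
  have hp := pol1_spInv R 0 c'
  set y' := spInv R 0 c' with hy'
  have hlat : Lat (4 * ρ) (pol1 R y' - pol1 R y) := by
    rw [hp, ← hc, hc']
    refine lat_iff.2 ⟨⟨-i, by simp⟩, ⟨-j, by simp⟩, ⟨0, by simp⟩⟩
  have hr : 0 ≤ R - y' 0 := by simp [hy', spInv]
  have hsq : (R - y' 0) ^ 2 = c' 0 ^ 2 + c' 1 ^ 2 := by
    rw [← hp]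
    have a1 := Real.cos_sq_add_sin_sq (y' 2)
    simp only [pol1, Matrix.cons_val_zero, Matrix.cons_val_one]
    linear_combination (-(R - y' 0) ^ 2) * a1
  have b0 : |c' 0| ≤ 2 * ρ := key (c 0)
  have b1 : |c' 1| ≤ 2 * ρ := key (c 1)
  have b0' : c' 0 ^ 2 ≤ (2 * ρ) ^ 2 := sq_le_sq' (abs_le.1 b0).1 (abs_le.1 b0).2
  have b1' : c' 1 ^ 2 ≤ (2 * ρ) ^ 2 := sq_le_sq' (abs_le.1 b1).1 (abs_le.1 b1).2
  have hup : R - y' 0 ≤ 57 / 20 * ρ := by
    refine (pow_le_pow_iff_left₀ hr (by positivity) two_ne_zero).1 ?_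
    nlinarith
  refine ⟨y', ⟨by linarith, ?_, hlat⟩, by linarith⟩
  by_contra hcon
  have hcon' := not_lt.1 hcon
  obtain ⟨⟨i', h0⟩, ⟨j', h1⟩, -⟩ := lat_iff.1 hlat
  have a := sp_pol_le R y (by linarith)
  have q0 : |c' 0| ≤ R - y' 0 := abs_le_of_sq_le_sq' (by nlinarith) hr |> abs_le.2
  have q1 : |c' 1| ≤ R - y' 0 := abs_le_of_sq_le_sq' (by nlinarith) hr |> abs_le.2
  rw [hp] at h0 h1
  have hi' := sp_int_zero h0 (by
    have := abs_sub (c' 0) (pol1 R y 0)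
    simp only [Pi.sub_apply]; linarith [a.1])
  have hj' := sp_int_zero h1 (by
    have := abs_sub (c' 1) (pol1 R y 1)
    simp only [Pi.sub_apply]; linarith [a.2])
  subst hi' hj'
  simp only [Pi.sub_apply, Int.cast_zero, mul_zero, sub_eq_zero] at h0 h1
  have a1 := Real.cos_sq_add_sin_sq (y 2)
  have hsq2 : (R - y 0) ^ 2 = (R - y' 0) ^ 2 := by
    rw [hsq, h0, h1]
    simp only [pol1, Matrix.cons_val_zero, Matrix.cons_val_one]
    linear_combination (-(R - y 0) ^ 2) * a1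
  have := (pow_left_inj₀ (by linarith) hr two_ne_zero).1 hsq2
  linarith

theorem sp_angle (x : ℝ) : ∃ k : ℤ, 0 ≤ x + 2 * Real.pi * k ∧ x + 2 * Real.pi * k ≤ 2 * Real.pi := by
  have hp : 0 < 2 * Real.pi := by positivity
  have h := toIcoMod_mem_Ico' hp x
  refine ⟨-toIcoDiv hp 0 x, ?_⟩
  have e : x + 2 * Real.pi * ((-toIcoDiv hp 0 x : ℤ) : ℝ) = toIcoMod hp 0 x := by
    rw [toIcoMod, zsmul_eq_mul]
    push_cast
    ring
  rw [e]
  exact ⟨h.1, h.2.le⟩

/-- A compact box that meets every class. -/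
def spBox (R1 R2 : ℝ) : Set E :=
  Icc ![-(2 + 37 / 20 * (R1 + 2)), 0, 0] ![2 + 37 / 20 * (R2 + 2), 2 * Real.pi, 2 * Real.pi]

theorem spBox_sub {R1 R2 : ℝ} (h1 : 0 < R1 + 2) (h2 : 0 < R2 + 2) : spBox R1 R2 ⊆ Wd R1 R2 := by
  intro y hy
  have a := hy.1 0
  have b := hy.2 0
  simp only [Matrix.cons_val_zero] at a b
  exact ⟨by linarith, by linarith⟩

theorem sp_exists_box {R1 R2 : ℝ} (h1 : 0 < R1 + 2) (h2 : 0 < R2 + 2) {y : E}
    (hy : y ∈ Wd R1 R2) : ∃ y' ∈ spBox R1 R2, Rel R1 R2 y y' := by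
  have step : ∃ z : E, Rel R1 R2 y z ∧ -(2 + 37 / 20 * (R1 + 2)) ≤ z 0 ∧
      z 0 ≤ 2 + 37 / 20 * (R2 + 2) := by
    by_cases a : y 0 < -(2 + 37 / 20 * (R1 + 2))
    · obtain ⟨z, hz, hz'⟩ := sp_reduce h1 hy.1 a
      exact ⟨z, (sp_rel_iff ..).2 (Or.inr (Or.inl hz)), hz', by linarith [hz.2.1]⟩
    by_cases b : 2 + 37 / 20 * (R2 + 2) < y 0
    · obtain ⟨z, hz, hz'⟩ := sp_reduce (y := spS y) h2 (by simpa [spS] using hy.2)
        (by simpa [spS] using b)
      refine ⟨spS' z, (sp_rel_iff ..).2 (Or.inr (Or.inr (by rwa [spS_spS']))), ?_, ?_⟩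
      · have := hz.2.1
        simp only [spS', Matrix.cons_val_zero]
        linarith
      · simp only [spS', Matrix.cons_val_zero]
        linarith
    exact ⟨y, sp_rel_refl _ _ _, not_lt.1 a, not_lt.1 b⟩
  obtain ⟨z, hz, a, b⟩ := step
  obtain ⟨j, hj⟩ := sp_angle (z 1)
  obtain ⟨k, hk⟩ := sp_angle (z 2)
  refine ⟨z + ![0, 2 * Real.pi * j, 2 * Real.pi * k], ⟨fun i => ?_, fun i => ?_⟩,
    sp_rel_trans hz (Or.inl ⟨j, k, rfl⟩)⟩
  · fin_cases i
    · simpa using a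
    · simpa using hj.1
    · simpa using hk.1
  · fin_cases i
    · simpa using b
    · simpa using hj.2
    · simpa using hk.2

/-- The gluing relation as a setoid. -/
def spSetoid (R1 R2 : ℝ) : Setoid (Wd R1 R2) where
  r y y' := Rel R1 R2 y y'
  iseqv := ⟨fun _ => sp_rel_refl _ _ _, sp_rel_symm, sp_rel_trans⟩

theorem sp_isOpenMap {R1 R2 : ℝ} (h1 : 0 < R1 + 2) (h2 : 0 < R2 + 2) :
    IsOpenMap (Quotient.mk (spSetoid R1 R2)) := by
  intro U hU
  rw [← isQuotientMap_quotient_mk'.isOpen_preimage, isOpen_iff_mem_nhds]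
  rintro w ⟨u, hu, huw⟩
  have hr : Rel R1 R2 w u := sp_rel_symm (Quotient.exact huw)
  obtain ⟨T, hT, hTw, hrel, -⟩ := sp_exists_map h1 h2 hr
  obtain ⟨V, hV, rfl⟩ := isOpen_induced_iff.1 hU
  have h3 : ∀ᶠ z in 𝓝 (w : E), T z ∈ V ∩ Wd R1 R2 := by
    refine hT.continuousAt.eventually ((hV.inter (sp_isOpen_Wd R1 R2)).mem_nhds ?_)
    rw [hTw]
    exact ⟨hu, u.2⟩
  filter_upwards [continuous_subtype_val.continuousAt.eventually (h3.and hrel)] with z hz
  exact ⟨⟨T z, hz.1.2⟩, hz.1.1, Quotient.sound (sp_rel_symm hz.2)⟩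

theorem exists_space {R1 R2 : ℝ} (h1 : 0 < R1 + 2) (h2 : 0 < R2 + 2) :
    ∃ (M : Type) (_ : TopologicalSpace M) (_ : T2Space M) (_ : CompactSpace M)
      (_ : ConnectedSpace M) (π : E → M), ContinuousOn π (Wd R1 R2) ∧
      SurjOn π (Wd R1 R2) univ ∧
      (∀ y ∈ Wd R1 R2, ∀ y' ∈ Wd R1 R2, π y = π y' ↔ Rel R1 R2 y y') ∧
      ∀ y ∈ Wd R1 R2, ∀ U ∈ 𝓝 y, π '' U ∈ 𝓝 (π y) := by
  classical
  have h0 : (0 : E) ∈ Wd R1 R2 := ⟨by simp only [Pi.zero_apply]; linarith,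
    by simp only [Pi.zero_apply]; linarith⟩
  let mk := Quotient.mk (spSetoid R1 R2)
  have hmk : Continuous mk := continuous_quotient_mk'
  have hsurj : Function.Surjective mk := Quotient.mk_surjective
  let π : E → Quotient (spSetoid R1 R2) := fun y => if h : y ∈ Wd R1 R2 then mk ⟨y, h⟩ else mk ⟨0, h0⟩
  have hπ : ∀ y (h : y ∈ Wd R1 R2), π y = mk ⟨y, h⟩ := fun y h => dif_pos h
  have hcont : ContinuousOn π (Wd R1 R2) := by
    rw [continuousOn_iff_continuous_domRestrict]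
    exact hmk.congr fun y => (hπ y y.2).symm
  have hrel : ∀ y ∈ Wd R1 R2, ∀ y' ∈ Wd R1 R2, π y = π y' ↔ Rel R1 R2 y y' := by
    intro y hy y' hy'
    rw [hπ y hy, hπ y' hy']
    exact Quotient.eq
  have hT2 : T2Space (Quotient (spSetoid R1 R2)) := by
    rw [t2Space_iff_of_isOpenQuotientMap ⟨hsurj, hmk, sp_isOpenMap h1 h2⟩]
    have e : {q : Wd R1 R2 × Wd R1 R2 | mk q.1 = mk q.2} =
        (fun q => ((q.1 : E), (q.2 : E))) ⁻¹' ({q : E × E | SpT q.1 q.2} ∪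
          ({q : E × E | SpC R1 q.1 q.2} ∪
            (fun q => (spS q.1, spS q.2)) ⁻¹' {q : E × E | SpC R2 q.1 q.2})) := by
      ext q
      exact Quotient.eq.trans (sp_rel_closed_iff h1 h2 q.1.2 q.2.2)
    have hS := spS_smooth.continuous
    rw [e]
    exact (sp_closed_T.union ((sp_closed_C h1).union
      ((sp_closed_C h2).preimage (by fun_prop)))).preimage (by fun_prop)
  have hcpt : CompactSpace (Quotient (spSetoid R1 R2)) := by
    have hK : IsCompact (π '' spBox R1 R2) :=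
      isCompact_Icc.image_of_continuousOn (hcont.mono (spBox_sub h1 h2))
    refine ⟨hK.of_isClosed_subset isClosed_univ fun x _ => ?_⟩
    obtain ⟨y, rfl⟩ := hsurj x
    obtain ⟨z, hz, hyz⟩ := sp_exists_box h1 h2 y.2
    refine ⟨z, hz, ?_⟩
    rw [← hπ y y.2]
    exact ((hrel _ y.2 _ (spBox_sub h1 h2 hz)).2 hyz).symm
  have hconn : ConnectedSpace (Quotient (spSetoid R1 R2)) := by
    have : ConnectedSpace (Wd R1 R2) :=
      isConnected_iff_connectedSpace.1 ((sp_convex_Wd R1 R2).isConnected ⟨0, h0⟩)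
    exact hsurj.connectedSpace hmk
  refine ⟨Quotient (spSetoid R1 R2), inferInstance, hT2, hcpt, hconn, π, hcont, ?_, hrel, ?_⟩
  · intro x _
    obtain ⟨y, rfl⟩ := hsurj x
    exact ⟨y, y.2, hπ y y.2⟩
  · intro y hy U hU
    have h3 := (sp_isOpenMap h1 h2).image_mem_nhds
      (continuous_subtype_val.continuousAt.preimage_mem_nhds (x := (⟨y, hy⟩ : Wd R1 R2)) hU)
    rw [hπ y hy]
    refine mem_of_superset h3 ?_
    rintro _ ⟨z, hz, rfl⟩
    exact ⟨z, hz, hπ z z.2⟩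

end Vale.Agent.P255
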