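import Vale.Agent.P255.Chart0
import Vale.Agent.P255.Space

/-!
Construction of the manifold and its metric.
-/

open scoped ContDiff Topology Matrix Manifold
open Set Filter

noncomputable section

namespace Vale.Agent.P255

theorem mfd_ip (P : Prof) (y u v : E) : ip (Gm P y) u v = u 0 * v 0 + u 1 * v 1 / P.a (y 0) +
    (u 2 - P.σ (y 0) * u 1) * (v 2 - P.σ (y 0) * v 1) / P.b (y 0) := by
  simp [ip, Gm, Matrix.mulVec, dotProduct, Fin.sum_univ_three]
  ring

theorem gm_good (P : Prof) : Good (Gm P) univ := by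
  refine ⟨isOpen_univ, fun i j => ContDiff.contDiffOn ?_, fun y _ => ?_⟩
  · have ha : ContDiff ℝ ∞ fun y : E => P.a (y 0) := P.sa.comp (contDiff_apply ℝ ℝ 0)
    have hb : ContDiff ℝ ∞ fun y : E => P.b (y 0) := P.sb.comp (contDiff_apply ℝ ℝ 0)
    have hσ : ContDiff ℝ ∞ fun y : E => P.σ (y 0) := P.sσ.comp (contDiff_apply ℝ ℝ 0)
    have ha' : ∀ y : E, P.a (y 0) ≠ 0 := fun y => (P.a_pos _).ne'
    have hb' : ∀ y : E, P.b (y 0) ≠ 0 := fun y => (P.b_pos _).ne'
    have h11 : ContDiff ℝ ∞ fun y : E => 1 / P.a (y 0) + P.σ (y 0) ^ 2 / P.b (y 0) :=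
      (contDiff_const.div ha ha').add ((hσ.pow 2).div hb hb')
    have h12 : ContDiff ℝ ∞ fun y : E => - P.σ (y 0) / P.b (y 0) := hσ.neg.div hb hb'
    have h22 : ContDiff ℝ ∞ fun y : E => 1 / P.b (y 0) := contDiff_const.div hb hb'
    fin_cases i <;> fin_cases j
    exacts [contDiff_const, contDiff_const, contDiff_const, contDiff_const, h11, h12,
      contDiff_const, h12, h22]
  · refine Matrix.PosDef.of_dotProduct_mulVec_pos ?_ fun x hx => ?_
    · ext i j
      fin_cases i <;> fin_cases j <;> simp [Gm]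
    · have e : star x ⬝ᵥ Gm P y *ᵥ x = ip (Gm P y) x x := by simp [ip]
      rw [e, mfd_ip]
      have ha := P.a_pos (y 0)
      have hb := P.b_pos (y 0)
      have h0 := mul_self_nonneg (x 0)
      have h1 := div_nonneg (mul_self_nonneg (x 1)) ha.le
      have h2 := div_nonneg (mul_self_nonneg (x 2 - P.σ (y 0) * x 1)) hb.le
      by_contra hcon
      have e0 : x 0 * x 0 = 0 := by linarith
      have e1 : x 1 * x 1 / P.a (y 0) = 0 := by linarith
      have e2 : (x 2 - P.σ (y 0) * x 1) * (x 2 - P.σ (y 0) * x 1) / P.b (y 0) = 0 := by linarith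
      rw [div_eq_zero_iff, or_iff_left ha.ne', mul_self_eq_zero] at e1
      rw [div_eq_zero_iff, or_iff_left hb.ne', mul_self_eq_zero, e1] at e2
      rw [mul_self_eq_zero] at e0
      apply hx
      ext i
      fin_cases i
      · exact e0
      · exact e1
      · simpa using e2

theorem mfd_dpol (R : ℝ) (y u : E) : fderiv ℝ (pol1 R) y u =
    ![- u 0 * Real.cos (y 2) - (R - y 0) * Real.sin (y 2) * u 2,
      - u 0 * Real.sin (y 2) + (R - y 0) * Real.cos (y 2) * u 2, u 1] := by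
  have hd : DifferentiableAt ℝ (pol1 R) y := (pol1_smooth R).differentiable (by simp) y
  have h0 := ((hasFDerivAt_apply (𝕜 := ℝ) 0 y).const_sub R).mul (hasFDerivAt_apply 2 y).cos
  have h1 := ((hasFDerivAt_apply (𝕜 := ℝ) 0 y).const_sub R).mul (hasFDerivAt_apply 2 y).sin
  have h2 := hasFDerivAt_apply (𝕜 := ℝ) 1 y
  have k := fun i => hasFDerivAt_pi'.1 hd.hasFDerivAt i
  ext i
  fin_cases i
  · have := congrArg (fun L => L u) ((k 0).unique h0)
    simp at this
    simp [this]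
    ring
  · have := congrArg (fun L => L u) ((k 1).unique h1)
    simp at this
    simp [this]
    ring
  · have := congrArg (fun L => L u) ((k 2).unique h2)
    simp at this
    simp [this]

/-- The flat metric of a piece. -/
def mfdB (κ : ℝ) (c c' : E) : ℝ := c 0 * c' 0 + c 1 * c' 1 + κ * (c 2 * c' 2)

theorem mfdB_dpol (κ R : ℝ) (y u v : E) :
    mfdB κ (fderiv ℝ (pol1 R) y u) (fderiv ℝ (pol1 R) y v) =
      u 0 * v 0 + κ * (u 1 * v 1) + (R - y 0) ^ 2 * (u 2 * v 2) := by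
  have a1 := Real.cos_sq_add_sin_sq (y 2)
  simp only [mfd_dpol, mfdB, Matrix.cons_val_zero, Matrix.cons_val_one, Matrix.cons_val]
  linear_combination (u 0 * v 0 + (R - y 0) ^ 2 * (u 2 * v 2)) * a1

theorem mfd_side1 (P : Prof) {y : E} (hy : y 0 < -2) (u v : E) : ip (Gm P y) u v =
    mfdB 1 (fderiv ℝ (pol1 P.R1) y u) (fderiv ℝ (pol1 P.R1) y v) := by
  have h1 := P.left (y 0) (by linarith)
  rw [mfdB_dpol, mfd_ip, h1.1, h1.2, P.pol1 _ hy.le, one_div, div_inv_eq_mul]
  ring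

theorem mfd_dS (y u : E) : fderiv ℝ spS y u = spS u := by
  let L : E →ₗ[ℝ] E :=
    { toFun := spS
      map_add' := fun a b => by ext i; fin_cases i <;> simp [spS] <;> ring
      map_smul' := fun c a => by ext i; fin_cases i <;> simp [spS]; ring }
  exact congrArg (fun M : E →L[ℝ] E => M u) (LinearMap.toContinuousLinearMap L).fderiv

theorem mfd_side2 (P : Prof) {y : E} (hy : 2 < y 0) (u v : E) : ip (Gm P y) u v =
    mfdB (1 / P.K ^ 2) (fderiv ℝ (pol2 P.R2) y u) (fderiv ℝ (pol2 P.R2) y v) := by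
  have h1 := P.right (y 0) (by linarith)
  have e : pol2 P.R2 = pol1 P.R2 ∘ spS := funext (pol2_eq _)
  have hd : ∀ w, fderiv ℝ (pol2 P.R2) y w = fderiv ℝ (pol1 P.R2) (spS y) (spS w) := by
    intro w
    rw [e, fderiv_comp y ((pol1_smooth _).differentiable (by simp) _)
      (spS_smooth.differentiable (by simp) _), ContinuousLinearMap.comp_apply, mfd_dS]
  rw [hd, hd, mfdB_dpol, mfd_ip, h1.1, h1.2, P.pol2 _ hy.le, one_div, div_inv_eq_mul]
  simp only [spS, Matrix.cons_val_zero, Matrix.cons_val_one, Matrix.cons_val]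
  ring

theorem mfd_chain {f T : E → E} {y c : E} (hf : ContDiff ℝ ∞ f) (hT : ContDiffAt ℝ ∞ T y)
    (h : ∀ z, f (T z) = f z + c) (u : E) :
    fderiv ℝ f (T y) (fderiv ℝ T y u) = fderiv ℝ f y u := by
  have e : f ∘ T = fun z => f z + c := funext h
  rw [← ContinuousLinearMap.comp_apply, ← fderiv_comp y (hf.differentiable (by simp) _)
    (hT.differentiableAt (by simp)), e, fderiv_add_const]

/-- The gluing relation extends to a smooth local isometry. -/
theorem mfd_exists_map (P : Prof) {y y' : E} (h : Rel P.R1 P.R2 y y') :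
    ∃ T : E → E, ContDiffAt ℝ ∞ T y ∧ T y = y' ∧ (∀ᶠ z in 𝓝 y, Rel P.R1 P.R2 z (T z)) ∧
      (∀ u v, ip (Gm P y) u v = ip (Gm P y') (fderiv ℝ T y u) (fderiv ℝ T y v)) ∧
      ((∃ c : E, c 0 = 0 ∧ T = fun z => z + c) ∨ (y 0 < -2 ∧ y' 0 < -2) ∨
        (2 < y 0 ∧ 2 < y' 0)) := by
  obtain ⟨T, hT, hTy, hrel, hc⟩ := sp_exists_map P.R1_pos P.R2_pos h
  refine ⟨T, hT, hTy, hrel, fun u v => ?_,
    hc.imp_right (Or.imp (fun h => ⟨h.1, h.2.1⟩) fun h => ⟨h.1, h.2.1⟩)⟩
  subst hTy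
  rcases hc with ⟨c, hc, rfl⟩ | ⟨a, b, c, hc⟩ | ⟨a, b, c, hc⟩
  · simp [mfd_ip, hc, fderiv_add_const]
  · rw [mfd_side1 P a, mfd_side1 P b, mfd_chain (pol1_smooth _) hT hc,
      mfd_chain (pol1_smooth _) hT hc]
  · have hs : ContDiff ℝ ∞ (pol2 P.R2) := by
      have e : pol2 P.R2 = pol1 P.R2 ∘ spS := funext (pol2_eq _)
      rw [e]
      exact (pol1_smooth _).comp spS_smooth
    rw [mfd_side2 P a, mfd_side2 P b, mfd_chain hs hT hc, mfd_chain hs hT hc]

theorem mfd_near {f : E → ℝ} (hf : Continuous f) (y : E) {l : ℝ} (hl : 0 < l) :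
    ∀ᶠ q : E × E in 𝓝 (y, y), |f q.2 - f q.1| < l := by
  have hc : Continuous fun q : E × E => |f q.2 - f q.1| := by fun_prop
  refine hc.continuousAt.eventually (gt_mem_nhds ?_)
  simpa using hl

theorem mfd_T_near (y : E) : ∀ᶠ q : E × E in 𝓝 (y, y), SpT q.1 q.2 → q.1 = q.2 := by
  have hp : 0 < 2 * Real.pi := by positivity
  filter_upwards [mfd_near (continuous_apply 1) y hp, mfd_near (continuous_apply 2) y hp]
    with q a b h
  obtain ⟨h0, ⟨j, h1⟩, ⟨k, h2⟩⟩ := spT_iff.1 h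
  have hj := sp_int_zero (sub_eq_iff_eq_add'.2 h1) a
  have hk := sp_int_zero (sub_eq_iff_eq_add'.2 h2) b
  subst hj hk
  ext i
  fin_cases i
  · exact h0.symm
  · simpa using h1.symm
  · simpa using h2.symm

theorem mfd_G_near {R : ℝ} (hR : 0 < R + 2) (y : E) :
    ∀ᶠ q : E × E in 𝓝 (y, y), SpG R q.1 q.2 → SpT q.1 q.2 := by
  have hl : 0 < 4 * (R + 2) := by positivity
  have hc := (pol1_smooth R).continuous
  filter_upwards [mfd_near ((continuous_apply 0).comp hc) y hl,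
    mfd_near ((continuous_apply 1).comp hc) y hl] with q a b h
  obtain ⟨⟨i, h0⟩, ⟨j, h1⟩, h2⟩ := lat_iff.1 h.2.2
  have hi := sp_int_zero h0 a
  have hj := sp_int_zero h1 b
  subst hi hj
  simp only [Pi.sub_apply, Int.cast_zero, mul_zero, sub_eq_zero] at h0 h1
  exact spT_of_pol (by linarith [h.1]) (by linarith [h.2.1]) h0 h1 h2

theorem mfd_rel_near {R1 R2 : ℝ} (h1 : 0 < R1 + 2) (h2 : 0 < R2 + 2) (y : E) :
    ∀ᶠ q : E × E in 𝓝 (y, y), Rel R1 R2 q.1 q.2 → q.1 = q.2 := by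
  have hS := spS_smooth.continuous
  have hc : ContinuousAt (fun q : E × E => (spS q.1, spS q.2)) (y, y) := by fun_prop
  filter_upwards [mfd_T_near y, mfd_G_near h1 y, hc.eventually (mfd_G_near h2 (spS y))]
    with q a b c h
  rcases (sp_rel_iff ..).1 h with h | h | h
  · exact a h
  · exact a (b h)
  · exact a (c h).of_spS

theorem exists_model (P : Prof) : ∃ (M : Type) (_ : TopologicalSpace M) (_ : T2Space M)
    (_ : CompactSpace M) (_ : ConnectedSpace M) (_ : ChartedSpace E M)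
    (_ : IsManifold (modelWithCornersSelf ℝ E) ∞ M) (π : E → M) (g : RMetric M),
    Model P M π g := by
  obtain ⟨M, _, _, _, _, π, hcont, hsurj, hrel, hopen⟩ := exists_space P.R1_pos P.R2_pos
  let A : Set (OpenPartialHomeomorph M E) :=
    {e | e.target ⊆ Wd P.R1 P.R2 ∧ ∀ y ∈ e.target, e.symm y = π y}
  have hcover : ∀ y ∈ Wd P.R1 P.R2, ∃ e ∈ A, y ∈ e.target := by
    intro y hy
    have h1 := mfd_rel_near P.R1_pos P.R2_pos y
    rw [nhds_prod_eq] at h1
    obtain ⟨t, ht, h2⟩ := (Filter.eventually_prod_self_iff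
      (r := fun a b : E => Rel P.R1 P.R2 a b → a = b)).1 h1
    obtain ⟨U, hU, hUo, hyU⟩ := mem_nhds_iff.1 (inter_mem ht ((sp_isOpen_Wd _ _).mem_nhds hy))
    have hinj : InjOn π U := fun a ha b hb hab =>
      h2 a (hU ha).1 b (hU hb).1 ((hrel a (hU ha).2 b (hU hb).2).1 hab)
    have hom : IsOpenMap (U.domRestrict π) := by
      refine isOpenMap_iff_nhds_le.2 fun a => ?_
      intro s hs
      have h3 : Subtype.val '' (U.domRestrict π ⁻¹' s) ∈ 𝓝 (a : E) :=
        hUo.isOpenMap_subtype_val.image_mem_nhds hs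
      refine mem_of_superset (hopen a (hU a.2).2 _ h3) ?_
      rintro _ ⟨_, ⟨z, hz, rfl⟩, rfl⟩
      exact hz
    let e := OpenPartialHomeomorph.ofContinuousOpenRestrict (hinj.toPartialEquiv π U)
      (hcont.mono fun a ha => (hU ha).2) hom hUo
    exact ⟨e.symm, ⟨fun a ha => (hU ha).2, fun a _ => rfl⟩, hyU⟩
  have hch : ∀ x : M, ∃ e ∈ A, x ∈ e.source := by
    intro x
    obtain ⟨y, hy, rfl⟩ := hsurj (mem_univ x)
    obtain ⟨e, he, hye⟩ := hcover y hy
    exact ⟨e, he, he.2 y hye ▸ e.map_target hye⟩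
  choose ch hchA hchx using hch
  let : ChartedSpace E M :=
    { atlas := A, chartAt := ch, mem_chart_source := hchx, chart_mem_atlas := hchA }
  have key : ∀ e ∈ A, ∀ e' ∈ A, ∀ x ∈ e.source, x ∈ e'.source → ∃ T : E → E,
      (e' ∘ e.symm) =ᶠ[𝓝 (e x)] T ∧ ContDiffAt ℝ ∞ T (e x) ∧
      (∀ u v, ip (Gm P (e x)) u v =
        ip (Gm P (e' x)) (fderiv ℝ T (e x) u) (fderiv ℝ T (e x) v)) ∧
      ((∃ c : E, c 0 = 0 ∧ T = fun z => z + c) ∨ (e x 0 < -2 ∧ e' x 0 < -2) ∨
        (2 < e x 0 ∧ 2 < e' x 0)) := by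
    intro e he e' he' x hx hx'
    have a := e.map_source hx
    have a' := e'.map_source hx'
    have hr : Rel P.R1 P.R2 (e x) (e' x) := by
      rw [← hrel _ (he.1 a) _ (he'.1 a'), ← he.2 _ a, ← he'.2 _ a', e.left_inv hx, e'.left_inv hx']
    obtain ⟨T, hT, hTy, hTr, hiso, hc⟩ := mfd_exists_map P hr
    refine ⟨T, ?_, hT, hiso, hc⟩
    have h1 : ∀ᶠ z in 𝓝 (e x), T z ∈ e'.target :=
      hT.continuousAt.eventually (e'.open_target.mem_nhds (hTy ▸ a'))
    filter_upwards [h1, hTr, e.open_target.mem_nhds a] with z b c d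
    rw [Function.comp_apply, he.2 z d, (hrel _ (he.1 d) _ (he'.1 b)).2 c, ← he'.2 _ b,
      e'.right_inv b]
  have hman : IsManifold (modelWithCornersSelf ℝ E) ∞ M := by
    refine isManifold_of_contDiffOn _ _ _ fun e e' he he' => ?_
    intro y hy
    simp only [modelWithCornersSelf_coe_symm, preimage_id_eq, id_eq, modelWithCornersSelf_coe,
      range_id, inter_univ, OpenPartialHomeomorph.trans_source, OpenPartialHomeomorph.symm_source,
      mem_inter_iff, mem_preimage] at hy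
    obtain ⟨T, hT, hs, -⟩ := key e he e' he' (e.symm y) (e.map_target hy.1) hy.2
    rw [e.right_inv hy.1] at hT hs
    exact (hs.congr_of_eventuallyEq hT).contDiffWithinAt
  let g : RMetric M :=
    { g := fun _ => Gm P
      smooth := fun e _ i j => ((gm_good P).smooth i j).mono (subset_univ _)
      pos := fun e _ y _ => (gm_good P).pos y (mem_univ _)
      compat := fun e he e' he' x hx hx' u v => by
        obtain ⟨T, hT, -, hiso, -⟩ := key e he e' he' x hx hx'
        rw [tr, tr, hT.fderiv_eq, hiso] }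
  refine ⟨M, inferInstance, inferInstance, inferInstance, inferInstance, inferInstance, hman, π, g,
    hcont, hrel, fun e he => ⟨he.1, he.2, rfl⟩, hcover, fun e he e' he' x hx hx' => ?_⟩
  obtain ⟨T, hT, -, -, hc⟩ := key e he e' he' x hx hx'
  refine hc.imp_left ?_
  rintro ⟨c, hc0, hc1⟩
  exact ⟨c, hc0, hc1 ▸ hT⟩

end Vale.Agent.P255
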