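import Vale.Agent.P255.Defs

/-!
The algebraic inequalities on the neck.
-/

open scoped ContDiff Topology Matrix Manifold
open Set Filter

noncomputable section

namespace Vale.Agent.P255

theorem neck_cross {k Z Y α β : ℝ} (hα : 0 ≤ α) (hβ : 0 ≤ β) (hk : k ^ 2 ≤ α * β / 10000) :
    |k * Z * Y| ≤ (α * Z ^ 2 + β * Y ^ 2) / 200 := by
  have hQ : 0 ≤ (α * Z ^ 2 + β * Y ^ 2) / 200 := by positivity
  refine abs_le_of_sq_le_sq' ?_ hQ |> abs_le.2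
  have h1 : k ^ 2 * (Z * Y) ^ 2 ≤ α * β / 10000 * (Z * Y) ^ 2 :=
    mul_le_mul_of_nonneg_right hk (sq_nonneg _)
  nlinarith [sq_nonneg (α * Z ^ 2 - β * Y ^ 2)]

theorem neck_abs {x Y k : ℝ} (hk : 0 ≤ k) (h : x ^ 2 ≤ k ^ 2 * Y ^ 2) : |x| ≤ k * |Y| := by
  refine abs_le.2 (abs_le_of_sq_le_sq' ?_ (by positivity))
  rw [mul_pow, sq_abs]; exact h

theorem neck_le {k x B : ℝ} (hk : 0 ≤ k) (hk' : k ≤ 1) (h : |x| ≤ B) : |k * x| ≤ B := by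
  rw [abs_mul, abs_of_nonneg hk]
  exact (mul_le_of_le_one_left (abs_nonneg x) hk').trans h

theorem neck_sZ {α β s Z Y : ℝ} (hα : 0 ≤ α) (hβ : 0 < β) (hs : s ^ 2 * β ≤ α / 10000)
    (e1 : α * Z ^ 2 ≤ 103 / 100 * (β * Y ^ 2)) : (s * Z) ^ 2 ≤ (102 / 10000) ^ 2 * Y ^ 2 := by
  rcases hα.eq_or_lt with h0 | h0
  · have : s ^ 2 ≤ 0 := by rw [← h0] at hs; nlinarith
    have : s = 0 := pow_eq_zero_iff two_ne_zero |>.1 (le_antisymm this (sq_nonneg s))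
    rw [this]; simp; positivity
  · have t1 : s ^ 2 * (α * Z ^ 2) ≤ s ^ 2 * (103 / 100 * (β * Y ^ 2)) :=
      mul_le_mul_of_nonneg_left e1 (sq_nonneg s)
    have t2 : s ^ 2 * β * Y ^ 2 ≤ α / 10000 * Y ^ 2 :=
      mul_le_mul_of_nonneg_right hs (sq_nonneg Y)
    refine le_of_mul_le_mul_left ?_ h0
    have := mul_nonneg hα (sq_nonneg Y)
    linarith

theorem neck_s1Z {α β s1 Z Y : ℝ} (hβ : 0 ≤ β) (hs1 : s1 ^ 2 ≤ α * β / 10000)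
    (e1 : α * Z ^ 2 ≤ 103 / 100 * (β * Y ^ 2)) : (s1 * Z) ^ 2 ≤ (102 / 10000 * β) ^ 2 * Y ^ 2 := by
  have t1 : s1 ^ 2 * Z ^ 2 ≤ α * β / 10000 * Z ^ 2 :=
    mul_le_mul_of_nonneg_right hs1 (sq_nonneg Z)
  have t2 : β * (α * Z ^ 2) ≤ β * (103 / 100 * (β * Y ^ 2)) := mul_le_mul_of_nonneg_left e1 hβ
  have := mul_nonneg hβ (mul_nonneg hβ (sq_nonneg Y))
  linarith

theorem neck_fin {U U1 V1 V2 H y B : ℝ} (hy : 0 ≤ y) (hB : 0 ≤ B) (hB' : B ≤ y ^ 2 / 1000)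
    (u1 : |U| ≤ 102 / 100 * y) (u2 : 48 / 100 * y ≤ |U|) (u3 : |U1| ≤ 104 / 100000 * y)
    (h : 0 < V1) (e2 : V1 ≤ 103 / 100 * B) (v2 : V2 ≤ -B / 16) (hH : H ≤ 2) :
    2 * U ^ 2 * V2 - 4 * U * U1 * V1 + H * V1 ^ 2 ≤ 0 := by
  have w1 : (48 / 100 * y) ^ 2 ≤ U ^ 2 := by
    rw [← sq_abs U]; exact pow_le_pow_left₀ (by positivity) u2 2
  have w2 : -(U * U1) ≤ 102 / 100 * y * (104 / 100000 * y) := by
    refine (neg_le_abs _).trans ?_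
    rw [abs_mul]
    exact mul_le_mul u1 u3 (abs_nonneg _) (by positivity)
  have w3 : H * V1 ≤ 2 * (103 / 100 * (y ^ 2 / 1000)) :=
    mul_le_mul hH (by linarith) h.le (by norm_num)
  have t1 : U ^ 2 * V2 ≤ U ^ 2 * (-B / 16) := mul_le_mul_of_nonneg_left v2 (sq_nonneg U)
  have t2 : (48 / 100 * y) ^ 2 * B ≤ U ^ 2 * B := mul_le_mul_of_nonneg_right w1 hB
  have t3 : (-4 * (U * U1) + H * V1) * V1 ≤ 7 / 1000 * y ^ 2 * V1 :=
    mul_le_mul_of_nonneg_right (by linarith [sq_nonneg y]) h.le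
  have t4 : 7 / 1000 * y ^ 2 * V1 ≤ 7 / 1000 * y ^ 2 * (103 / 100 * B) :=
    mul_le_mul_of_nonneg_left e2 (by positivity)
  have := mul_nonneg (sq_nonneg y) hB
  linarith

theorem neck_alg {a a1 a2 c c1 c2 s s1 s2 Z Y V1 V2 U U1 : ℝ}
    (ha : 1 / 2 ≤ a) (ha' : a ≤ 1) (hc : 1 / 2 ≤ c) (hc' : c ≤ 1)
    (ha1 : a1 ≤ 0) (ha1' : -(1 / 1000) ≤ a1) (hc1 : 0 ≤ c1) (hc1' : c1 ≤ 1 / 1000)
    (ha2 : a2 ≤ a1 / 8) (hc2 : c2 ≤ -c1 / 8) (hs1 : s1 ^ 2 ≤ -a1 * c1 / 10000)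
    (hs2 : s2 ^ 2 ≤ -a1 * c1 / 10000) (hs : s ^ 2 * c1 ≤ -a1 / 10000) (hs' : s ^ 2 ≤ 1)
    (hV1 : V1 = a1 * Z ^ 2 + 2 * a * Z * s1 * Y + c1 * Y ^ 2)
    (hV2 : V2 = a2 * Z ^ 2 + 4 * a1 * Z * s1 * Y + 2 * a * s1 ^ 2 * Y ^ 2 + 2 * a * Z * s2 * Y +
      c2 * Y ^ 2)
    (hU : U = a * s * Z + c * Y) (hU1 : U1 = a1 * s * Z + a * s1 * Z + a * s * s1 * Y + c1 * Y) :
    V2 ≤ 0 ∧
    (0 < V1 → U ≠ 0 ∧ 2 * U ^ 2 * V2 - 4 * U * U1 * V1 + (a * s ^ 2 + c) * V1 ^ 2 ≤ 0) ∧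
    (V1 < 0 → a * Z ≠ 0 ∧
      2 * (a * Z) ^ 2 * V2 - 4 * (a * Z) * (a1 * Z + a * s1 * Y) * V1 + a * V1 ^ 2 ≤ 0) := by
  obtain ⟨α, rfl⟩ : ∃ α, a1 = -α := ⟨-a1, by ring⟩
  rw [neg_neg] at hs1 hs2 hs
  have hα : 0 ≤ α := by linarith
  have hα' : α ≤ 1 / 1000 := by linarith
  have ha0 : 0 ≤ a := by linarith
  have k1 := neck_cross (Z := Z) (Y := Y) hα hc1 hs1
  have k2 := neck_cross (Z := Z) (Y := Y) hα hc1 hs2
  have qZ : 0 ≤ α * Z ^ 2 := by positivity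
  have qY : 0 ≤ c1 * Y ^ 2 := by positivity
  have m1 := abs_le.1 (neck_le ha0 ha' k1)
  have m2 := abs_le.1 (neck_le ha0 ha' k2)
  have m3 := abs_le.1 (neck_le hα (by linarith) k1)
  have n1 : α * c1 ≤ 1 / 1000 * c1 := mul_le_mul_of_nonneg_right hα' hc1
  have m4 : a * s1 ^ 2 * Y ^ 2 ≤ c1 / 1000 * Y ^ 2 :=
    mul_le_mul_of_nonneg_right ((mul_le_of_le_one_left (sq_nonneg s1) ha').trans (by linarith))
      (sq_nonneg Y)
  have m5 : a2 * Z ^ 2 ≤ -α / 8 * Z ^ 2 := mul_le_mul_of_nonneg_right ha2 (sq_nonneg Z)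
  have m6 : c2 * Y ^ 2 ≤ -c1 / 8 * Y ^ 2 := mul_le_mul_of_nonneg_right hc2 (sq_nonneg Y)
  have v2 : V2 ≤ -(α * Z ^ 2 + c1 * Y ^ 2) / 16 := by rw [hV2]; linarith
  refine ⟨by linarith, fun h => ?_, fun h => ?_⟩
  · have e1 : α * Z ^ 2 ≤ 103 / 100 * (c1 * Y ^ 2) := by rw [hV1] at h; linarith
    have e2 : V1 ≤ 103 / 100 * (c1 * Y ^ 2) := by rw [hV1]; linarith
    have e3 : 0 < c1 * Y ^ 2 := by linarith
    have hc0 : 0 < c1 := hc1.lt_of_ne (by rintro rfl; simp at e3)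
    have hY : 0 < |Y| := abs_pos.2 (by rintro rfl; simp at e3)
    have e6 : (s * s1 * Y) ^ 2 ≤ (1 / 100000) ^ 2 * Y ^ 2 := by
      have t2 : s ^ 2 * s1 ^ 2 ≤ (1 / 100000) ^ 2 :=
        (mul_le_of_le_one_left (sq_nonneg s1) hs').trans (by linarith)
      have := mul_le_mul_of_nonneg_right t2 (sq_nonneg Y)
      linarith
    have f4 := neck_abs (by norm_num) (neck_sZ hα hc0 hs e1)
    have f5 := neck_abs (by positivity) (neck_s1Z hc1 hs1 e1)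
    have g4 := neck_le ha0 ha' f4
    have g5 := neck_le ha0 ha' f5
    have g6 := neck_le ha0 ha' (neck_abs (by norm_num) e6)
    have g0 : |c * Y| = c * |Y| := by rw [abs_mul, abs_of_nonneg (by linarith : 0 ≤ c)]
    have g1 := mul_le_mul_of_nonneg_right hc hY.le
    have g2 := mul_le_mul_of_nonneg_right hc' hY.le
    have g3 := mul_le_mul_of_nonneg_right hc1' hY.le
    have u1 : |U| ≤ 102 / 100 * |Y| := by
      have := abs_add_le (a * (s * Z)) (c * Y)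
      rw [hU, mul_assoc]; linarith
    have u2 : 48 / 100 * |Y| ≤ |U| := by
      have := abs_sub U (a * (s * Z))
      rw [show U - a * (s * Z) = c * Y by rw [hU]; ring] at this
      linarith
    have u3 : |U1| ≤ 104 / 100000 * |Y| := by
      have t1 : |-α * (s * Z)| ≤ 1 / 1000 * (102 / 10000 * |Y|) := by
        rw [abs_mul, abs_neg, abs_of_nonneg hα]
        exact mul_le_mul hα' f4 (abs_nonneg _) (by norm_num)
      have t4 : |c1 * Y| = c1 * |Y| := by rw [abs_mul, abs_of_nonneg hc1]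
      have t5 := abs_add_le (-α * (s * Z) + a * (s1 * Z) + a * (s * s1 * Y)) (c1 * Y)
      have t6 := abs_add_le (-α * (s * Z) + a * (s1 * Z)) (a * (s * s1 * Y))
      have t7 := abs_add_le (-α * (s * Z)) (a * (s1 * Z))
      rw [show U1 = -α * (s * Z) + a * (s1 * Z) + a * (s * s1 * Y) + c1 * Y by rw [hU1]; ring]
      linarith
    refine ⟨abs_pos.1 (by linarith), neck_fin hY.le qY ?_ u1 u2 u3 h e2 (by linarith) ?_⟩
    · have := mul_le_mul_of_nonneg_right hc1' (sq_nonneg Y)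
      rw [sq_abs]; linarith
    · have := mul_le_of_le_one_left (sq_nonneg s) ha'
      linarith
  · refine ⟨mul_ne_zero (by linarith) (by rintro rfl; rw [hV1] at h; linarith), ?_⟩
    have t1 : 0 ≤ 3 * (α * Z ^ 2) - 2 * (a * (s1 * Z * Y)) + c1 * Y ^ 2 := by linarith
    have t2 : (a * Z) ^ 2 * V2 ≤ 0 := mul_nonpos_of_nonneg_of_nonpos (sq_nonneg _) (by linarith)
    have t3 : a * V1 * (3 * (α * Z ^ 2) - 2 * (a * (s1 * Z * Y)) + c1 * Y ^ 2) ≤ 0 :=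
      mul_nonpos_of_nonpos_of_nonneg (mul_nonpos_of_nonneg_of_nonpos ha0 h.le) t1
    have t4 : -(4 * (a * Z) * (-α * Z + a * s1 * Y) * V1) + a * V1 ^ 2 =
        a * V1 * (3 * (α * Z ^ 2) - 2 * (a * (s1 * Z * Y)) + c1 * Y ^ 2) := by
      rw [hV1]; ring
    linarith

end Vale.Agent.P255
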