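import Vale.Agent.P255.Defs

/-!
The monotone quantity along a Jacobi field.
-/

open scoped ContDiff Topology Matrix Manifold
open Set Filter

noncomputable section

namespace Vale.Agent.P255

/-- The quadratic form `-2 D u τ ξ + D v ξ²`. -/
def Aq (D u v τ ξ : ℝ) : ℝ := -2 * D * u * τ * ξ + D * v * ξ ^ 2

open Classical in
/-- The correction term of the monotone quantity along a Jacobi field. -/
def Acor (P : Prof) (p q t v τ ξ1 ξ2 : ℝ) : ℝ :=
  if ∀ t', VV P.a P.b P.σ p q t' < v ^ 2 + VV P.a P.b P.σ p q t then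
    (1 - Real.smoothTransition (-1 - t) - Real.smoothTransition (t - 1)) *
        (-deriv (VV P.a P.b P.σ p q) t / (2 * v) * τ ^ 2) +
      Real.smoothTransition (-1 - t) *
        Aq (deriv P.b t / (2 * P.b t ^ 2)) (u2 P.a P.b P.σ p q t) v τ ξ2 +
      Real.smoothTransition (t - 1) *
        Aq (deriv P.a t / (2 * P.a t ^ 2)) (u1 P.a P.σ p q t) v τ ξ1
  else if 0 < deriv (VV P.a P.b P.σ p q) t then
    Aq (deriv (VV P.a P.b P.σ p q) t / (2 * u2 P.a P.b P.σ p q t ^ 2))
      (u2 P.a P.b P.σ p q t) v τ ξ2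
  else if deriv (VV P.a P.b P.σ p q) t < 0 then
    Aq (deriv (VV P.a P.b P.σ p q) t / (2 * u1 P.a P.σ p q t ^ 2)) (u1 P.a P.σ p q t) v τ ξ1
  else 0

theorem ro_sV (P : Prof) (p q : ℝ) : ContDiff ℝ ∞ (VV P.a P.b P.σ p q) := by
  have := P.sa
  have := P.sb
  have := P.sσ
  unfold VV
  fun_prop

theorem ro_su1 (P : Prof) (p q : ℝ) : ContDiff ℝ ∞ (u1 P.a P.σ p q) := by
  have := P.sa
  have := P.sσ
  unfold u1
  fun_prop

theorem ro_su2 (P : Prof) (p q : ℝ) : ContDiff ℝ ∞ (u2 P.a P.b P.σ p q) := by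
  have := P.sa
  have := P.sb
  have := P.sσ
  unfold u2
  fun_prop

theorem ro_d1 {f : ℝ → ℝ} (hf : ContDiff ℝ ∞ f) (t : ℝ) : HasDerivAt f (deriv f t) t :=
  (hf.differentiable (by simp) t).hasDerivAt

theorem ro_sd {f : ℝ → ℝ} (hf : ContDiff ℝ ∞ f) : ContDiff ℝ ∞ (deriv f) :=
  (contDiff_infty_iff_deriv.1 hf).2

theorem ro_left (P : Prof) (p q : ℝ) {t : ℝ} (ht : t < -1) :
    deriv (VV P.a P.b P.σ p q) t = deriv P.b t * q ^ 2 ∧ u2 P.a P.b P.σ p q t = P.b t * q := by
  constructor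
  · have he : VV P.a P.b P.σ p q =ᶠ[𝓝 t] fun x => p ^ 2 + P.b x * q ^ 2 := by
      filter_upwards [Iio_mem_nhds ht] with x hx
      have := P.left x (le_of_lt hx)
      simp [VV, this.1, this.2]
    rw [he.deriv_eq]
    exact (((ro_d1 P.sb t).mul_const (q ^ 2)).const_add (p ^ 2)).deriv
  · have := P.left t ht.le
    simp [u2, this.2]

theorem ro_right (P : Prof) (p q : ℝ) {t : ℝ} (ht : 1 < t) :
    deriv (VV P.a P.b P.σ p q) t = deriv P.a t * (p + q) ^ 2 ∧
      u1 P.a P.σ p q t = P.a t * (p + q) := by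
  constructor
  · have he : VV P.a P.b P.σ p q =ᶠ[𝓝 t] fun x => P.a x * (p + q) ^ 2 + P.K ^ 2 * q ^ 2 := by
      filter_upwards [Ioi_mem_nhds ht] with x hx
      have := P.right x (le_of_lt hx)
      simp [VV, this.1, this.2]
    rw [he.deriv_eq]
    exact (((ro_d1 P.sa t).mul_const ((p + q) ^ 2)).add_const (P.K ^ 2 * q ^ 2)).deriv
  · have := P.right t ht.le
    simp [u1, this.2]

theorem ro_v_zero (P : Prof) {p q t v : ℝ}
    (hc : ¬ ∀ t', VV P.a P.b P.σ p q t' < v ^ 2 + VV P.a P.b P.σ p q t)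
    (h0 : deriv (VV P.a P.b P.σ p q) t = 0) : v = 0 := by
  push Not at hc
  obtain ⟨t', ht'⟩ := hc
  have := (P.top p q t h0).1 t'
  have h2 : v ^ 2 ≤ 0 := by linarith
  exact pow_eq_zero_iff (two_ne_zero) |>.1 (le_antisymm h2 (sq_nonneg v))

theorem acor_left (P : Prof) (p q : ℝ) {t : ℝ} (ht : t < -2) (v τ ξ1 ξ2 : ℝ) :
    Acor P p q t v τ ξ1 ξ2 =
      Aq (deriv P.b t / (2 * P.b t ^ 2)) (u2 P.a P.b P.σ p q t) v τ ξ2 := by
  have h1 := ro_left P p q (t := t) (by linarith)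
  have hb := P.b_pos t
  have hb' := (P.P1 t (by linarith)).1
  unfold Acor
  split_ifs with hc hp hn
  · rw [Real.smoothTransition.one_of_one_le (x := -1 - t) (by linarith),
      Real.smoothTransition.zero_of_nonpos (x := t - 1) (by linarith)]
    ring
  · have hq : q ≠ 0 := by
      rintro rfl
      rw [h1.1] at hp
      simp at hp
    rw [h1.1, h1.2]
    congr 1
    field_simp
  · rw [h1.1] at hn
    nlinarith [mul_nonneg hb' (sq_nonneg q)]
  · have h0 : deriv (VV P.a P.b P.σ p q) t = 0 := le_antisymm (not_lt.1 hp) (not_lt.1 hn)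
    have hv := ro_v_zero P hc h0
    rw [h1.1] at h0
    rw [h1.2, hv]
    rcases mul_eq_zero.1 h0 with h | h
    · simp [Aq, h]
    · have : q = 0 := pow_eq_zero_iff (two_ne_zero) |>.1 h
      simp [Aq, this]

theorem acor_right (P : Prof) (p q : ℝ) {t : ℝ} (ht : 2 < t) (v τ ξ1 ξ2 : ℝ) :
    Acor P p q t v τ ξ1 ξ2 =
      Aq (deriv P.a t / (2 * P.a t ^ 2)) (u1 P.a P.σ p q t) v τ ξ1 := by
  have h1 := ro_right P p q (t := t) (by linarith)
  have ha := P.a_pos t
  have ha' := (P.P2 t (by linarith)).1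
  unfold Acor
  split_ifs with hc hp hn
  · rw [Real.smoothTransition.one_of_one_le (x := t - 1) (by linarith),
      Real.smoothTransition.zero_of_nonpos (x := -1 - t) (by linarith)]
    ring
  · rw [h1.1] at hp
    nlinarith [mul_nonneg (neg_nonneg.2 ha') (sq_nonneg (p + q))]
  · have hq : p + q ≠ 0 := by
      intro h
      rw [h1.1, h] at hn
      simp at hn
    rw [h1.1, h1.2]
    congr 1
    field_simp
  · have h0 : deriv (VV P.a P.b P.σ p q) t = 0 := le_antisymm (not_lt.1 hp) (not_lt.1 hn)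
    have hv := ro_v_zero P hc h0
    rw [h1.1] at h0
    rw [h1.2, hv]
    rcases mul_eq_zero.1 h0 with h | h
    · simp [Aq, h]
    · have : p + q = 0 := pow_eq_zero_iff (two_ne_zero) |>.1 h
      simp [Aq, this]

/-- The derivative of `Aq` along a curve. -/
def roAqD (D D' u u' v v' τ w ξ ξ' : ℝ) : ℝ :=
  D' * v * (-2 * u * τ * ξ + v * ξ ^ 2) +
    D * (-2 * u' * v * τ * ξ - 2 * u * w * ξ - 2 * u * τ * ξ' + v' * ξ ^ 2 + 2 * v * ξ * ξ')

theorem ro_Aq {D u t v τ ξ : ℝ → ℝ} {s D' u' v' w ξ' : ℝ} (hD : HasDerivAt D D' (t s))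
    (hu : HasDerivAt u u' (t s)) (ht : HasDerivAt t (v s) s) (hv : HasDerivAt v v' s)
    (hτ : HasDerivAt τ w s) (hξ : HasDerivAt ξ ξ' s) :
    HasDerivAt (fun r => Aq (D (t r)) (u (t r)) (v r) (τ r) (ξ r))
      (roAqD (D (t s)) D' (u (t s)) u' (v s) v' (τ s) w (ξ s) ξ') s := by
  have hD2 : HasDerivAt (fun r => D (t r)) (D' * v s) s := hD.comp s ht
  have hu2 : HasDerivAt (fun r => u (t r)) (u' * v s) s := hu.comp s ht
  have := ((((hD2.const_mul (-2)).fun_mul hu2).fun_mul hτ).fun_mul hξ).fun_add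
    ((hD2.fun_mul hv).fun_mul (hξ.fun_pow 2))
  refine this.congr_deriv ?_
  simp only [roAqD]
  norm_num
  ring

theorem ro_key {V1 D u : ℝ → ℝ} {t0 D' u' V2 : ℝ} (hD : HasDerivAt D D' t0)
    (hu : HasDerivAt u u' t0) (hV : HasDerivAt V1 V2 t0)
    (he : ∀ᶠ x in 𝓝 t0, D x * u x ^ 2 = V1 x / 2) :
    V2 / 2 = D' * u t0 ^ 2 + 2 * D t0 * u t0 * u' := by
  have h1 := hD.fun_mul (hu.fun_pow 2)
  have h2 := (hV.div_const 2).congr_of_eventuallyEq he
  rw [h2.unique h1]
  norm_num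
  ring

theorem ro_alg {D D' u u' v w τ ξ η W V1 V2 h : ℝ} (h1 : D * u ^ 2 = V1 / 2)
    (h2 : V2 / 2 = D' * u ^ 2 + 2 * D * u * u') (hη : η ^ 2 ≤ h * W) (hh : 0 < h)
    (hD : D' + h * D ^ 2 ≤ 0) :
    0 ≤ w ^ 2 - V2 / 2 * τ ^ 2 + W - roAqD D D' u u' v (-V1 / 2) τ w ξ (η + u' * τ) := by
  have e : w ^ 2 - V2 / 2 * τ ^ 2 + W - roAqD D D' u u' v (-V1 / 2) τ w ξ (η + u' * τ) =
      (w + D * u * ξ) ^ 2 + (W - 2 * D * η * (v * ξ - u * τ) + h * D ^ 2 * (v * ξ - u * τ) ^ 2) -
        (D' + h * D ^ 2) * (v * ξ - u * τ) ^ 2 := by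
    have e1 : -V1 / 2 = -(D * u ^ 2) := by linarith
    rw [h2, e1]
    simp only [roAqD]
    ring
  rw [e]
  generalize v * ξ - u * τ = X
  have h3 : 0 ≤ W - 2 * D * η * X + h * D ^ 2 * X ^ 2 := by
    have : 0 ≤ h * (W - 2 * D * η * X + h * D ^ 2 * X ^ 2) := by
      nlinarith [sq_nonneg (η - h * D * X)]
    exact (mul_nonneg_iff_of_pos_left hh).1 this
  have h4 : 0 ≤ -(D' + h * D ^ 2) * X ^ 2 := mul_nonneg (by linarith) (sq_nonneg X)
  nlinarith [sq_nonneg (w + D * u * ξ)]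

theorem ro_cs1 (P : Prof) (p q t : ℝ) :
    u1 P.a P.σ p q t ^ 2 ≤ P.a t * VV P.a P.b P.σ p q t := by
  have ha := P.a_pos t
  have hb := P.b_pos t
  simp only [u1, VV]
  nlinarith [mul_nonneg (mul_pos ha hb).le (sq_nonneg q)]

theorem ro_cs2 (P : Prof) (p q t : ℝ) :
    u2 P.a P.b P.σ p q t ^ 2 ≤ (P.a t * P.σ t ^ 2 + P.b t) * VV P.a P.b P.σ p q t := by
  have ha := P.a_pos t
  have hb := P.b_pos t
  simp only [u2, VV]
  nlinarith [mul_nonneg (mul_pos ha hb).le (sq_nonneg (p + P.σ t * q - P.σ t * q))]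

theorem ro_VV_nonneg (P : Prof) (p q t : ℝ) : 0 ≤ VV P.a P.b P.σ p q t := by
  have ha := P.a_pos t
  have hb := P.b_pos t
  simp only [VV]
  positivity

theorem ro_const {f : ℝ → ℝ} {s : ℝ} (h : ∀ᶠ r in 𝓝 s, HasDerivAt f 0 r) :
    ∀ᶠ r in 𝓝 s, f r = f s := by
  have := ODE_solution_unique_of_eventually (v := fun _ _ => (0 : ℝ)) (s := fun _ => univ)
    (K := 0) (f := f) (g := fun _ => f s) (t₀ := s)
    (Eventually.of_forall fun _ => (LipschitzWith.const (0 : ℝ)).lipschitzOnWith)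
    (h.mono fun r hr => ⟨hr, mem_univ _⟩)
    (Eventually.of_forall fun r => ⟨hasDerivAt_const r _, mem_univ _⟩) rfl
  exact this

theorem ro_rest {F t v : ℝ → ℝ} {s : ℝ} (hF : ContDiff ℝ ∞ F)
    (h : ∀ᶠ r in 𝓝 s, HasDerivAt t (v r) r ∧ HasDerivAt v (F (t r)) r) (hv : v s = 0)
    (h0 : F (t s) = 0) : ∀ᶠ r in 𝓝 s, t r = t s := by
  have hW : ContDiffAt ℝ 1 (fun z : ℝ × ℝ => (z.2, F z.1)) (t s, v s) := by
    have h1 : ContDiff ℝ 1 F := hF.of_le (by simp)
    fun_prop
  obtain ⟨K, N, hN, hK⟩ := hW.exists_lipschitzOnWith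
  have hc : ContinuousAt (fun r => (t r, v r)) s :=
    h.self_of_nhds.1.continuousAt.prodMk h.self_of_nhds.2.continuousAt
  have := ODE_solution_unique_of_eventually (v := fun _ (z : ℝ × ℝ) => (z.2, F z.1))
    (s := fun _ => N) (K := K) (f := fun r => (t r, v r)) (g := fun _ => (t s, v s)) (t₀ := s)
    (Eventually.of_forall fun _ => hK)
    ((h.and (hc.eventually hN)).mono fun r hr => ⟨hr.1.1.prodMk hr.1.2, hr.2⟩)
    (Eventually.of_forall fun r => ⟨by
      have e : ((v s, F (t s)) : ℝ × ℝ) = 0 := by rw [hv, h0]; rfl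
      simp only [e]
      exact hasDerivAt_const r _, mem_of_mem_nhds hN⟩) rfl
  exact this.mono fun r hr => congrArg Prod.fst hr

theorem ro_quot {f u : ℝ → ℝ} {t f' u' : ℝ} (hf : HasDerivAt f f' t) (hu : HasDerivAt u u' t)
    (h0 : u t ≠ 0) : HasDerivAt (fun x => f x / (2 * u x ^ 2))
      ((f' * u t - 2 * f t * u') / (2 * u t ^ 3)) t := by
  have := hf.fun_div ((hu.fun_pow 2).const_mul 2) (by positivity)
  refine this.congr_deriv ?_
  norm_num
  field_simp

theorem ro_chi0 {x : ℝ} (hx : x ≤ 0) : deriv Real.smoothTransition x = 0 := by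
  refine IsLocalMin.deriv_eq_zero (Eventually.of_forall fun y => ?_)
  rw [Real.smoothTransition.zero_of_nonpos hx]
  exact Real.smoothTransition.nonneg y

theorem ro_A0 {V1 t v τ : ℝ → ℝ} {s V2 w : ℝ} (hV : HasDerivAt V1 V2 (t s))
    (ht : HasDerivAt t (v s) s) (hv : HasDerivAt v (-V1 (t s) / 2) s) (hτ : HasDerivAt τ w s)
    (h0 : v s ≠ 0) : HasDerivAt (fun r => -V1 (t r) / (2 * v r) * τ r ^ 2)
      (w ^ 2 - V2 / 2 * τ s ^ 2 - (w + V1 (t s) * τ s / (2 * v s)) ^ 2) s := by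
  have hV2 : HasDerivAt (fun r => V1 (t r)) (V2 * v s) s := hV.comp s ht
  have := (hV2.fun_neg.fun_div (hv.const_mul 2) (by positivity)).fun_mul (hτ.fun_pow 2)
  refine this.congr_deriv ?_
  norm_num
  field_simp
  ring

theorem ro_cross {B' c1 c2 d1 d2 v A0 A1 A2 a0 a1 a2 : ℝ}
    (hc : c1 + c2 ≤ 1) (h0 : 0 ≤ B' - a0) (h1 : 0 ≤ c1 * (B' - a1)) (h2 : 0 ≤ c2 * (B' - a2))
    (h3 : 0 ≤ d1 * (v * (A1 - A0))) (h4 : d2 * (v * (A2 - A0)) ≤ 0) :
    0 ≤ B' - ((-(d1 * -v) - d2 * v) * A0 + (1 - c1 - c2) * a0 + (d1 * -v * A1 + c1 * a1) +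
      (d2 * v * A2 + c2 * a2)) := by
  have h5 : 0 ≤ (1 - c1 - c2) * (B' - a0) := mul_nonneg (by linarith) h0
  nlinarith

theorem ro_X {D u v τ ξ V1 : ℝ} (h : D * u ^ 2 = V1 / 2) (hv : v ≠ 0) :
    v * (Aq D u v τ ξ - -V1 / (2 * v) * τ ^ 2) = D * (v * ξ - u * τ) ^ 2 := by
  have e : V1 = 2 * (D * u ^ 2) := by linarith
  rw [e]
  simp only [Aq]
  field_simp
  ring

theorem ricc_ode (P : Prof) {p q π1 π2 : ℝ} {t v τ w ξ1 ξ2 : ℝ → ℝ} {s : ℝ}
    (h : ∀ᶠ r in 𝓝 s, HasDerivAt t (v r) r ∧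
      HasDerivAt v (-deriv (VV P.a P.b P.σ p q) (t r) / 2) r ∧ HasDerivAt τ (w r) r ∧
      HasDerivAt w (-deriv (deriv (VV P.a P.b P.σ p q)) (t r) / 2 * τ r -
        (π1 * deriv (u1 P.a P.σ p q) (t r) + π2 * deriv (u2 P.a P.b P.σ p q) (t r))) r ∧
      HasDerivAt ξ1 (u1 P.a P.σ π1 π2 (t r) + deriv (u1 P.a P.σ p q) (t r) * τ r) r ∧
      HasDerivAt ξ2 (u2 P.a P.b P.σ π1 π2 (t r) + deriv (u2 P.a P.b P.σ p q) (t r) * τ r) r) :
    ∃ m', HasDerivAt (fun r => w r * τ r + π1 * ξ1 r + π2 * ξ2 r -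
        Acor P p q (t r) (v r) (τ r) (ξ1 r) (ξ2 r)) m' s ∧ 0 ≤ m' ∧
      (τ s = 0 → ξ1 s = 0 → ξ2 s = 0 → m' = w s ^ 2 + VV P.a P.b P.σ π1 π2 (t s)) := by
  have hs := h.self_of_nhds
  obtain ⟨ht, hv, hτ, hw, hξ1, hξ2⟩ := hs
  have sV := ro_sV P p q
  have hV1 := ro_d1 (ro_sd sV)
  have hu1 := ro_d1 (ro_su1 P p q)
  have hu2 := ro_d1 (ro_su2 P p q)
  have hW := ro_VV_nonneg P π1 π2 (t s)
  have hB : HasDerivAt (fun r => w r * τ r + π1 * ξ1 r + π2 * ξ2 r)
      (w s ^ 2 - deriv (deriv (VV P.a P.b P.σ p q)) (t s) / 2 * τ s ^ 2 +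
        VV P.a P.b P.σ π1 π2 (t s)) s := by
    refine (((hw.fun_mul hτ).fun_add (hξ1.const_mul π1)).fun_add (hξ2.const_mul π2)).congr_deriv ?_
    simp only [VV, u1, u2]
    ring
  have hE : ∀ᶠ r in 𝓝 s, v r ^ 2 + VV P.a P.b P.σ p q (t r) =
      v s ^ 2 + VV P.a P.b P.σ p q (t s) := by
    refine ro_const (f := fun r => v r ^ 2 + VV P.a P.b P.σ p q (t r)) (h.mono fun r hr => ?_)
    have h1 : HasDerivAt (fun r => VV P.a P.b P.σ p q (t r))
      (deriv (VV P.a P.b P.σ p q) (t r) * v r) r := (ro_d1 sV (t r)).comp r hr.1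
    refine ((hr.2.1.fun_pow 2).fun_add h1).congr_deriv ?_
    norm_num
    ring
  have hcV : ContinuousAt (fun r => deriv (VV P.a P.b P.σ p q) (t r)) s :=
    (ro_sd sV).continuous.continuousAt.comp ht.continuousAt
  by_cases hc : ∀ t', VV P.a P.b P.σ p q t' < v s ^ 2 + VV P.a P.b P.σ p q (t s)
  · have hv0 : v s ≠ 0 := by
      intro h0
      have := hc (t s)
      rw [h0] at this
      simp at this
    have sχ : ContDiff ℝ ∞ Real.smoothTransition := Real.smoothTransition.contDiff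
    have hχ1 : HasDerivAt (fun r => Real.smoothTransition (-1 - t r))
        (deriv Real.smoothTransition (-1 - t s) * -v s) s :=
      HasDerivAt.comp (h := fun r => -1 - t r) s (ro_d1 sχ (-1 - t s)) (ht.const_sub (-1))
    have hχ2 : HasDerivAt (fun r => Real.smoothTransition (t r - 1))
        (deriv Real.smoothTransition (t s - 1) * v s) s :=
      HasDerivAt.comp (h := fun r => t r - 1) s (ro_d1 sχ (t s - 1)) (ht.sub_const 1)
    have hDb := ro_quot (ro_d1 (ro_sd P.sb) (t s)) (ro_d1 P.sb (t s)) (P.b_pos _).ne'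
    have hDa := ro_quot (ro_d1 (ro_sd P.sa) (t s)) (ro_d1 P.sa (t s)) (P.a_pos _).ne'
    have hA0 := ro_A0 (hV1 (t s)) ht hv hτ hv0
    have hA1 := ro_Aq hDb (hu2 (t s)) ht hv hτ hξ2
    have hA2 := ro_Aq hDa (hu1 (t s)) ht hv hτ hξ1
    have hF := ((((hχ1.const_sub 1).fun_sub hχ2).fun_mul hA0).fun_add (hχ1.fun_mul hA1)).fun_add
      (hχ2.fun_mul hA2)
    have hd1 : 0 ≤ deriv Real.smoothTransition (-1 - t s) :=
      Real.smoothTransition.monotone.deriv_nonneg
    have hd2 : 0 ≤ deriv Real.smoothTransition (t s - 1) :=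
      Real.smoothTransition.monotone.deriv_nonneg
    have hL : ∀ x < -1, deriv P.b x / (2 * P.b x ^ 2) * u2 P.a P.b P.σ p q x ^ 2 =
        deriv (VV P.a P.b P.σ p q) x / 2 := by
      intro x hx
      have := (P.b_pos x).ne'
      rw [(ro_left P p q hx).1, (ro_left P p q hx).2]
      field_simp
    have hR : ∀ x > 1, deriv P.a x / (2 * P.a x ^ 2) * u1 P.a P.σ p q x ^ 2 =
        deriv (VV P.a P.b P.σ p q) x / 2 := by
      intro x hx
      have := (P.a_pos x).ne'
      rw [(ro_right P p q hx).1, (ro_right P p q hx).2]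
      field_simp
    refine ⟨_, (hB.fun_sub hF).congr_of_eventuallyEq ?_, ?_, ?_⟩
    · filter_upwards [hE] with r hr
      simp only [Acor]
      rw [if_pos (by rw [hr]; exact hc)]
    · refine ro_cross ?_ ?_ ?_ ?_ ?_ ?_
      · rcases le_total (t s) 0 with h0 | h0
        · rw [Real.smoothTransition.zero_of_nonpos (x := t s - 1) (by linarith)]
          linarith [Real.smoothTransition.le_one (-1 - t s)]
        · rw [Real.smoothTransition.zero_of_nonpos (x := -1 - t s) (by linarith)]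
          linarith [Real.smoothTransition.le_one (t s - 1)]
      · nlinarith [sq_nonneg (w s + deriv (VV P.a P.b P.σ p q) (t s) * τ s / (2 * v s))]
      · rcases lt_or_ge (t s) (-1) with h0 | h0
        · refine mul_nonneg (Real.smoothTransition.nonneg _) ?_
          have hb := P.b_pos (t s)
          have hl := P.left (t s) h0.le
          refine ro_alg (h := P.b (t s)) (hL _ h0)
            (ro_key hDb (hu2 _) (hV1 _) (mem_of_superset (Iio_mem_nhds h0) hL)) ?_ hb ?_
          · have := ro_cs2 P π1 π2 (t s)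
            rw [hl.2] at this
            simpa using this
          · have := (P.P1 (t s) h0.le).2
            have e : (deriv (deriv P.b) (t s) * P.b (t s) - 2 * deriv P.b (t s) * deriv P.b (t s)) /
                (2 * P.b (t s) ^ 3) + P.b (t s) * (deriv P.b (t s) / (2 * P.b (t s) ^ 2)) ^ 2 =
                (2 * P.b (t s) * deriv (deriv P.b) (t s) - 3 * deriv P.b (t s) ^ 2) /
                  (4 * P.b (t s) ^ 3) := by
              field_simp
              ring
            rw [e]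
            exact div_nonpos_of_nonpos_of_nonneg (by linarith) (by positivity)
        · rw [Real.smoothTransition.zero_of_nonpos (x := -1 - t s) (by linarith), zero_mul]
      · rcases lt_or_ge 1 (t s) with h0 | h0
        · refine mul_nonneg (Real.smoothTransition.nonneg _) ?_
          have ha := P.a_pos (t s)
          refine ro_alg (h := P.a (t s)) (hR _ h0)
            (ro_key hDa (hu1 _) (hV1 _) (mem_of_superset (Ioi_mem_nhds h0) hR)) (ro_cs1 P π1 π2 (t s)) ha ?_
          have := (P.P2 (t s) h0.le).2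
          have e : (deriv (deriv P.a) (t s) * P.a (t s) - 2 * deriv P.a (t s) * deriv P.a (t s)) /
              (2 * P.a (t s) ^ 3) + P.a (t s) * (deriv P.a (t s) / (2 * P.a (t s) ^ 2)) ^ 2 =
              (2 * P.a (t s) * deriv (deriv P.a) (t s) - 3 * deriv P.a (t s) ^ 2) /
                (4 * P.a (t s) ^ 3) := by
            field_simp
            ring
          rw [e]
          exact div_nonpos_of_nonpos_of_nonneg (by linarith) (by positivity)
        · rw [Real.smoothTransition.zero_of_nonpos (x := t s - 1) (by linarith), zero_mul]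
      · rcases lt_or_ge (t s) (-1) with h0 | h0
        · rw [ro_X (hL _ h0) hv0]
          have := (P.P1 (t s) h0.le).1
          positivity
        · rw [ro_chi0 (x := -1 - t s) (by linarith), zero_mul]
      · rcases lt_or_ge 1 (t s) with h0 | h0
        · rw [ro_X (hR _ h0) hv0]
          have := (P.P2 (t s) h0.le).1
          refine mul_nonpos_of_nonneg_of_nonpos hd2 (mul_nonpos_of_nonpos_of_nonneg ?_ (sq_nonneg _))
          exact div_nonpos_of_nonpos_of_nonneg this (by positivity)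
        · rw [ro_chi0 (x := t s - 1) (by linarith), zero_mul]
    · intro h1 h2 h3
      simp [h1, h2, h3, roAqD, Aq]
  · rcases lt_trichotomy 0 (deriv (VV P.a P.b P.σ p q) (t s)) with h0 | h0 | h0
    · obtain ⟨hne, hC⟩ := P.C1 p q (t s) h0
      have hD := ro_quot (hV1 (t s)) (hu2 (t s)) hne
      have hA := ro_Aq hD (hu2 (t s)) ht hv hτ hξ2
      refine ⟨_, (hB.fun_sub hA).congr_of_eventuallyEq ?_, ?_, ?_⟩
      · filter_upwards [hE, hcV.eventually (lt_mem_nhds h0)] with r hr hr'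
        simp only [Acor]
        rw [if_neg (by rw [hr]; exact hc), if_pos hr']
      · have ha := P.a_pos (t s)
        have hb := P.b_pos (t s)
        refine ro_alg (h := P.a (t s) * P.σ (t s) ^ 2 + P.b (t s)) (by field_simp)
          (ro_key hD (hu2 _) (hV1 _) ?_) (ro_cs2 P π1 π2 (t s)) (by positivity) ?_
        · filter_upwards [(hu2 (t s)).continuousAt.eventually_ne hne] with x hx
          field_simp
        · generalize u2 P.a P.b P.σ p q (t s) = U at *
          generalize deriv (u2 P.a P.b P.σ p q) (t s) = U1 at *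
          generalize deriv (deriv (VV P.a P.b P.σ p q)) (t s) = V2 at *
          generalize deriv (VV P.a P.b P.σ p q) (t s) = V1 at *
          generalize P.a (t s) * P.σ (t s) ^ 2 + P.b (t s) = H at *
          have e : (V2 * U - 2 * V1 * U1) / (2 * U ^ 3) + H * (V1 / (2 * U ^ 2)) ^ 2 =
              (2 * U ^ 2 * V2 - 4 * U * U1 * V1 + H * V1 ^ 2) / (4 * U ^ 4) := by
            field_simp
            ring
          rw [e]
          exact div_nonpos_of_nonpos_of_nonneg hC (by positivity)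
      · intro h1 h2 h3
        simp [h1, h3, roAqD]
    · have hv0 := ro_v_zero P hc h0.symm
      have hrest := ro_rest (F := fun x => -deriv (VV P.a P.b P.σ p q) x / 2) (t := t) (v := v)
        (s := s) ((ro_sd sV).neg.div_const 2) (h.mono fun r hr => ⟨hr.1, hr.2.1⟩) hv0
        (by simp [← h0])
      refine ⟨_, hB.congr_of_eventuallyEq ?_, ?_, ?_⟩
      · filter_upwards [hE, hrest] with r hr hr'
        simp only [Acor]
        rw [if_neg (by rw [hr]; exact hc), hr', ← h0, if_neg (lt_irrefl _), if_neg (lt_irrefl _),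
          sub_zero]
      · have := (P.top p q (t s) h0.symm).2
        nlinarith [sq_nonneg (w s), mul_nonneg (neg_nonneg.2 this) (sq_nonneg (τ s))]
      · intro h1 h2 h3
        simp [h1]
    · obtain ⟨hne, hC⟩ := P.C2 p q (t s) h0
      have hD := ro_quot (hV1 (t s)) (hu1 (t s)) hne
      have hA := ro_Aq hD (hu1 (t s)) ht hv hτ hξ1
      refine ⟨_, (hB.fun_sub hA).congr_of_eventuallyEq ?_, ?_, ?_⟩
      · filter_upwards [hE, hcV.eventually (gt_mem_nhds h0)] with r hr hr'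
        simp only [Acor]
        rw [if_neg (by rw [hr]; exact hc), if_neg (not_lt.2 hr'.le), if_pos hr']
      · have ha := P.a_pos (t s)
        refine ro_alg (h := P.a (t s)) (by field_simp)
          (ro_key hD (hu1 _) (hV1 _) ?_) (ro_cs1 P π1 π2 (t s)) ha ?_
        · filter_upwards [(hu1 (t s)).continuousAt.eventually_ne hne] with x hx
          field_simp
        · generalize u1 P.a P.σ p q (t s) = U at *
          generalize deriv (u1 P.a P.σ p q) (t s) = U1 at *
          generalize deriv (deriv (VV P.a P.b P.σ p q)) (t s) = V2 at *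
          generalize deriv (VV P.a P.b P.σ p q) (t s) = V1 at *
          generalize P.a (t s) = H at *
          have e : (V2 * U - 2 * V1 * U1) / (2 * U ^ 3) + H * (V1 / (2 * U ^ 2)) ^ 2 =
              (2 * U ^ 2 * V2 - 4 * U * U1 * V1 + H * V1 ^ 2) / (4 * U ^ 4) := by
            field_simp
            ring
          rw [e]
          exact div_nonpos_of_nonpos_of_nonneg hC (by positivity)
      · intro h1 h2 h3
        simp [h1, h2, roAqD]

end Vale.Agent.P255
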