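import Vale.Agent.P255.Geod
import Vale.Agent.P255.Mfd
import Vale.Agent.P255.RiccODE
import Vale.Agent.P255.Gmc

/-!
The metric of the example has no conjugate points.
-/

open scoped ContDiff Topology Matrix Manifold
open Set Filter

noncomputable section

namespace Vale.Agent.P255

/-- First momentum. -/
def mp (P : Prof) (t : ℝ) (V : E) : ℝ := P.g11 t * V 1 + P.g12 t * V 2

/-- Second momentum. -/
def mq (P : Prof) (t : ℝ) (V : E) : ℝ := P.g12 t * V 1 + P.g22 t * V 2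

/-- First linearized momentum. -/
def mp1 (P : Prof) (t : ℝ) (V J K : E) : ℝ :=
  P.g11 t * K 1 + P.g12 t * K 2 + J 0 * (deriv P.g11 t * V 1 + deriv P.g12 t * V 2)

/-- Second linearized momentum. -/
def mp2 (P : Prof) (t : ℝ) (V J K : E) : ℝ :=
  P.g12 t * K 1 + P.g22 t * K 2 + J 0 * (deriv P.g12 t * V 1 + deriv P.g22 t * V 2)

/-- The monotone quantity in a chart. -/
def mfun (P : Prof) (t : ℝ) (V J K : E) : ℝ :=
  K 0 * J 0 + mp1 P t V J K * J 1 + mp2 P t V J K * J 2 -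
    Acor P (mp P t V) (mq P t V) t (V 0) (J 0) (J 1) (J 2)

theorem ev_const {f : ℝ → ℝ} {s : ℝ} (h : ∀ᶠ r in 𝓝 s, HasDerivAt f 0 r) :
    ∀ᶠ r in 𝓝 s, f r = f s := by
  obtain ⟨ε, hε, h'⟩ := Metric.eventually_nhds_iff_ball.1 h
  filter_upwards [Metric.ball_mem_nhds s hε] with r hr
  exact (convex_ball s ε).is_const_of_fderivWithin_eq_zero (𝕜 := ℝ)
    (fun z hz => (h' z hz).differentiableAt.differentiableWithinAt)
    (fun z hz => by
      rw [fderivWithin_of_isOpen Metric.isOpen_ball hz, (h' z hz).hasFDerivAt.fderiv]; simp)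
    hr (Metric.mem_ball_self hε)

theorem mfun_deriv (P : Prof) {x V J K : ℝ → E} {s : ℝ}
    (hx : ∀ᶠ r in 𝓝 s, HasDerivAt (fun r => (x r, V r)) (Wf (Gm P) (x r, V r)) r)
    (hJ : ∀ᶠ r in 𝓝 s, HasDerivAt (fun r => (J r, K r))
      (fderiv ℝ (Wf (Gm P)) (x r, V r) (J r, K r)) r) :
    ∃ m', HasDerivAt (fun r => mfun P (x r 0) (V r) (J r) (K r)) m' s ∧ 0 ≤ m' ∧
      (J s = 0 → m' = 0 → K s = 0) := by
  have hG := gm_good P
  have hP : ∀ Y : E, ∀ᶠ r in 𝓝 s, HasDerivAt (fun r => ip (Gm P (x r)) (V r) Y)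
      (dG (Gm P) (x r) Y (V r) (V r) / 2) r := fun Y =>
    hx.mono fun r hr => hG.ham_P (mem_univ _) hr Y
  have hPi : ∀ Y : E, ∀ᶠ r in 𝓝 s, HasDerivAt J (K r) r ∧
      HasDerivAt (fun r => ip (Gm P (x r)) (K r) Y + dG (Gm P) (x r) (J r) (V r) Y)
        (dG (Gm P) (x r) Y (V r) (K r) +
          lineDeriv ℝ (fun z => dG (Gm P) z Y (V r) (V r)) (x r) (J r) / 2) r := fun Y =>
    (hx.and hJ).mono fun r hr => hG.ham_Pi (mem_univ _) hr.1 hr.2 Y
  have cp : ∀ᶠ r in 𝓝 s, mp P (x r 0) (V r) = mp P (x s 0) (V s) :=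
    ev_const ((hP ![0, 1, 0]).mono fun r hr => by simpa [ip_gm, dG_gm, Qf, mp] using hr)
  have cq : ∀ᶠ r in 𝓝 s, mq P (x r 0) (V r) = mq P (x s 0) (V s) :=
    ev_const ((hP ![0, 0, 1]).mono fun r hr => by simpa [ip_gm, dG_gm, Qf, mq] using hr)
  have c1 : ∀ᶠ r in 𝓝 s, mp1 P (x r 0) (V r) (J r) (K r) = mp1 P (x s 0) (V s) (J s) (K s) :=
    ev_const ((hPi ![0, 1, 0]).mono fun r hr => by
      have := hr.2
      rw [ddG_gm] at this
      simpa [ip_gm, dG_gm, Qf, mp1] using this)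
  have c2 : ∀ᶠ r in 𝓝 s, mp2 P (x r 0) (V r) (J r) (K r) = mp2 P (x s 0) (V s) (J s) (K s) :=
    ev_const ((hPi ![0, 0, 1]).mono fun r hr => by
      have := hr.2
      rw [ddG_gm] at this
      simpa [ip_gm, dG_gm, Qf, mp2] using this)
  set p := mp P (x s 0) (V s) with hp
  set q := mq P (x s 0) (V s) with hq
  set π1 := mp1 P (x s 0) (V s) (J s) (K s) with h1
  set π2 := mp2 P (x s 0) (V s) (J s) (K s) with h2
  obtain ⟨m', hm, hm0, hm1⟩ := ricc_ode P (p := p) (q := q) (π1 := π1) (π2 := π2)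
    (t := fun r => x r 0) (v := fun r => V r 0) (τ := fun r => J r 0) (w := fun r => K r 0)
    (ξ1 := fun r => J r 1) (ξ2 := fun r => J r 2) (s := s) (by
      filter_upwards [hx, hP ![1, 0, 0], hPi ![1, 0, 0], cp, cq, c1, c2] with r a1 a2 a3 a4 a5 a6 a7
      obtain ⟨-, -, b1, b2, b3, b4⟩ := ham_alg P (τ := J r 0) (V := V r) (K := K r) a4.symm a5.symm
        a6.symm a7.symm
      have hx' : HasDerivAt x (V r) r := a1.fst
      refine ⟨hasDerivAt_pi.1 hx' 0, ?_, hasDerivAt_pi.1 a3.1 0, ?_, ?_, ?_⟩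
      · rw [← b1]
        simpa [ip_gm, dG_gm, Qf] using a2
      · rw [← b2]
        have := a3.2
        rw [ddG_gm] at this
        simpa [ip_gm, dG_gm, Qf] using this
      · rw [← b3]; exact hasDerivAt_pi.1 a3.1 1
      · rw [← b4]; exact hasDerivAt_pi.1 a3.1 2)
  refine ⟨m', hm.congr_of_eventuallyEq ?_, hm0, fun hJ0 hz => ?_⟩
  · filter_upwards [cp, cq, c1, c2] with r a4 a5 a6 a7
    simp only [mfun, a4, a5, a6, a7]
  · have := hm1 (by simp [hJ0]) (by simp [hJ0]) (by simp [hJ0])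
    obtain ⟨-, -, -, -, b3, b4⟩ := ham_alg P (τ := J s 0) (V := V s) (K := K s) hp hq h1 h2
    have ha := P.a_pos (x s 0)
    have hb := P.b_pos (x s 0)
    simp only [VV] at this
    have k1 := mul_nonneg ha.le (sq_nonneg (π1 + P.σ (x s 0) * π2))
    have k2 := mul_nonneg hb.le (sq_nonneg π2)
    have k0 := sq_nonneg (K s 0)
    have e0 : K s 0 = 0 := pow_eq_zero_iff two_ne_zero |>.1 (by linarith)
    have e1 : π1 + P.σ (x s 0) * π2 = 0 :=
      pow_eq_zero_iff two_ne_zero |>.1 ((mul_eq_zero.1 (by linarith)).resolve_left ha.ne')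
    have e2 : π2 = 0 :=
      pow_eq_zero_iff two_ne_zero |>.1 ((mul_eq_zero.1 (by linarith)).resolve_left hb.ne')
    simp only [u1, u2, e1, hJ0] at b3 b4
    funext i
    fin_cases i
    · exact e0
    · simpa using b3
    · simpa [e2] using b4

theorem g_left (P : Prof) {t : ℝ} (ht : t < -2) : deriv P.g11 t = 0 ∧ deriv P.g12 t = 0 ∧
    deriv P.g22 t = - deriv P.b t / P.b t ^ 2 := by
  have hn : ∀ᶠ r in 𝓝 t, r ≤ -1 := eventually_le_nhds (by linarith)
  refine ⟨?_, ?_, ?_⟩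
  · have : P.g11 =ᶠ[𝓝 t] fun _ => 1 := hn.mono fun r hr => by
      simp [Prof.g11, (P.left r hr).1, (P.left r hr).2]
    rw [this.deriv_eq, deriv_const]
  · have : P.g12 =ᶠ[𝓝 t] fun _ => 0 := hn.mono fun r hr => by
      simp [Prof.g12, (P.left r hr).2]
    rw [this.deriv_eq, deriv_const]
  · have := ((hasDerivAt_const t (1 : ℝ)).fun_div (sm_has P.sb t) (P.b_pos t).ne').deriv
    rw [show P.g22 = fun t => 1 / P.b t from rfl, this]
    ring

theorem g_right (P : Prof) {t : ℝ} (ht : 2 < t) : deriv P.g11 t = - deriv P.a t / P.a t ^ 2 ∧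
    deriv P.g12 t = 0 ∧ deriv P.g22 t = 0 := by
  have hn : ∀ᶠ r in 𝓝 t, r ≥ 1 := eventually_ge_nhds (by linarith)
  refine ⟨?_, ?_, ?_⟩
  · have : P.g11 =ᶠ[𝓝 t] fun r => 1 / P.a r + 1 / P.K ^ 2 := hn.mono fun r hr => by
      simp [Prof.g11, (P.right r hr).1, (P.right r hr).2]
    rw [this.deriv_eq, (((hasDerivAt_const t (1 : ℝ)).fun_div (sm_has P.sa t)
      (P.a_pos t).ne').add_const _).deriv]
    ring
  · have : P.g12 =ᶠ[𝓝 t] fun _ => -1 / P.K ^ 2 := hn.mono fun r hr => by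
      simp [Prof.g12, (P.right r hr).1, (P.right r hr).2]
    rw [this.deriv_eq, deriv_const]
  · have : P.g22 =ᶠ[𝓝 t] fun _ => 1 / P.K ^ 2 := hn.mono fun r hr => by
      simp [Prof.g22, (P.right r hr).1]
    rw [this.deriv_eq, deriv_const]

theorem mfun_out (P : Prof) {x J : ℝ → E} {V K : E} {s : ℝ} (ht : x s 0 < -2 ∨ 2 < x s 0)
    (hx : HasDerivAt x V s) (hJ : HasDerivAt J K s) :
    HasDerivAt (fun r => ip (Gm P (x r)) (J r) (J r)) (2 * mfun P (x s 0) V (J s) K) s := by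
  have h0 : HasDerivAt (fun r => x r 0) (V 0) s := hasDerivAt_pi.1 hx 0
  have j0 : HasDerivAt (fun r => J r 0) (K 0) s := hasDerivAt_pi.1 hJ 0
  have j1 : HasDerivAt (fun r => J r 1) (K 1) s := hasDerivAt_pi.1 hJ 1
  have j2 : HasDerivAt (fun r => J r 2) (K 2) s := hasDerivAt_pi.1 hJ 2
  have k : ∀ {f : ℝ → ℝ}, ContDiff ℝ ∞ f →
      HasDerivAt (fun r => f (x r 0)) (deriv f (x s 0) * V 0) s := fun {f} hf =>
    (sm_has hf (x s 0)).comp s h0
  have := (j0.fun_mul j0).fun_add ((((k P.s11).fun_mul (j1.fun_mul j1)).fun_add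
    ((k P.s12).fun_mul ((j1.fun_mul j2).fun_add (j2.fun_mul j1)))).fun_add
    ((k P.s22).fun_mul (j2.fun_mul j2)))
  simp only [ip_gm, Qf]
  refine this.congr_deriv ?_
  obtain ⟨a1, a2, -⟩ := ham_alg P (τ := J s 0) (V := V) (K := K) (t := x s 0) rfl rfl rfl rfl
  rcases ht with ht | ht
  · obtain ⟨b1, b2, b3⟩ := g_left P ht
    simp only [mfun, acor_left P _ _ ht, Aq, mp1, mp2, mp, mq, a2, b1, b2, b3]
    ring
  · obtain ⟨b1, b2, b3⟩ := g_right P ht
    simp only [mfun, acor_right P _ _ ht, Aq, mp1, mp2, mp, mq, a1, b1, b2, b3]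
    ring

variable {P : Prof} {M : Type} [TopologicalSpace M] [ChartedSpace E M] {π : E → M} {g : RMetric M}
  {γ : ℝ → M} {J : OpenPartialHomeomorph M E → ℝ → E}

/-- The monotone quantity computed in the chart `e`. -/
def mch (P : Prof) (γ : ℝ → M) (J : OpenPartialHomeomorph M E → ℝ → E)
    (e : OpenPartialHomeomorph M E) (s : ℝ) : ℝ :=
  mfun P (e (γ s) 0) (deriv (e ∘ γ) s) (J e s) (deriv (J e) s)

theorem Model.mch_eq (h : Model P M π g) (hγ : IsGeodesic g γ) (hJ : IsJacobi g γ J)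
    {e e' : OpenPartialHomeomorph M E} (he : e ∈ atlas E M) (he' : e' ∈ atlas E M) {s : ℝ}
    (hs : γ s ∈ e.source) (hs' : γ s ∈ e'.source) : mch P γ J e s = mch P γ J e' s := by
  have ev : ∀ᶠ r in 𝓝 s, γ r ∈ e.source ∧ γ r ∈ e'.source :=
    hγ.1.continuousAt.eventually ((e.open_source.inter e'.open_source).mem_nhds ⟨hs, hs'⟩)
  have out : (e (γ s) 0 < -2 ∨ 2 < e (γ s) 0) → (e' (γ s) 0 < -2 ∨ 2 < e' (γ s) 0) →
      mch P γ J e s = mch P γ J e' s := fun h1 h2 => by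
    have a1 := mfun_out P (x := e ∘ γ) h1 (hγ.2 e he s hs).1.hasDerivAt
      (hJ.2 e he s hs).1.hasDerivAt
    have a2 := mfun_out P (x := e' ∘ γ) h2 (hγ.2 e' he' s hs').1.hasDerivAt
      (hJ.2 e' he' s hs').1.hasDerivAt
    have a3 : (fun r => ip (Gm P ((e ∘ γ) r)) (J e r) (J e r)) =ᶠ[𝓝 s]
        fun r => ip (Gm P ((e' ∘ γ) r)) (J e' r) (J e' r) := ev.mono fun r hr => by
      have := g.compat e he e' he' (γ r) hr.1 hr.2 (J e r) (J e r)
      rw [(h.tgt e he).2.2, (h.tgt e' he').2.2, ← hJ.1 e he e' he' r hr.1 hr.2] at this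
      exact this
    have := (a1.congr_of_eventuallyEq a3.symm).unique a2
    simp only [mch]
    simp only [Function.comp_apply] at this
    linarith
  rcases h.trans e he e' he' (γ s) hs hs' with ⟨c, hc, hT⟩ | h1 | h1
  · have hc' : ContinuousAt (e ∘ γ) s := (hγ.2 e he s hs).1.continuousAt
    have ev2 : ∀ᶠ r in 𝓝 s, (e' ∘ e.symm) =ᶠ[𝓝 (e (γ r))] fun y => y + c :=
      hc'.eventually hT.eventuallyEq_nhds
    have b1 : (e' ∘ γ) =ᶠ[𝓝 s] fun r => (e ∘ γ) r + c := by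
      filter_upwards [ev, ev2] with r hr hr2
      have := hr2.eq_of_nhds
      simpa [e.left_inv hr.1] using this
    have b2 : J e' =ᶠ[𝓝 s] J e := by
      filter_upwards [ev, ev2] with r hr hr2
      rw [hJ.1 e he e' he' r hr.1 hr.2, tr, hr2.fderiv_eq]
      simp
    have b3 : e' (γ s) 0 = e (γ s) 0 := by
      have := b1.eq_of_nhds
      simp only [Function.comp_apply] at this
      simp [this, hc]
    simp only [mch, b3, b2.eq_of_nhds, b2.deriv_eq, b1.deriv_eq, deriv_add_const]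
  · exact out (Or.inl h1.1) (Or.inl h1.2)
  · exact out (Or.inr h1.1) (Or.inr h1.2)

theorem Model.noConj_aux (h : Model P M π g) (hγ : IsGeodesic g γ) (hJ : IsJacobi g γ J)
    {a b : ℝ} (hab : a < b) (ha : VanishesAt γ J a) (hb : VanishesAt γ J b) (t : ℝ) :
    VanishesAt γ J t := by
  let m : ℝ → ℝ := fun s => mch P γ J (chartAt E (γ s)) s
  have key : ∀ s, ∃ m', HasDerivAt m m' s ∧ 0 ≤ m' ∧
      (J (chartAt E (γ s)) s = 0 → m' = 0 → deriv (J (chartAt E (γ s))) s = 0) := fun s => by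
    have he := chart_mem_atlas E (γ s)
    have hs := mem_chart_source E (γ s)
    set e := chartAt E (γ s)
    have o1 := st_ode (Eventually.of_forall (isGeodesic_iff.1 hγ)) he hs
    have o2 := jacobi_lin hγ hJ he hs
    rw [(h.tgt e he).2.2] at o1 o2
    obtain ⟨m', h1, h2, h3⟩ := mfun_deriv P (x := fun r => e (γ r)) (V := deriv (e ∘ γ))
      (J := J e) (K := deriv (J e)) (s := s) (o1.mono fun r hr => hr.2) o2
    refine ⟨m', h1.congr_of_eventuallyEq ?_, h2, h3⟩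
    filter_upwards [o1] with r hr
    exact h.mch_eq hγ hJ (chart_mem_atlas E _) he (mem_chart_source E _) hr.1
  have mono : Monotone m := monotone_of_deriv_nonneg
    (fun s => (key s).choose_spec.1.differentiableAt)
    (fun s => by obtain ⟨m', h1, h2, -⟩ := key s; rwa [h1.deriv])
  have z : ∀ s, VanishesAt γ J s → m s = 0 := fun s hs => by
    have := hs _ (chart_mem_atlas E (γ s)) (mem_chart_source E _)
    simp only [m, mch, mfun, this, Acor, Aq]
    simp
  obtain ⟨m', h1, -, h3⟩ := key a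
  have hz : m' = 0 := by
    have e1 : HasDerivWithinAt m 0 (Icc a b) a :=
      (hasDerivWithinAt_const a (Icc a b) (0 : ℝ)).congr (fun s hs => le_antisymm
        ((mono hs.2).trans_eq (z b hb)) ((z a ha).symm.trans_le (mono hs.1))) (z a ha)
    exact (uniqueDiffOn_Icc hab a (left_mem_Icc.2 hab.le)).eq_deriv _ h1.hasDerivWithinAt e1
  have h0 := ha _ (chart_mem_atlas E (γ a)) (mem_chart_source E _)
  exact jacobi_zero hγ hJ (chart_mem_atlas E _) (mem_chart_source E _) h0 (h3 h0 hz) t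

theorem Model.noConj (h : Model P M π g) : NoConj g := fun _ _ hγ hJ a b hab ha hb => by
  rcases lt_or_gt_of_ne hab with h1 | h1
  · exact h.noConj_aux hγ hJ h1 ha hb
  · exact h.noConj_aux hγ hJ h1 hb ha

end Vale.Agent.P255
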