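import Vale.Agent.P255.Defs

/-!
The gluing relation: algebraic properties and local description.
-/

open scoped ContDiff Topology Matrix Manifold
open Set Filter

noncomputable section

namespace Vale.Agent.P255

/-- Translation by the angle lattice. -/
def SpT (y y' : E) : Prop := ∃ j k : ℤ, y' = y + ![0, 2 * Real.pi * j, 2 * Real.pi * k]

/-- Gluing on one side. -/
def SpG (R : ℝ) (y y' : E) : Prop :=
  y 0 < -2 ∧ y' 0 < -2 ∧ Lat (4 * (R + 2)) (pol1 R y' - pol1 R y)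

/-- The coordinate change that exchanges the two sides. -/
def spS (y : E) : E := ![- y 0, y 2 - y 1, y 1]

/-- The inverse coordinate change. -/
def spS' (y : E) : E := ![- y 0, y 2, y 1 + y 2]

theorem spS_spS' (y : E) : spS (spS' y) = y := by
  ext i; fin_cases i <;> simp [spS, spS']

theorem spS'_spS (y : E) : spS' (spS y) = y := by
  ext i; fin_cases i <;> simp [spS, spS']

theorem spS_smooth : ContDiff ℝ ∞ spS := by
  refine contDiff_pi.2 fun i => ?_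
  fin_cases i <;> simp [spS] <;> fun_prop

theorem spS'_smooth : ContDiff ℝ ∞ spS' := by
  refine contDiff_pi.2 fun i => ?_
  fin_cases i <;> simp [spS'] <;> fun_prop

theorem pol2_eq (R : ℝ) (y : E) : pol2 R y = pol1 R (spS y) := by
  ext i; fin_cases i <;> simp [spS, pol1, pol2]

theorem pol1_smooth (R : ℝ) : ContDiff ℝ ∞ (pol1 R) := by
  refine contDiff_pi.2 fun i => ?_
  fin_cases i <;> simp [pol1] <;> fun_prop

theorem sp_rel_iff (R1 R2 : ℝ) (y y' : E) :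
    Rel R1 R2 y y' ↔ SpT y y' ∨ SpG R1 y y' ∨ SpG R2 (spS y) (spS y') := by
  simp only [Rel, SpT, SpG, pol2_eq]
  have e : ∀ z : E, spS z 0 < -2 ↔ 2 < z 0 := fun z => by simp [spS]
  rw [e, e]

theorem spT_iff {y y' : E} : SpT y y' ↔ y' 0 = y 0 ∧ (∃ j : ℤ, y' 1 = y 1 + 2 * Real.pi * j) ∧
    ∃ k : ℤ, y' 2 = y 2 + 2 * Real.pi * k := by
  constructor
  · rintro ⟨j, k, rfl⟩
    exact ⟨by simp, ⟨j, by simp⟩, ⟨k, by simp⟩⟩
  · rintro ⟨h0, ⟨j, h1⟩, ⟨k, h2⟩⟩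
    refine ⟨j, k, ?_⟩
    ext i; fin_cases i <;> simp [h0, h1, h2]

theorem lat_iff {l : ℝ} {c : E} : Lat l c ↔ (∃ i : ℤ, c 0 = l * i) ∧ (∃ j : ℤ, c 1 = l * j) ∧
    ∃ k : ℤ, c 2 = 2 * Real.pi * k := by
  constructor
  · rintro ⟨i, j, k, rfl⟩
    exact ⟨⟨i, by simp⟩, ⟨j, by simp⟩, ⟨k, by simp⟩⟩
  · rintro ⟨⟨i, h0⟩, ⟨j, h1⟩, ⟨k, h2⟩⟩
    refine ⟨i, j, k, ?_⟩
    ext i; fin_cases i <;> simp [h0, h1, h2]

theorem SpT.refl (y : E) : SpT y y := spT_iff.2 ⟨rfl, ⟨0, by simp⟩, ⟨0, by simp⟩⟩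

theorem SpT.symm {y y' : E} (h : SpT y y') : SpT y' y := by
  obtain ⟨h0, ⟨j, h1⟩, ⟨k, h2⟩⟩ := spT_iff.1 h
  exact spT_iff.2 ⟨h0.symm, ⟨-j, by push_cast; linarith⟩, ⟨-k, by push_cast; linarith⟩⟩

theorem SpT.trans {y y' y'' : E} (h : SpT y y') (h' : SpT y' y'') : SpT y y'' := by
  obtain ⟨h0, ⟨j, h1⟩, ⟨k, h2⟩⟩ := spT_iff.1 h
  obtain ⟨h0', ⟨j', h1'⟩, ⟨k', h2'⟩⟩ := spT_iff.1 h'
  exact spT_iff.2 ⟨h0'.trans h0, ⟨j + j', by push_cast; linarith⟩, ⟨k + k', by push_cast; linarith⟩⟩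

theorem SpT.spS {y y' : E} (h : SpT y y') : SpT (spS y) (spS y') := by
  obtain ⟨h0, ⟨j, h1⟩, ⟨k, h2⟩⟩ := spT_iff.1 h
  refine spT_iff.2 ⟨by simp [P255.spS, h0], ⟨k - j, ?_⟩, ⟨j, ?_⟩⟩
  · simp [P255.spS, h1, h2]; ring
  · simp [P255.spS, h1]

theorem SpT.of_spS {y y' : E} (h : SpT (P255.spS y) (P255.spS y')) : SpT y y' := by
  obtain ⟨h0, ⟨j, h1⟩, ⟨k, h2⟩⟩ := spT_iff.1 h
  simp [P255.spS] at h0 h1 h2
  exact spT_iff.2 ⟨h0, ⟨k, h2⟩, ⟨j + k, by push_cast; linarith⟩⟩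

theorem Lat.add {l : ℝ} {c c' : E} (h : Lat l c) (h' : Lat l c') : Lat l (c + c') := by
  obtain ⟨⟨i, h0⟩, ⟨j, h1⟩, ⟨k, h2⟩⟩ := lat_iff.1 h
  obtain ⟨⟨i', h0'⟩, ⟨j', h1'⟩, ⟨k', h2'⟩⟩ := lat_iff.1 h'
  refine lat_iff.2 ⟨⟨i + i', ?_⟩, ⟨j + j', ?_⟩, ⟨k + k', ?_⟩⟩ <;>
    simp only [Pi.add_apply] <;> push_cast <;> linarith

theorem Lat.neg {l : ℝ} {c : E} (h : Lat l c) : Lat l (-c) := by
  obtain ⟨⟨i, h0⟩, ⟨j, h1⟩, ⟨k, h2⟩⟩ := lat_iff.1 h
  refine lat_iff.2 ⟨⟨-i, ?_⟩, ⟨-j, ?_⟩, ⟨-k, ?_⟩⟩ <;>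
    simp only [Pi.neg_apply] <;> push_cast <;> linarith

theorem SpT.lat {y y' : E} (h : SpT y y') (l R : ℝ) : Lat l (pol1 R y' - pol1 R y) := by
  obtain ⟨h0, ⟨j, h1⟩, ⟨k, h2⟩⟩ := spT_iff.1 h
  have e : y' 2 = y 2 + k * (2 * Real.pi) := by linarith
  refine lat_iff.2 ⟨⟨0, ?_⟩, ⟨0, ?_⟩, ⟨j, ?_⟩⟩
  · simp [pol1, h0, e, Real.cos_add_int_mul_two_pi]
  · simp [pol1, h0, e, Real.sin_add_int_mul_two_pi]
  · simp [pol1, h1]

theorem SpG.symm {R : ℝ} {y y' : E} (h : SpG R y y') : SpG R y' y :=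
  ⟨h.2.1, h.1, by simpa using h.2.2.neg⟩

theorem SpG.trans {R : ℝ} {y y' y'' : E} (h : SpG R y y') (h' : SpG R y' y'') : SpG R y y'' :=
  ⟨h.1, h'.2.1, by simpa using h'.2.2.add h.2.2⟩

theorem SpT.transG {R : ℝ} {y y' y'' : E} (h : SpT y y') (h' : SpG R y' y'') : SpG R y y'' :=
  ⟨(spT_iff.1 h).1 ▸ h'.1, h'.2.1, by simpa using h'.2.2.add (h.lat _ R)⟩

theorem SpG.transT {R : ℝ} {y y' y'' : E} (h : SpG R y y') (h' : SpT y' y'') : SpG R y y'' :=
  (h'.symm.transG h.symm).symm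

theorem sp_rel_refl (R1 R2 : ℝ) (y : E) : Rel R1 R2 y y := (sp_rel_iff ..).2 (Or.inl (SpT.refl y))

theorem sp_rel_symm {R1 R2 : ℝ} {y y' : E} (h : Rel R1 R2 y y') : Rel R1 R2 y' y := by
  rw [sp_rel_iff] at h ⊢
  exact h.imp SpT.symm (Or.imp SpG.symm SpG.symm)

theorem sp_rel_trans {R1 R2 : ℝ} {y y' y'' : E} (h : Rel R1 R2 y y') (h' : Rel R1 R2 y' y'') :
    Rel R1 R2 y y'' := by
  rw [sp_rel_iff] at h h' ⊢
  rcases h with h | h | h <;> rcases h' with h' | h' | h'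
  · exact Or.inl (h.trans h')
  · exact Or.inr (Or.inl (h.transG h'))
  · exact Or.inr (Or.inr (h.spS.transG h'))
  · exact Or.inr (Or.inl (h.transT h'))
  · exact Or.inr (Or.inl (h.trans h'))
  · have h1 := h.2.1
    have h2 := h'.1
    simp [spS] at h2
    linarith
  · exact Or.inr (Or.inr (h.transT h'.spS))
  · have h1 := h.2.1
    have h2 := h'.1
    simp [spS] at h1
    linarith
  · exact Or.inr (Or.inr (h.trans h'))

theorem sp_int_zero {l x : ℝ} {i : ℤ} (h : x = l * i) (hx : |x| < l) : i = 0 := by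
  have hl : 0 < l := (abs_nonneg x).trans_lt hx
  rw [h, abs_mul, abs_of_pos hl] at hx
  have : |(i : ℝ)| < 1 := by nlinarith
  have h2 : |i| < 1 := by exact_mod_cast this
  exact Int.abs_lt_one_iff.1 h2

/-- Points with the same planar image differ by an angle translation. -/
theorem spT_of_pol {R : ℝ} {y y' : E} (hy : y 0 < R) (hy' : y' 0 < R)
    (h0 : pol1 R y' 0 = pol1 R y 0) (h1 : pol1 R y' 1 = pol1 R y 1)
    (h2 : ∃ k : ℤ, pol1 R y' 2 - pol1 R y 2 = 2 * Real.pi * k) : SpT y y' := by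
  simp [pol1] at h0 h1 h2
  have hr : R - y' 0 = R - y 0 := by
    have e : (R - y' 0) ^ 2 = (R - y 0) ^ 2 := by
      have a1 := Real.cos_sq_add_sin_sq (y' 2)
      have a2 := Real.cos_sq_add_sin_sq (y 2)
      calc (R - y' 0) ^ 2 = ((R - y' 0) * Real.cos (y' 2)) ^ 2 +
            ((R - y' 0) * Real.sin (y' 2)) ^ 2 := by linear_combination (-(R - y' 0) ^ 2) * a1
        _ = (R - y 0) ^ 2 := by rw [h0, h1]; linear_combination ((R - y 0) ^ 2) * a2
    exact (pow_left_inj₀ (by linarith) (by linarith) two_ne_zero).1 e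
  rw [hr] at h0 h1
  have hne : R - y 0 ≠ 0 := by linarith
  have hc := mul_left_cancel₀ hne h0
  have hs := mul_left_cancel₀ hne h1
  obtain ⟨k, hk⟩ := Real.Angle.angle_eq_iff_two_pi_dvd_sub.1 (Real.Angle.cos_sin_inj hc hs)
  obtain ⟨j, hj⟩ := h2
  exact spT_iff.2 ⟨by linarith, ⟨j, by linarith⟩, ⟨k, by linarith⟩⟩

theorem sp_pol_le (R : ℝ) (y : E) (hy : y 0 < R) :
    |pol1 R y 0| ≤ R - y 0 ∧ |pol1 R y 1| ≤ R - y 0 := by
  have h : 0 < R - y 0 := by linarith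
  simp only [pol1, Matrix.cons_val_zero, Matrix.cons_val_one, abs_mul, abs_of_pos h]
  exact ⟨mul_le_of_le_one_right h.le (Real.abs_cos_le_one _),
    mul_le_of_le_one_right h.le (Real.abs_sin_le_one _)⟩

/-- Near the boundary circle the gluing is only an angle translation. -/
theorem spT_of_small {R l : ℝ} {y y' : E} (hy : y 0 < R) (hy' : y' 0 < R)
    (hs : (R - y 0) + (R - y' 0) < l) (h : Lat l (pol1 R y' - pol1 R y)) : SpT y y' := by
  obtain ⟨⟨i, h0⟩, ⟨j, h1⟩, h2⟩ := lat_iff.1 h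
  have a := sp_pol_le R y hy
  have b := sp_pol_le R y' hy'
  have hi := sp_int_zero h0 (by
    have := abs_sub (pol1 R y' 0) (pol1 R y 0)
    simp only [Pi.sub_apply]; linarith [a.1, b.1])
  have hj := sp_int_zero h1 (by
    have := abs_sub (pol1 R y' 1) (pol1 R y 1)
    simp only [Pi.sub_apply]; linarith [a.2, b.2])
  subst hi hj
  simp only [Pi.sub_apply, Int.cast_zero, mul_zero, sub_eq_zero] at h0 h1
  exact spT_of_pol hy hy' h0 h1 h2

/-- The planar point rotated by the angle `-a`. -/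
def spW (a : ℝ) (c : E) : ℂ :=
  (c 0 * Real.cos a + c 1 * Real.sin a : ℝ) + (c 1 * Real.cos a - c 0 * Real.sin a : ℝ) * Complex.I

/-- The inverse of cylindrical coordinates near the angle `a`. -/
def spInv (R a : ℝ) (c : E) : E := ![R - ‖spW a c‖, c 2, a + Complex.arg (spW a c)]

theorem pol1_spInv (R a : ℝ) (c : E) : pol1 R (spInv R a c) = c := by
  have h1 := Complex.norm_mul_cos_arg (spW a c)
  have h2 := Complex.norm_mul_sin_arg (spW a c)
  have e1 : (spW a c).re = c 0 * Real.cos a + c 1 * Real.sin a := by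
    simp only [spW, Complex.add_re, Complex.ofReal_re, Complex.mul_re, Complex.I_re, Complex.ofReal_im,
      Complex.I_im]; ring
  have e2 : (spW a c).im = c 1 * Real.cos a - c 0 * Real.sin a := by
    simp only [spW, Complex.add_im, Complex.ofReal_re, Complex.mul_im, Complex.I_re, Complex.ofReal_im,
      Complex.I_im]; ring
  rw [e1] at h1
  rw [e2] at h2
  have a1 := Real.cos_sq_add_sin_sq a
  ext i
  fin_cases i
  · simp only [pol1, spInv, Fin.zero_eta, Matrix.cons_val_zero, Matrix.cons_val, Real.cos_add]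
    linear_combination Real.cos a * h1 - Real.sin a * h2 + c 0 * a1
  · simp only [pol1, spInv, Fin.mk_one, Matrix.cons_val_one, Matrix.cons_val_zero, Matrix.cons_val,
      Real.sin_add]
    linear_combination Real.sin a * h1 + Real.cos a * h2 + c 1 * a1
  · simp [pol1, spInv]

theorem spW_pol1 (R : ℝ) (y : E) : spW (y 2) (pol1 R y) = (R - y 0 : ℝ) := by
  have a1 := Real.cos_sq_add_sin_sq (y 2)
  have e1 : pol1 R y 0 * Real.cos (y 2) + pol1 R y 1 * Real.sin (y 2) = R - y 0 := by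
    simp only [pol1, Matrix.cons_val_zero, Matrix.cons_val_one]
    linear_combination (R - y 0) * a1
  have e2 : pol1 R y 1 * Real.cos (y 2) - pol1 R y 0 * Real.sin (y 2) = 0 := by
    simp only [pol1, Matrix.cons_val_zero, Matrix.cons_val_one]
    ring
  rw [spW, e1, e2]
  simp

theorem spInv_pol1 {R : ℝ} {y : E} (hy : y 0 < R) : spInv R (y 2) (pol1 R y) = y := by
  have h : 0 ≤ R - y 0 := by linarith
  ext i
  fin_cases i
  · simp only [spInv, spW_pol1, Fin.zero_eta, Matrix.cons_val_zero, Complex.norm_real,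
      Real.norm_of_nonneg h]
    ring
  · simp [spInv, pol1]
  · simp only [spInv, spW_pol1, Complex.arg_ofReal_of_nonneg h]
    simp

theorem spW_smooth (a : ℝ) : ContDiff ℝ ∞ (spW a) := by
  unfold spW
  have g1 : ContDiff ℝ ∞ fun c : E => c 0 * Real.cos a + c 1 * Real.sin a := by fun_prop
  have g2 : ContDiff ℝ ∞ fun c : E => c 1 * Real.cos a - c 0 * Real.sin a := by fun_prop
  have h1 : ContDiff ℝ ∞ fun c : E => ((c 0 * Real.cos a + c 1 * Real.sin a : ℝ) : ℂ) :=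
    Complex.ofRealCLM.contDiff.comp g1
  have h2 : ContDiff ℝ ∞ fun c : E => ((c 1 * Real.cos a - c 0 * Real.sin a : ℝ) : ℂ) :=
    Complex.ofRealCLM.contDiff.comp g2
  exact h1.add (h2.mul contDiff_const)

theorem spInv_smooth {R : ℝ} {y : E} (hy : y 0 < R) :
    ContDiffAt ℝ ∞ (spInv R (y 2)) (pol1 R y) := by
  have h : 0 < R - y 0 := by linarith
  have hw := (spW_smooth (y 2)).contDiffAt (x := pol1 R y)
  refine contDiffAt_pi.2 fun i => ?_
  fin_cases i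
  · simp only [spInv, Fin.zero_eta, Matrix.cons_val_zero]
    refine contDiffAt_const.sub (hw.norm ℝ ?_)
    rw [spW_pol1]
    exact_mod_cast h.ne'
  · simp only [spInv, Fin.mk_one, Matrix.cons_val_one, Matrix.cons_val_zero]
    fun_prop
  · simp only [spInv, Fin.reduceFinMk, Matrix.cons_val, ← Complex.log_im]
    refine contDiffAt_const.add ?_
    have hl : ContDiffAt ℝ ∞ Complex.log (spW (y 2) (pol1 R y)) := by
      refine (Complex.contDiffAt_log ?_).restrict_scalars ℝ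
      rw [spW_pol1]
      exact Complex.ofReal_mem_slitPlane.2 h
    exact Complex.imCLM.contDiff.contDiffAt.comp _ (hl.comp _ hw)

/-- The gluing on one side extends to a smooth local map. -/
theorem SpG.exists_map {R : ℝ} (hR : 0 < R + 2) {y y' : E} (h : SpG R y y') :
    ∃ T : E → E, ContDiffAt ℝ ∞ T y ∧ T y = y' ∧ (∀ᶠ z in 𝓝 y, SpG R z (T z)) ∧
      ∃ c, ∀ z, pol1 R (T z) = pol1 R z + c := by
  have hy' : y' 0 < R := by linarith [h.2.1]
  set c := pol1 R y' - pol1 R y with hc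
  have e : pol1 R y + c = pol1 R y' := by rw [hc]; abel
  have hT : ContDiffAt ℝ ∞ (fun z => spInv R (y' 2) (pol1 R z + c)) y := by
    refine ContDiffAt.comp y (g := spInv R (y' 2)) ?_ (((pol1_smooth R).add contDiff_const).contDiffAt)
    rw [e]
    exact spInv_smooth hy'
  have hTy : spInv R (y' 2) (pol1 R y + c) = y' := by rw [e, spInv_pol1 hy']
  refine ⟨_, hT, hTy, ?_, c, fun z => pol1_spInv _ _ _⟩
  have h1 : ∀ᶠ z : E in 𝓝 y, z 0 < -2 :=
    (continuous_apply 0).continuousAt.eventually (gt_mem_nhds h.1)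
  have h2 : ∀ᶠ z : E in 𝓝 y, spInv R (y' 2) (pol1 R z + c) 0 < -2 := by
    refine ((continuous_apply 0).continuousAt.comp hT.continuousAt).eventually (gt_mem_nhds ?_)
    simpa only [Function.comp, hTy] using h.2.1
  filter_upwards [h1, h2] with z a b
  refine ⟨a, b, ?_⟩
  rw [pol1_spInv, add_sub_cancel_left]
  exact h.2.2

/-- The gluing relation extends to a smooth local map. -/
theorem sp_exists_map {R1 R2 : ℝ} (h1 : 0 < R1 + 2) (h2 : 0 < R2 + 2) {y y' : E}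
    (h : Rel R1 R2 y y') : ∃ T : E → E, ContDiffAt ℝ ∞ T y ∧ T y = y' ∧
      (∀ᶠ z in 𝓝 y, Rel R1 R2 z (T z)) ∧
      ((∃ c : E, c 0 = 0 ∧ T = fun z => z + c) ∨
        (y 0 < -2 ∧ y' 0 < -2 ∧ ∃ c, ∀ z, pol1 R1 (T z) = pol1 R1 z + c) ∨
        (2 < y 0 ∧ 2 < y' 0 ∧ ∃ c, ∀ z, pol2 R2 (T z) = pol2 R2 z + c)) := by
  rcases (sp_rel_iff ..).1 h with ⟨j, k, rfl⟩ | h | h
  · refine ⟨fun z => z + ![0, 2 * Real.pi * j, 2 * Real.pi * k], by fun_prop, rfl,
      Eventually.of_forall fun z => Or.inl ⟨j, k, rfl⟩, Or.inl ⟨_, by simp, rfl⟩⟩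
  · obtain ⟨T, a, b, c, d⟩ := h.exists_map h1
    exact ⟨T, a, b, c.mono fun z hz => (sp_rel_iff ..).2 (Or.inr (Or.inl hz)),
      Or.inr (Or.inl ⟨h.1, h.2.1, d⟩)⟩
  · obtain ⟨T, a, b, c, d, hd⟩ := h.exists_map h2
    refine ⟨fun z => spS' (T (spS z)), ?_, by simp only [b, spS'_spS], ?_, Or.inr (Or.inr ⟨?_, ?_, d, ?_⟩)⟩
    · exact spS'_smooth.contDiffAt.comp y (a.comp y spS_smooth.contDiffAt)
    · filter_upwards [spS_smooth.continuous.continuousAt.eventually c] with z hz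
      refine (sp_rel_iff ..).2 (Or.inr (Or.inr ?_))
      rwa [spS_spS']
    · simpa [spS] using h.1
    · simpa [spS] using h.2.1
    · intro z
      rw [pol2_eq, pol2_eq, spS_spS', hd]

end Vale.Agent.P255
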