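import Mathlib

/-!
Riemannian metrics on smooth three-manifolds in local coordinates: Christoffel symbols,
curvature, geodesics, Jacobi fields and conjugate points.
-/

open scoped ContDiff Matrix

noncomputable section

namespace Vale.Agent.P255

/-- The model space `ℝ³`. -/
abbrev E := Fin 3 → ℝ

/-- Real `3 × 3` matrices. -/
abbrev Mat := Matrix (Fin 3) (Fin 3) ℝ

/-- The bilinear form `uᵀ A v` of a matrix. -/
def ip (A : Mat) (u v : E) : ℝ := u ⬝ᵥ A *ᵥ v

/-- The derivative at `y` in the direction `a` of the metric coefficient `G(u, v)`. -/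
def dG (G : E → Mat) (y a u v : E) : ℝ := lineDeriv ℝ (fun z => ip (G z) u v) y a

/-- The Christoffel map `Γ(u, v)` of the metric `G` at `y`:
`Γ(u, v)ᵏ = gᵏˡ (∂_u G(v, e_l) + ∂_v G(u, e_l) - ∂_l G(u, v)) / 2`. -/
def chr (G : E → Mat) (y u v : E) : E :=
  (G y)⁻¹ *ᵥ fun l => (dG G y u v (Pi.single l 1) + dG G y v u (Pi.single l 1) -
    dG G y (Pi.single l 1) u v) / 2

/-- The curvature tensor `R(u, v) w = ∇_u ∇_v w - ∇_v ∇_u w` in coordinates. -/
def riem (G : E → Mat) (y u v w : E) : E :=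
  lineDeriv ℝ (fun z => chr G z v w) y u - lineDeriv ℝ (fun z => chr G z u w) y v +
    chr G y u (chr G y v w) - chr G y v (chr G y u w)

/-- The covariant derivative of a vector field `J` along the coordinate curve `x`. -/
def cov (G : E → Mat) (x J : ℝ → E) (s : ℝ) : E := deriv J s + chr G (x s) (deriv x s) (J s)

variable {M : Type} [TopologicalSpace M] [ChartedSpace E M]

/-- The differential at `x` of the change of coordinates from the chart `e` to the chart `e'`. -/
def tr (e e' : OpenPartialHomeomorph M E) (x : M) (u : E) : E := fderiv ℝ (e' ∘ e.symm) (e x) u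

variable (M) in
/-- A smooth Riemannian metric on `M`, given by its coefficient matrices in the charts of the
atlas, which are smooth, symmetric positive definite and obey the tensor transformation law. -/
structure RMetric where
  g : OpenPartialHomeomorph M E → E → Mat
  smooth : ∀ e ∈ atlas E M, ∀ i j, ContDiffOn ℝ ∞ (fun y => g e y i j) e.target
  pos : ∀ e ∈ atlas E M, ∀ y ∈ e.target, (g e y).PosDef
  compat : ∀ e ∈ atlas E M, ∀ e' ∈ atlas E M, ∀ x ∈ e.source, x ∈ e'.source → ∀ u v,
    ip (g e (e x)) u v = ip (g e' (e' x)) (tr e e' x u) (tr e e' x v)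

/-- Nonpositive sectional curvature: `g(R(u, v) v, u) ≤ 0` everywhere. -/
def Nonpos (g : RMetric M) : Prop :=
  ∀ e ∈ atlas E M, ∀ y ∈ e.target, ∀ u v, ip (g.g e y) (riem (g.g e) y u v v) u ≤ 0

/-- `γ` is a geodesic: in every chart it solves `x'' + Γ(x', x') = 0`. -/
def IsGeodesic (g : RMetric M) (γ : ℝ → M) : Prop :=
  Continuous γ ∧ ∀ e ∈ atlas E M, ∀ t, γ t ∈ e.source → DifferentiableAt ℝ (e ∘ γ) t ∧
    HasDerivAt (deriv (e ∘ γ))
      (- chr (g.g e) (e (γ t)) (deriv (e ∘ γ) t) (deriv (e ∘ γ) t)) t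

/-- `J` is a Jacobi field along `γ`: a vector field along `γ`, given by its components `J e` in
the charts, whose second covariant derivative satisfies `J'' + R(J, γ') γ' = 0`. -/
def IsJacobi (g : RMetric M) (γ : ℝ → M) (J : OpenPartialHomeomorph M E → ℝ → E) : Prop :=
  (∀ e ∈ atlas E M, ∀ e' ∈ atlas E M, ∀ t, γ t ∈ e.source → γ t ∈ e'.source →
    J e' t = tr e e' (γ t) (J e t)) ∧
  ∀ e ∈ atlas E M, ∀ t, γ t ∈ e.source → DifferentiableAt ℝ (J e) t ∧
    DifferentiableAt ℝ (cov (g.g e) (e ∘ γ) (J e)) t ∧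
    cov (g.g e) (e ∘ γ) (cov (g.g e) (e ∘ γ) (J e)) t +
      riem (g.g e) (e (γ t)) (J e t) (deriv (e ∘ γ) t) (deriv (e ∘ γ) t) = 0

/-- The vector field `J` along `γ` vanishes at time `t`. -/
def VanishesAt (γ : ℝ → M) (J : OpenPartialHomeomorph M E → ℝ → E) (t : ℝ) : Prop :=
  ∀ e ∈ atlas E M, γ t ∈ e.source → J e t = 0

/-- No conjugate points: a Jacobi field along a geodesic that vanishes at two distinct times
vanishes identically. -/
def NoConj (g : RMetric M) : Prop :=
  ∀ γ J, IsGeodesic g γ → IsJacobi g γ J → ∀ a b : ℝ, a ≠ b → VanishesAt γ J a →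
    VanishesAt γ J b → ∀ t, VanishesAt γ J t

end Vale.Agent.P255
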